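import Vale.Agent.P335.MatDefs

/-!
# P335: exchanges preserve the margins and connect all matrices with given margins
-/

open Finset
open scoped Classical

namespace Vale.Agent.P335

variable {α β : Type*} [Fintype α] [Fintype β] {r : α → ℕ} {c : β → ℕ}

theorem card_comp_perm (σ : Equiv.Perm β) (p : β → Bool) :
    #(univ.filter fun x => p (σ x) = true) = #(univ.filter fun x => p x = true) :=
  Finset.card_equiv σ (by simp)

theorem card_rows_pair (p : α → Bool) {i k : α} (hik : i ≠ k) :
    #(univ.filter fun l => p l = true) =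
      (p i).toNat + (p k).toNat + #((univ.filter fun l => l ≠ i ∧ l ≠ k).filter fun l => p l = true) := by
  have hb : ∀ b : Bool, (if b = true then 1 else 0) = b.toNat := by decide
  have e : ∀ s : Finset α, #(s.filter fun l => p l = true) = ∑ l ∈ s, (p l).toNat := fun s => by
    rw [card_filter]; simp only [hb]
  rw [e, e, ← add_sum_erase _ _ (mem_univ i),
    ← add_sum_erase _ _ (mem_erase.2 ⟨hik.symm, mem_univ k⟩), add_assoc]
  congr 2
  refine sum_congr ?_ fun _ _ => rfl
  ext l; simp only [mem_erase, mem_filter, mem_univ, and_true, true_and]; tauto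

/-- An exchange preserves the margins. -/
theorem pairSwap_margins (A : Margins r c) {i k : α} (x y : β) (hik : i ≠ k) :
    (∀ l, #(univ.filter fun z => pairSwap i k x y A.1 l z = true) = r l) ∧
      ∀ z, #(univ.filter fun l => pairSwap i k x y A.1 l z = true) = c z := by
  unfold pairSwap
  split_ifs with h
  · refine ⟨fun l => ?_, fun z => ?_⟩
    · by_cases hl : l = i ∨ l = k
      · simp only [hl, if_true]
        exact (card_comp_perm (Equiv.swap x y) (A.1 l)).trans (A.2.1 l)
      · simpa only [hl, if_false] using A.2.1 l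
    · rw [← A.2.2 z, card_rows_pair _ hik, card_rows_pair (fun l => A.1 l z) hik]
      simp only [true_or, or_true, if_true]
      have e : ∀ s : Finset α, ∀ z', (∀ l ∈ s, l ≠ i ∧ l ≠ k) →
          (s.filter fun l => (if l = i ∨ l = k then A.1 l z' else A.1 l z) = true) =
            s.filter fun l => A.1 l z = true := fun s z' hs => by
        refine filter_congr fun l hl => ?_
        obtain ⟨h1, h2⟩ := hs l hl
        simp [h1, h2]
      rw [e _ _ fun l hl => (mem_filter.1 hl).2]
      congr 1
      rcases eq_or_ne z x with rfl | hzx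
      · rw [Equiv.swap_apply_left]; omega
      rcases eq_or_ne z y with rfl | hzy
      · rw [Equiv.swap_apply_right]; omega
      · rw [Equiv.swap_apply_of_ne_of_ne hzx hzy]
  · exact A.2

/-- The exchange as a map of the matrices with given margins. -/
noncomputable def pswap (i k : α) (x y : β) (A : Margins r c) : Margins r c :=
  if h : i = k then A else ⟨pairSwap i k x y A.1, pairSwap_margins A x y h⟩

theorem pswap_val {i k : α} (x y : β) (A : Margins r c) (hik : i ≠ k) :
    (pswap i k x y A).1 = pairSwap i k x y A.1 := by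
  simp [pswap, hik]

/-- Number of disagreements of two matrices. -/
noncomputable def disagree (A B : α → β → Bool) : ℕ :=
  #(univ.filter fun p : α × β => A p.1 p.2 ≠ B p.1 p.2)

/-- If rows agree outside `i`, `k` on the difference, exchanging improves the agreement. -/
theorem disagree_pswap_lt (A B : Margins r c) {i k : α} {x y : β} (hik : i ≠ k)
    (h1 : A.1 i x = true) (h2 : A.1 i y = false) (h3 : A.1 k x = false) (h4 : A.1 k y = true)
    (b1 : B.1 i x = false) (b2 : B.1 i y = true) (b3 : A.1 k y ≠ B.1 k y ∨ A.1 k x ≠ B.1 k x) :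
    disagree (pswap i k x y A).1 B.1 < disagree A.1 B.1 := by
  have hxy : x ≠ y := fun e => by rw [e, h2] at h1; cases h1
  have hv : (pswap i k x y A).1 =
      fun l z => if l = i ∨ l = k then A.1 l (Equiv.swap x y z) else A.1 l z := by
    rw [pswap_val x y A hik, pairSwap, if_pos]
    simp [h1, h2, h3, h4]
  set F := univ.filter fun p : α × β => A.1 p.1 p.2 ≠ B.1 p.1 p.2
  set F' := univ.filter fun p : α × β => (pswap i k x y A).1 p.1 p.2 ≠ B.1 p.1 p.2
  have hsub : F' ⊆ (F \ {(i, x), (i, y)}) ∪ {(k, x), (k, y)} := by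
    intro p hp
    obtain ⟨l, z⟩ := p
    simp only [F', mem_filter, mem_univ, true_and, hv] at hp
    simp only [F, mem_union, mem_sdiff, mem_filter, mem_univ, true_and, mem_insert, mem_singleton,
      Prod.mk.injEq]
    by_cases hl : l = i ∨ l = k
    · rw [if_pos hl] at hp
      rcases eq_or_ne z x with rfl | hzx
      · rcases hl with rfl | rfl
        · rw [Equiv.swap_apply_left, h2, b1] at hp; simp at hp
        · exact Or.inr (Or.inl ⟨rfl, rfl⟩)
      rcases eq_or_ne z y with rfl | hzy
      · rcases hl with rfl | rfl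
        · rw [Equiv.swap_apply_right, h1, b2] at hp; simp at hp
        · exact Or.inr (Or.inr ⟨rfl, rfl⟩)
      · rw [Equiv.swap_apply_of_ne_of_ne hzx hzy] at hp
        exact Or.inl ⟨hp, by simp [hzx, hzy]⟩
    · rw [if_neg hl] at hp
      exact Or.inl ⟨hp, by simp [show ¬l = i from fun e => hl (Or.inl e)]⟩
  have hin : ({(i, x), (i, y)} : Finset (α × β)) ⊆ F := by
    simp [F, insert_subset_iff, h1, h2, b1, b2]
  have hc2 : #({(i, x), (i, y)} : Finset (α × β)) = 2 := card_pair (by simp [hxy])
  have hA1 : #(F \ {(i, x), (i, y)}) + 2 = #F := by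
    rw [← hc2, card_sdiff_add_card, union_eq_left.2 hin]
  have hone : ∃ p ∈ ({(k, x), (k, y)} : Finset (α × β)), p ∈ F \ {(i, x), (i, y)} := by
    rcases b3 with e | e
    · exact ⟨(k, y), by simp, by simp [F, e, hik.symm]⟩
    · exact ⟨(k, x), by simp, by simp [F, e, hik.symm]⟩
  obtain ⟨p, hp1, hp2⟩ := hone
  have h5 : #((F \ {(i, x), (i, y)}) ∪ {(k, x), (k, y)}) ≤ #(F \ {(i, x), (i, y)}) + 1 := by
    rw [← union_sdiff_self_eq_union]
    refine (card_union_le _ _).trans (Nat.add_le_add_left ?_ _)
    refine Nat.lt_succ_iff.1 (lt_of_lt_of_le (card_lt_card ?_) (card_le_two (a := (k, x)) (b := (k, y))))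
    exact (ssubset_iff_of_subset sdiff_subset).2 ⟨p, hp1, fun h => (mem_sdiff.1 h).2 hp2⟩
  show #F' < #F
  have := card_le_card hsub
  omega

/-- Matrices with equal margins are connected by exchanges. -/
theorem margins_connected {X : Type*} (f : Margins r c → X)
    (hf : ∀ A B : Margins r c, (∃ i k x y, B.1 = pairSwap i k x y A.1) → f B = f A) :
    ∀ A B, f A = f B := by
  have hp : ∀ (A : Margins r c) i k x y, f (pswap i k x y A) = f A := fun A i k x y => by
    by_cases h : i = k
    · simp [pswap, h]
    · exact hf _ _ ⟨i, k, x, y, pswap_val x y A h⟩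
  suffices H : ∀ N (A B : Margins r c), disagree A.1 B.1 ≤ N → f A = f B from
    fun A B => H _ A B le_rfl
  intro N
  induction N with
  | zero =>
    intro A B h
    have : A = B := Subtype.ext <| funext fun l => funext fun z => by
      by_contra hne
      have hpos : 0 < disagree A.1 B.1 := card_pos.2 ⟨(l, z), by simpa using hne⟩
      omega
    rw [this]
  | succ N ih =>
    intro A B h
    by_cases hAB : A.1 = B.1
    · rw [Subtype.ext hAB]
    obtain ⟨i, hi⟩ := Function.ne_iff.1 hAB
    have hsym : ∀ A B : Margins r c, A.1 i ≠ B.1 i → ∃ x, A.1 i x = true ∧ B.1 i x = false := by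
      intro A B hne
      by_contra hno
      simp only [not_exists, not_and, Bool.not_eq_false] at hno
      refine hne (funext fun x => ?_)
      have heq := eq_of_subset_of_card_le (s := univ.filter fun z => A.1 i z = true)
        (t := univ.filter fun z => B.1 i z = true) (monotone_filter_right _ fun z _ => hno z)
        (by rw [A.2.1, B.2.1])
      have := Finset.ext_iff.1 heq x
      simp only [mem_filter, mem_univ, true_and] at this
      exact Bool.eq_iff_iff.2 this
    obtain ⟨x, hxA, hxB⟩ := hsym A B hi
    obtain ⟨y, hyB, hyA⟩ := hsym B A (Ne.symm hi)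
    by_cases hk : ∃ k, A.1 k x = false ∧ A.1 k y = true ∧
        (A.1 k y ≠ B.1 k y ∨ A.1 k x ≠ B.1 k x)
    · obtain ⟨k, k1, k2, k3⟩ := hk
      have hik : i ≠ k := fun e => by subst e; rw [hxA] at k1; cases k1
      rw [← hp A i k x y]
      exact ih _ _ (Nat.le_of_lt_succ (lt_of_lt_of_le
        (disagree_pswap_lt A B hik hxA hyA k1 k2 hxB hyB k3) h))
    by_cases hk' : ∃ k, B.1 k y = false ∧ B.1 k x = true ∧
        (B.1 k x ≠ A.1 k x ∨ B.1 k y ≠ A.1 k y)
    · obtain ⟨k, k1, k2, k3⟩ := hk'
      have hik : i ≠ k := fun e => by subst e; rw [hyB] at k1; cases k1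
      have hsymm : ∀ U W : α → β → Bool, disagree U W = disagree W U := fun U W => by
        simp only [disagree, ne_comm]
      rw [← hp B i k y x]
      refine ih _ _ (Nat.le_of_lt_succ (lt_of_lt_of_le ?_ h))
      rw [hsymm, hsymm A.1]
      exact disagree_pswap_lt B A hik hyB hxB k1 k2 hyA hxA k3
    exfalso
    simp only [not_exists, not_and, not_or, not_not] at hk hk'
    have key : ∀ l, (A.1 l y).toNat + (B.1 l x).toNat + (if l = i then 2 else 0) ≤
        (A.1 l x).toNat + (B.1 l y).toNat := by
      intro l
      by_cases hl : l = i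
      · subst hl; simp [hxA, hyA, hxB, hyB]
      have h1 := hk l
      have h2 := hk' l
      rw [if_neg hl]
      revert h1 h2
      cases A.1 l x <;> cases A.1 l y <;> cases B.1 l x <;> cases B.1 l y <;> simp
    have hb : ∀ b : Bool, (if b = true then 1 else 0) = b.toNat := by decide
    have hsum := sum_le_sum fun l (_ : l ∈ (univ : Finset α)) => key l
    simp only [sum_add_distrib] at hsum
    have e : ∀ (U : Margins r c) z, ∑ l, (U.1 l z).toNat = c z := fun U z => by
      rw [← U.2.2 z, card_filter]; simp only [hb]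
    rw [e, e, e, e, sum_ite_eq' univ i (fun _ => 2)] at hsum
    simp at hsum
    omega

end Vale.Agent.P335
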