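import Vale.Agent.P335.Cond
import Vale.Agent.P335.Connect

/-!
# P335: the Poincaré inequality of resampling pairs of rows

With `L` the sum over unordered pairs `p` of rows of the deviation from the average given the
other rows, `‖L f‖² ≥ ⟨f, L f⟩`: disjoint pairs commute and three rows satisfy the inequality.
-/

open Finset
open scoped Classical

namespace Vale.Agent.P335

variable {α β : Type*} [Fintype α] [Fintype β] {r : α → ℕ} {c : β → ℕ}

/-- The rows outside the set `p`. -/
def offS (p : Finset α) (A : Margins r c) : {l : α // l ∉ p} → β → Bool := fun l => A.1 l.1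

theorem offS_eq_iff {p : Finset α} {A B : Margins r c} :
    offS p B = offS p A ↔ ∀ l ∉ p, B.1 l = A.1 l :=
  ⟨fun h l hl => congrFun h ⟨l, hl⟩, fun h => funext fun l => h l.1 l.2⟩

theorem offS_mono {p q : Finset α} (hpq : p ⊆ q) {A B : Margins r c}
    (h : offS p B = offS p A) : offS q B = offS q A :=
  offS_eq_iff.2 fun l hl => offS_eq_iff.1 h l fun hlp => hl (hpq hlp)

theorem sum_toNat_col (A : Margins r c) (x : β) : ∑ l, (A.1 l x).toNat = c x := by
  have hb : ∀ b : Bool, (if b = true then 1 else 0) = b.toNat := by decide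
  rw [← A.2.2 x, card_filter]; simp only [hb]

/-- Combine the rows in `p` of `B` with the other rows of `C`. -/
noncomputable def merge (p : Finset α) (B C : α → β → Bool) : α → β → Bool :=
  fun l => if l ∈ p then B l else C l

theorem merge_margins {p q : Finset α} (hpq : Disjoint p q) {A B C : Margins r c}
    (hB : offS p B = offS p A) (hC : offS q C = offS q A) :
    (∀ i, #(univ.filter fun x => merge p B.1 C.1 i x = true) = r i) ∧
      ∀ x, #(univ.filter fun i => merge p B.1 C.1 i x = true) = c x := by
  refine ⟨fun i => ?_, fun x => ?_⟩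
  · unfold merge; split_ifs
    · exact B.2.1 i
    · exact C.2.1 i
  · have hb : ∀ b : Bool, (if b = true then 1 else 0) = b.toNat := by decide
    rw [card_filter]; simp only [hb]
    have h1 := sum_toNat_col B x
    have h2 := sum_toNat_col C x
    rw [← sum_add_sum_compl p] at h1 h2 ⊢
    have e1 : ∑ l ∈ pᶜ, (B.1 l x).toNat = ∑ l ∈ pᶜ, (A.1 l x).toNat :=
      sum_congr rfl fun l hl => by rw [offS_eq_iff.1 hB l (mem_compl.1 hl)]
    have e2 : ∑ l ∈ p, (C.1 l x).toNat = ∑ l ∈ p, (A.1 l x).toNat :=
      sum_congr rfl fun l hl => by rw [offS_eq_iff.1 hC l (disjoint_left.1 hpq hl)]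
    have h3 := sum_toNat_col A x
    rw [← sum_add_sum_compl p] at h3
    have e3 : ∑ l ∈ p, (merge p B.1 C.1 l x).toNat = ∑ l ∈ p, (B.1 l x).toNat :=
      sum_congr rfl fun l hl => by simp [merge, hl]
    have e4 : ∑ l ∈ pᶜ, (merge p B.1 C.1 l x).toNat = ∑ l ∈ pᶜ, (C.1 l x).toNat :=
      sum_congr rfl fun l hl => by simp [merge, mem_compl.1 hl]
    omega

/-- The combination as a matrix with the given margins (`C` if it is not one). -/
noncomputable def mmerge (p : Finset α) (B C : Margins r c) : Margins r c :=
  if h : _ ∧ _ then ⟨merge p B.1 C.1, h⟩ else C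

theorem mmerge_val {p q : Finset α} (hpq : Disjoint p q) {A B C : Margins r c}
    (hB : offS p B = offS p A) (hC : offS q C = offS q A) :
    (mmerge p B C).1 = merge p B.1 C.1 := by
  have h : mmerge p B C = ⟨merge p B.1 C.1, merge_margins hpq hB hC⟩ :=
    dif_pos (merge_margins hpq hB hC)
  rw [h]

theorem cavg_cavg_disjoint {p q : Finset α} (hpq : Disjoint p q) (f : Margins r c → ℝ)
    (A : Margins r c) :
    cavg (offS p) (cavg (offS q) f) A =
      (∑ B ∈ fib (offS p) A, ∑ C ∈ fib (offS q) A, f (mmerge p B C)) /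
        (#(fib (offS p) A) * #(fib (offS q) A) : ℝ) := by
  have hbij : ∀ B ∈ fib (offS p) A, (∀ C ∈ fib (offS q) A, mmerge p B C ∈ fib (offS q) B) ∧
      Set.InjOn (mmerge p B) (fib (offS q) A) ∧
      ∀ D ∈ fib (offS q) B, ∃ C ∈ fib (offS q) A, mmerge p B C = D := by
    intro B hB
    have hB' : offS p B = offS p A := by simpa [fib] using hB
    have hAA : offS p A = offS p A := rfl
    refine ⟨fun C hC => ?_, fun C hC C' hC' h => ?_, fun D hD => ?_⟩
    · have hC' : offS q C = offS q A := by simpa [fib] using hC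
      simp only [fib, mem_filter, mem_univ, true_and, offS_eq_iff, mmerge_val hpq hB' hC', merge]
      intro l hl
      split_ifs with hlp
      · rfl
      · rw [offS_eq_iff.1 hC' l hl, offS_eq_iff.1 hB' l hlp]
    · have h1 : offS q C = offS q A := by simpa [fib] using hC
      have h2 : offS q C' = offS q A := by simpa [fib] using hC'
      have hv := congrArg Subtype.val h
      rw [mmerge_val hpq hB' h1, mmerge_val hpq hB' h2] at hv
      refine Subtype.ext (funext fun l => ?_)
      by_cases hlp : l ∈ p
      · rw [offS_eq_iff.1 h1 l (disjoint_left.1 hpq hlp),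
          offS_eq_iff.1 h2 l (disjoint_left.1 hpq hlp)]
      · simpa [merge, hlp] using congrFun hv l
    · have hD' : offS q D = offS q B := by simpa [fib] using hD
      have hAB : offS p A = offS p B := hB'.symm
      refine ⟨mmerge p A D, ?_, ?_⟩
      · simp only [fib, mem_filter, mem_univ, true_and, offS_eq_iff, mmerge_val hpq hAB hD', merge]
        intro l hl
        split_ifs with hlp
        · rfl
        · rw [offS_eq_iff.1 hD' l hl, offS_eq_iff.1 hB' l hlp]
      · have hC : offS q (mmerge p A D) = offS q A := by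
          rw [offS_eq_iff, mmerge_val hpq hAB hD']
          intro l hl
          unfold merge
          split_ifs with hlp
          · rfl
          · rw [offS_eq_iff.1 hD' l hl, offS_eq_iff.1 hB' l hlp]
        refine Subtype.ext ?_
        rw [mmerge_val hpq hB' hC, mmerge_val hpq hAB hD']
        funext l
        by_cases hlp : l ∈ p
        · simp [merge, hlp, offS_eq_iff.1 hD' l (disjoint_left.1 hpq hlp)]
        · simp [merge, hlp]
  rw [cavg, sum_congr rfl fun B hB => ?_, ← sum_div, div_div, mul_comm]
  obtain ⟨h1, h2, h3⟩ := hbij B hB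
  have hc : #(fib (offS q) A) = #(fib (offS q) B) :=
    card_bij (fun C _ => mmerge p B C) h1 (fun C hC C' hC' h => h2 hC hC' h)
      fun D hD => by obtain ⟨C, hC, e⟩ := h3 D hD; exact ⟨C, hC, e⟩
  rw [cavg, ← hc]
  congr 1
  refine (sum_bij (fun C _ => mmerge p B C) h1 (fun C hC C' hC' h => h2 hC hC' h)
    (fun D hD => by obtain ⟨C, hC, e⟩ := h3 D hD; exact ⟨C, hC, e⟩) fun C _ => rfl).symm

theorem cavg_comm {p q : Finset α} (hpq : Disjoint p q) (f : Margins r c → ℝ) :
    cavg (offS p) (cavg (offS q) f) = cavg (offS q) (cavg (offS p) f) := by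
  funext A
  rw [cavg_cavg_disjoint hpq, cavg_cavg_disjoint hpq.symm, sum_comm, mul_comm]
  refine congrArg₂ _ (sum_congr rfl fun C hC => sum_congr rfl fun B hB => congrArg f ?_) rfl
  have hB' : offS p B = offS p A := by simpa [fib] using hB
  have hC' : offS q C = offS q A := by simpa [fib] using hC
  refine Subtype.ext ?_
  rw [mmerge_val hpq hB' hC', mmerge_val hpq.symm hC' hB']
  funext l
  unfold merge
  split_ifs with hp hq
  · exact absurd hq (disjoint_left.1 hpq hp)
  · rfl
  · rfl
  · rw [offS_eq_iff.1 hC' l ‹_›, offS_eq_iff.1 hB' l hp]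

/-- The sum of the deviations over the pairs inside `T`. -/
noncomputable def pairOp (T : Finset α) (f : Margins r c → ℝ) : Margins r c → ℝ :=
  ∑ p ∈ T.powersetCard 2, dev (offS p) f

theorem sum_pairOp_mul (T : Finset α) (f h : Margins r c → ℝ) :
    ∑ A, pairOp T f A * h A = ∑ A, f A * pairOp T h A := by
  simp only [pairOp, Finset.sum_apply, sum_mul, mul_sum]
  rw [sum_comm]
  conv_rhs => rw [sum_comm]
  exact sum_congr rfl fun p _ => sum_dev_mul _ f h

theorem sum_mul_pairOp (T : Finset α) (f : Margins r c → ℝ) :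
    ∑ A, f A * pairOp T f A = ∑ p ∈ T.powersetCard 2, cvar (offS p) f := by
  simp only [pairOp, Finset.sum_apply, mul_sum]
  rw [sum_comm]
  exact sum_congr rfl fun p _ => (cvar_eq_mul _ f).symm

/-- A Poincaré inequality below a key gives the squared inequality. -/
theorem pairOp_sq_le {L : Type*} (T : Finset α) (G : Margins r c → L)
    (hG : ∀ p ∈ T.powersetCard 2, ∀ A B, offS p B = offS p A → G B = G A)
    (hP : ∀ f, ∑ A, dev G f A ^ 2 ≤ ∑ p ∈ T.powersetCard 2, cvar (offS p) f)
    (f : Margins r c → ℝ) :
    ∑ p ∈ T.powersetCard 2, cvar (offS p) f ≤ ∑ A, pairOp T f A ^ 2 := by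
  set D := ∑ p ∈ T.powersetCard 2, cvar (offS p) f with hD
  have hzero : pairOp T (cavg G f) = 0 := sum_eq_zero fun p hp => by
    rw [dev, cavg_of_const _ fun A B h => cavg_congr G f (hG p hp A B h), sub_self]
  have e : D = ∑ A, pairOp T f A * dev G f A := by
    simp only [dev_apply, mul_sub, sum_sub_distrib]
    rw [sum_pairOp_mul T f (cavg G f), hzero, hD, ← sum_mul_pairOp]
    simp [mul_comm]
  have h1 := sum_mul_sq_le_sq_mul_sq univ (pairOp T f) (dev G f)
  rw [← e] at h1
  have h2 := hP f
  have h3 : 0 ≤ ∑ A, pairOp T f A ^ 2 := sum_nonneg fun _ _ => sq_nonneg _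
  have h4 : 0 ≤ D := sum_nonneg fun p _ => by
    rw [cvar_eq_dev]; exact sum_nonneg fun _ _ => sq_nonneg _
  nlinarith [mul_le_mul_of_nonneg_left h2 h3]

/-- The three-row inequality, transported to three rows of a larger matrix. -/
theorem three_fibres
    (h3 : ∀ (r' : Fin 3 → ℕ) (c' : β → ℕ) (f : Margins r' c' → ℝ),
      tvar f ≤ ∑ l : Fin 3, cvar (fun A : Margins r' c' => A.1 l) f)
    {T : Finset α} (hT : #T = 3) (f : Margins r c → ℝ) :
    ∑ A, dev (offS T) f A ^ 2 ≤ ∑ p ∈ T.powersetCard 2, cvar (offS p) f := by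
  obtain e : Fin 3 ≃ T := (Fintype.equivFinOfCardEq (by simp [hT])).symm
  have hpairs : T.powersetCard 2 = (univ : Finset (Fin 3)).image fun l => T.erase (e l).1 := by
    symm
    refine eq_of_subset_of_card_le (fun p hp => ?_) ?_
    · obtain ⟨l, -, rfl⟩ := mem_image.1 hp
      simp [mem_powersetCard, erase_subset, card_erase_of_mem (e l).2, hT]
    · rw [card_powersetCard, hT, card_image_of_injective]
      · simp
      · intro a b h
        refine e.injective (Subtype.ext ?_)
        by_contra hne
        have : (e a).1 ∈ T.erase (e b).1 := mem_erase.2 ⟨hne, (e a).2⟩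
        simp only at h
        rw [← h] at this
        simp at this
  rw [hpairs, sum_image (by
    intro a _ b _ h
    refine e.injective (Subtype.ext ?_)
    by_contra hne
    have : (e a).1 ∈ T.erase (e b).1 := mem_erase.2 ⟨hne, (e a).2⟩
    simp only at h
    rw [← h] at this
    simp at this)]
  simp only [cvar_eq_dev]
  rw [sum_comm, sum_fib (offS T) fun A => dev (offS T) f A ^ 2,
    sum_fib (offS T) fun A => ∑ l : Fin 3, dev (offS (T.erase (e l).1)) f A ^ 2]
  refine sum_le_sum fun A _ => div_le_div_of_nonneg_right ?_ (Nat.cast_nonneg _)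
  rw [sum_comm (s := fib (offS T) A)]
  set c' : β → ℕ := fun x => ∑ l ∈ T, (A.1 l x).toNat
  set r' : Fin 3 → ℕ := fun l => r (e l).1
  have hsumT : ∀ (u : α → ℕ), ∑ l ∈ T, u l = ∑ j : Fin 3, u (e j).1 := fun u => by
    rw [← sum_coe_sort T]
    exact (e.sum_comp fun l : T => u l.1).symm
  set m : (Fin 3 → β → Bool) → α → β → Bool := fun a l =>
    if h : l ∈ T then a (e.symm ⟨l, h⟩) else A.1 l with hm
  have hmT : ∀ a j, m a (e j).1 = a j := fun a j => by simp [hm]
  have hmO : ∀ a l, l ∉ T → m a l = A.1 l := fun a l hl => by simp [hm, hl]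
  have hb : ∀ b : Bool, (if b = true then 1 else 0) = b.toNat := by decide
  have hmarg : ∀ a : Margins r' c', (∀ i, #(univ.filter fun x => m a.1 i x = true) = r i) ∧
      ∀ x, #(univ.filter fun i => m a.1 i x = true) = c x := by
    intro a
    refine ⟨fun i => ?_, fun x => ?_⟩
    · by_cases h : i ∈ T
      · simp only [hm, h, dif_pos]
        rw [a.2.1]
        simp [r']
      · rw [hmO _ _ h]; exact A.2.1 i
    · have h1 := sum_toNat_col A x
      have h2 := sum_toNat_col a x
      rw [card_filter]; simp only [hb]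
      rw [← sum_add_sum_compl T] at h1 ⊢
      have h4 : ∑ l ∈ Tᶜ, (m a.1 l x).toNat = ∑ l ∈ Tᶜ, (A.1 l x).toNat :=
        sum_congr rfl fun l hl => by rw [hmO _ _ (mem_compl.1 hl)]
      rw [hsumT fun l => (m a.1 l x).toNat]
      simp only [hmT]
      simp only [c'] at h2
      omega
  set ψ : Margins r' c' → Margins r c := fun a => ⟨m a.1, hmarg a⟩
  have hψ : Function.Injective ψ := fun a b h => Subtype.ext <| funext fun j => by
    have := congrFun (congrArg Subtype.val h) (e j).1
    simpa only [ψ, hmT] using this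
  have hrange : ∀ B, offS T B = offS T A ↔ ∃ a, ψ a = B := by
    intro B
    constructor
    · intro h
      refine ⟨⟨fun j => B.1 (e j).1, fun j => B.2.1 _, fun x => ?_⟩, Subtype.ext (funext fun l => ?_)⟩
      · have h1 := sum_toNat_col A x
        have h2 := sum_toNat_col B x
        rw [← sum_add_sum_compl T] at h1 h2
        have h4 : ∑ l ∈ Tᶜ, (B.1 l x).toNat = ∑ l ∈ Tᶜ, (A.1 l x).toNat :=
          sum_congr rfl fun l hl => by rw [offS_eq_iff.1 h l (mem_compl.1 hl)]
        rw [card_filter]; simp only [hb, c']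
        rw [← hsumT fun l => (B.1 l x).toNat]
        omega
      · by_cases hl : l ∈ T
        · simp [ψ, hm, hl]
        · exact (hmO _ _ hl).trans (offS_eq_iff.1 h l hl).symm
    · rintro ⟨a, rfl⟩
      exact offS_eq_iff.2 fun l hl => hmO a.1 l hl
  have hone : ∀ a, offS T (ψ a) = offS T A := fun a => (hrange _).2 ⟨a, rfl⟩
  calc ∑ x ∈ fib (offS T) A, dev (offS T) f x ^ 2 = tvar (f ∘ ψ) :=
        cvar_of_equiv (offS T) A ψ hψ hrange (offS T) (fun _ => ()) (fun _ _ h => h)
          (fun a b => iff_of_true ((hone a).trans (hone b).symm) rfl) f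
    _ ≤ ∑ l : Fin 3, cvar (fun a : Margins r' c' => a.1 l) (f ∘ ψ) := h3 r' c' _
    _ = ∑ l : Fin 3, ∑ x ∈ fib (offS T) A, dev (offS (T.erase (e l).1)) f x ^ 2 := by
        refine sum_congr rfl fun l _ => ?_
        refine (cvar_of_equiv (offS T) A ψ hψ hrange (offS (T.erase (e l).1))
          (fun a : Margins r' c' => a.1 l) (fun _ _ h => offS_mono (erase_subset _ _) h)
          (fun a b => ?_) f).symm
        simp only [offS_eq_iff]
        constructor
        · intro h
          simpa only [ψ, hmT] using h (e l).1 (by simp)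
        · intro h i hi
          by_cases hiT : i ∈ T
          · have : i = (e l).1 := by
              by_contra hne
              exact hi (mem_erase.2 ⟨hne, hiT⟩)
            subst this
            simpa only [ψ, hmT] using h
          · simp only [ψ, hmO _ _ hiT]

/-- The Poincaré inequality. -/
theorem tvar_le_pairs
    (h3 : ∀ (r' : Fin 3 → ℕ) (c' : β → ℕ) (f : Margins r' c' → ℝ),
      tvar f ≤ ∑ l : Fin 3, cvar (fun A : Margins r' c' => A.1 l) f)
    (f : Margins r c → ℝ) :
    tvar f ≤ ∑ p ∈ (univ : Finset α).powersetCard 2, cvar (offS p) f := by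
  set P := (univ : Finset α).powersetCard 2 with hPdef
  have hP2 : ∀ p ∈ P, #p = 2 := fun p hp => (mem_powersetCard.1 hp).2
  have key : ∀ h : Margins r c → ℝ,
      ∑ p ∈ P, cvar (offS p) h ≤ ∑ A, pairOp univ h A ^ 2 := by
    intro h
    set a : Finset α → Finset α → ℝ := fun p q => ∑ A, dev (offS p) h A * dev (offS q) h A
      with ha
    have hsplit : ∀ T : Finset α, ∑ A, pairOp T h A ^ 2 =
        ∑ pq ∈ T.powersetCard 2 ×ˢ T.powersetCard 2, a pq.1 pq.2 := by
      intro T
      simp only [pairOp, Finset.sum_apply, pow_two, sum_mul_sum, sum_product, ha]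
      rw [sum_comm]
      exact sum_congr rfl fun p _ => sum_comm
    have hdiag : ∀ T : Finset α,
        ∑ pq ∈ (T.powersetCard 2 ×ˢ T.powersetCard 2).filter (fun pq => pq.1 = pq.2), a pq.1 pq.2 =
          ∑ p ∈ T.powersetCard 2, cvar (offS p) h := by
      intro T
      rw [sum_filter, sum_product]
      refine sum_congr rfl fun p hp => ?_
      simp only [sum_ite_eq, hp, if_true, ha, cvar_eq_dev, pow_two]
    rw [hsplit, ← hPdef, ← sum_filter_add_sum_filter_not (P ×ˢ P) (fun pq => pq.1 = pq.2),
      hdiag univ]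
    refine le_add_of_nonneg_right ?_
    rw [← sum_filter_add_sum_filter_not _ (fun pq => #(pq.1 ∪ pq.2) = 3)]
    refine add_nonneg ?_ (sum_nonneg fun pq hpq => ?_)
    · rw [← sum_fiberwise_of_maps_to (t := (univ : Finset α).powersetCard 3)
        (g := fun pq : Finset α × Finset α => pq.1 ∪ pq.2)
        fun pq hpq => mem_powersetCard.2 ⟨subset_univ _, (mem_filter.1 hpq).2⟩]
      refine sum_nonneg fun T hT => ?_
      have hT3 := (mem_powersetCard.1 hT).2
      have hset : (((P ×ˢ P).filter fun pq => ¬pq.1 = pq.2).filter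
          fun pq => #(pq.1 ∪ pq.2) = 3).filter (fun pq => pq.1 ∪ pq.2 = T) =
          (T.powersetCard 2 ×ˢ T.powersetCard 2).filter fun pq => ¬pq.1 = pq.2 := by
        ext ⟨p, q⟩
        simp only [mem_filter, mem_product, hPdef, mem_powersetCard, subset_univ, true_and]
        constructor
        · rintro ⟨⟨⟨⟨hp, hq⟩, hne⟩, -⟩, rfl⟩
          exact ⟨⟨⟨subset_union_left, hp⟩, subset_union_right, hq⟩, hne⟩
        · rintro ⟨⟨⟨hpT, hp⟩, hqT, hq⟩, hne⟩
          have hlt : 2 < #(p ∪ q) := by
            by_contra hle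
            exact hne ((eq_of_subset_of_card_le subset_union_left (by omega)).trans
              (eq_of_subset_of_card_le subset_union_right (by omega)).symm)
          have := eq_of_subset_of_card_le (union_subset hpT hqT) (by omega)
          exact ⟨⟨⟨⟨hp, hq⟩, hne⟩, by rw [this, hT3]⟩, this⟩
      rw [hset]
      have hb := pairOp_sq_le T (offS T)
        (fun p hp A B hAB => offS_mono (mem_powersetCard.1 hp).1 hAB)
        (fun f => three_fibres h3 hT3 f) h
      rw [hsplit] at hb
      have h5 := sum_filter_add_sum_filter_not (T.powersetCard 2 ×ˢ T.powersetCard 2)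
        (fun pq => pq.1 = pq.2) fun pq => a pq.1 pq.2
      rw [hdiag T] at h5
      linarith
    · simp only [mem_filter, mem_product] at hpq
      obtain ⟨⟨⟨hp, hq⟩, hne⟩, h4⟩ := hpq
      have hdis : Disjoint pq.1 pq.2 := by
        rw [← card_union_eq_card_add_card, hP2 _ hp, hP2 _ hq]
        have := card_union_le pq.1 pq.2
        rw [hP2 _ hp, hP2 _ hq] at this
        have hlt : 2 < #(pq.1 ∪ pq.2) := by
          by_contra hle
          exact hne ((eq_of_subset_of_card_le subset_union_left (by rw [hP2 _ hp]; omega)).trans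
            (eq_of_subset_of_card_le subset_union_right (by rw [hP2 _ hq]; omega)).symm)
        omega
      exact sum_dev_mul_dev_nonneg _ _ h fun u => cavg_comm hdis u
  set u : Margins r c → ℝ := dev (fun _ => ()) f with hu
  have hJ : ∀ v : Margins r c → ℝ, ∀ A, cavg (fun _ => ()) v A =
      (∑ B, v B) / Fintype.card (Margins r c) := fun v A => by simp [cavg, fib]
  let M : (Margins r c → ℝ) →ₗ[ℝ] Margins r c → ℝ :=
    { toFun := fun v => pairOp univ v + cavg (fun _ => ()) v
      map_add' := fun v w => by
        funext A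
        simp [pairOp, dev, cavg, sum_add_distrib, add_div, Finset.sum_apply, sum_sub_distrib]
        ring
      map_smul' := fun t v => by
        funext A
        simp [pairOp, dev, cavg, ← mul_sum, Finset.sum_apply, mul_div_assoc, sum_sub_distrib]
        ring }
  have hsum0 : ∀ v : Margins r c → ℝ, ∑ A, pairOp univ v A = 0 := fun v => by
    have h1 := sum_pairOp_mul univ v fun _ => 1
    have h2 : pairOp univ (fun _ : Margins r c => (1 : ℝ)) = 0 :=
      sum_eq_zero fun p _ => by rw [dev, cavg_of_const _ fun _ _ _ => rfl, sub_self]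
    simpa [h2] using h1
  have hsumM : ∀ v, ∑ A, M v A = ∑ A, v A := fun v => by
    have h1 := sum_cavg_mul (fun _ : Margins r c => ()) v fun _ => 1
    rw [cavg_of_const _ (f := fun _ : Margins r c => (1 : ℝ)) fun _ _ _ => rfl] at h1
    have h2 : ∑ A, M v A = ∑ A, pairOp univ v A + ∑ A, cavg (fun _ => ()) v A := sum_add_distrib
    rw [h2, hsum0, zero_add]
    simpa using h1
  have hinj : Function.Injective M := by
    rw [← LinearMap.ker_eq_bot, LinearMap.ker_eq_bot']
    intro v hv
    have h0 : ∑ A, v A = 0 := by rw [← hsumM v, hv]; simp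
    have hL : pairOp univ v = 0 := funext fun A => by
      have := congrFun hv A
      simpa [M, hJ, h0] using this
    have hz := sum_mul_pairOp univ v
    rw [hL] at hz
    simp only [Pi.zero_apply, mul_zero, sum_const_zero] at hz
    have hnn : ∀ p ∈ P, 0 ≤ cvar (offS p) v := fun p _ => by
      rw [cvar_eq_dev]; exact sum_nonneg fun _ _ => sq_nonneg _
    have hp0 := (sum_eq_zero_iff_of_nonneg hnn).1 hz.symm
    have hinv : ∀ p ∈ P, ∀ A B : Margins r c, offS p B = offS p A → v B = v A := by
      intro p hp A B hAB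
      have hd := hp0 p hp
      rw [cvar_eq_dev] at hd
      have hd' : ∀ C, v C = cavg (offS p) v C := fun C => by
        have := (sum_eq_zero_iff_of_nonneg fun _ _ => sq_nonneg _).1 hd C (mem_univ _)
        rw [sq_eq_zero_iff, dev_apply, sub_eq_zero] at this
        exact this
      rw [hd' A, hd' B, cavg_congr _ _ hAB]
    have hconst := margins_connected (r := r) (c := c) v fun A B ⟨i, k, x, y, hB⟩ => by
      rcases eq_or_ne i k with rfl | hik
      · have : B = A := by
          refine Subtype.ext (funext fun l => funext fun z => ?_)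
          rcases eq_or_ne l i with rfl | hl
          · have h1 := sum_toNat_col B z
            have h2 := sum_toNat_col A z
            rw [← add_sum_erase _ _ (mem_univ l)] at h1 h2
            have h4 : ∑ x' ∈ univ.erase l, (B.1 x' z).toNat = ∑ x' ∈ univ.erase l, (A.1 x' z).toNat :=
              sum_congr rfl fun x' hx' => by
                rw [hB, pairSwap]; split_ifs <;> simp [(mem_erase.1 hx').1]
            have h5 : (B.1 l z).toNat = (A.1 l z).toNat := by omega
            revert h5
            cases B.1 l z <;> cases A.1 l z <;> simp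
          · rw [hB, pairSwap]; split_ifs <;> simp [hl]
        rw [this]
      · refine hinv {i, k} (by simp [hPdef, mem_powersetCard, card_pair hik]) A B
          (offS_eq_iff.2 fun l hl => ?_)
        simp only [mem_insert, mem_singleton, not_or] at hl
        funext z
        rw [hB, pairSwap]; split_ifs <;> simp [hl.1, hl.2]
    funext A
    have : (Fintype.card (Margins r c) : ℝ) * v A = 0 := by
      rw [← h0, sum_congr rfl fun B _ => hconst B A, sum_const, card_univ, nsmul_eq_mul]
    rcases mul_eq_zero.1 this with h | h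
    · have : Nonempty (Margins r c) := ⟨A⟩
      exact absurd (Nat.cast_eq_zero.1 h) Fintype.card_ne_zero
    · simpa using h
  obtain ⟨h, hh⟩ := LinearMap.injective_iff_surjective.1 hinj u
  have hu0 : ∑ A, u A = 0 := by
    rw [hu]
    have h1 := sum_dev_mul (fun _ : Margins r c => ()) f fun _ => 1
    rw [dev, dev, cavg_of_const _ (f := fun _ : Margins r c => (1 : ℝ)) fun _ _ _ => rfl] at h1
    simpa [dev] using h1
  have hh0 : ∑ A, h A = 0 := by rw [← hsumM h, hh, hu0]
  have hLh : pairOp univ h = u := by
    funext A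
    have := congrFun hh A
    simpa [M, hJ, hh0] using this
  set U := tvar f with hU
  set D := ∑ p ∈ P, cvar (offS p) f with hD
  set X := ∑ p ∈ P, cvar (offS p) h
  have e1 : ∑ p ∈ P, ∑ A, dev (offS p) h A * dev (offS p) f A = U := by
    calc _ = ∑ A, h A * pairOp univ f A := by
          simp only [sum_dev_mul_dev, pairOp, Finset.sum_apply, mul_sum]
          rw [sum_comm]
      _ = ∑ A, pairOp univ h A * f A := (sum_pairOp_mul univ h f).symm
      _ = ∑ A, f A * dev (fun _ => ()) f A := by rw [hLh, hu]; simp [mul_comm]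
      _ = U := (cvar_eq_mul _ f).symm
  have hXU : X ≤ U := (key h).trans_eq (by rw [hLh]; rfl)
  have hcs := sum_mul_sq_le_sq_mul_sq (P ×ˢ (univ : Finset (Margins r c)))
    (fun x => dev (offS x.1) h x.2) fun x => dev (offS x.1) f x.2
  simp only [sum_product] at hcs
  rw [e1] at hcs
  simp only [← cvar_eq_dev] at hcs
  have hD0 : 0 ≤ D := sum_nonneg fun p _ => by
    rw [cvar_eq_dev]; exact sum_nonneg fun _ _ => sq_nonneg _
  have hUnn : 0 ≤ U := by rw [hU, tvar, cvar_eq_dev]; exact sum_nonneg fun _ _ => sq_nonneg _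
  nlinarith [mul_le_mul_of_nonneg_right hXU hD0]

end Vale.Agent.P335
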