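import Vale.Agent.P335.Chain
import Vale.Agent.P335.Connect

/-!
# P335: split degree vectors are zero-one matrices with given margins
-/

open Finset
open scoped Classical

namespace Vale.Agent.P335

variable {n : ℕ}

lemma ncard_neighborSet_eq (G : SimpleGraph (Fin n)) (v : Fin n) :
    (G.neighborSet v).ncard = #(univ.filter fun w => G.Adj v w) := by
  rw [← Set.ncard_coe_finset]
  congr 1
  ext w
  simp

/-- Every realisation of a split degree vector has the same clique and independent set. -/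
lemma split_structure {d : Fin n → ℕ} {K : Finset (Fin n)} {G₀ G : SimpleGraph (Fin n)}
    (hG₀ : G₀ ∈ realisations d) (hK : ∀ a ∈ K, ∀ b ∈ K, a ≠ b → G₀.Adj a b)
    (hI : ∀ a, a ∉ K → ∀ b, b ∉ K → ¬G₀.Adj a b) (hG : G ∈ realisations d) :
    (∀ a ∈ K, ∀ b ∈ K, a ≠ b → G.Adj a b) ∧ ∀ a, a ∉ K → ∀ b, b ∉ K → ¬G.Adj a b := by
  simp only [realisations, mem_filter, mem_univ, true_and, ncard_neighborSet_eq] at hG hG₀
  set w : SimpleGraph (Fin n) → Finset (Fin n) → Finset (Fin n) → ℕ :=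
    fun H S T => ∑ a ∈ S, #(T.filter fun b => H.Adj a b) with hw
  have hsplit : ∀ (H : SimpleGraph (Fin n)) S,
      ∑ a ∈ S, #(univ.filter fun b => H.Adj a b) = w H S K + w H S Kᶜ := fun H S => by
    rw [hw, ← sum_add_distrib]
    refine sum_congr rfl fun a _ => ?_
    rw [← card_union_of_disjoint (disjoint_filter_filter disjoint_compl_right), ← filter_union,
      union_compl]
  have hcross : ∀ H : SimpleGraph (Fin n), w H Kᶜ K = w H K Kᶜ := fun H => by
    simp only [hw, card_filter]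
    rw [sum_comm]
    exact sum_congr rfl fun a _ => sum_congr rfl fun b _ => by rw [H.adj_comm]
  have e1 : w G K K + w G K Kᶜ = w G₀ K K + w G₀ K Kᶜ := by
    rw [← hsplit, ← hsplit]; exact sum_congr rfl fun a _ => (hG a).trans (hG₀ a).symm
  have e2 : w G K Kᶜ + w G Kᶜ Kᶜ = w G₀ K Kᶜ + w G₀ Kᶜ Kᶜ := by
    rw [← hcross, ← hcross G₀, ← hsplit, ← hsplit]
    exact sum_congr rfl fun a _ => (hG a).trans (hG₀ a).symm
  have h0 : w G₀ Kᶜ Kᶜ = 0 := sum_eq_zero fun a ha => by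
    rw [card_eq_zero, filter_eq_empty_iff]
    exact fun b hb => hI a (mem_compl.1 ha) b (mem_compl.1 hb)
  have hfull : ∀ a ∈ K, (K.filter fun b => G₀.Adj a b) = K.erase a := fun a ha => by
    ext b
    simp only [mem_filter, mem_erase]
    exact ⟨fun h => ⟨h.2.ne', h.1⟩, fun h => ⟨h.2, hK a ha b h.2 h.1.symm⟩⟩
  have hle : ∀ a ∈ K, (K.filter fun b => G.Adj a b) ⊆ K.erase a := fun a _ b hb => by
    simp only [mem_filter, mem_erase] at hb ⊢
    exact ⟨hb.2.ne', hb.1⟩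
  have hmono : ∀ a ∈ K, #(K.filter fun b => G.Adj a b) ≤ #(K.filter fun b => G₀.Adj a b) :=
    fun a ha => by rw [hfull a ha]; exact card_le_card (hle a ha)
  have hle' : w G K K ≤ w G₀ K K := sum_le_sum hmono
  have heq : w G K K = w G₀ K K ∧ w G Kᶜ Kᶜ = 0 := by omega
  refine ⟨fun a ha b hb hab => ?_, fun a ha b hb => ?_⟩
  · have h1 := (sum_eq_sum_iff_of_le hmono).1 heq.1 a ha
    rw [hfull a ha] at h1
    have h2 := eq_of_subset_of_card_le (hle a ha) h1.ge
    have h3 : b ∈ K.erase a := mem_erase.2 ⟨hab.symm, hb⟩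
    rw [← h2] at h3
    exact (mem_filter.1 h3).2
  · have h1 := sum_eq_zero_iff.1 heq.2 a (mem_compl.2 ha)
    rw [card_eq_zero, filter_eq_empty_iff] at h1
    exact h1 (mem_compl.2 hb)

/-- Twice a sum dominates the two tuple families of the exchanges. -/
lemma sum_tuple_le {Q : Type*} [Fintype Q] (g : Q → (Fin 4 ↪ Fin n)) (hg : Function.Injective g)
    (φ : (Fin 4 ↪ Fin n) → ℝ) (hφ : ∀ τ, 0 ≤ φ τ) : ∑ q, φ (g q) ≤ ∑ τ, φ τ :=
  calc ∑ q, φ (g q) = ∑ τ ∈ univ.image g, φ τ := (sum_image fun _ _ _ _ h => hg h).symm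
    _ ≤ _ := sum_le_sum_of_subset_of_nonneg (subset_univ _) fun τ _ _ => hφ τ

variable {K : Finset (Fin n)}

/-- The split graph with clique `K`, an independent complement and the given cross edges. -/
def ofCross (K : Finset (Fin n)) (A : {a // a ∈ K} → {x // x ∉ K} → Bool) : SimpleGraph (Fin n) :=
  SimpleGraph.fromRel fun u v =>
    (u ∈ K ∧ v ∈ K) ∨ ∃ (hu : u ∈ K) (hv : v ∉ K), A ⟨u, hu⟩ ⟨v, hv⟩ = true

lemma ofCross_cross (A : {a // a ∈ K} → {x // x ∉ K} → Bool) (a : {a // a ∈ K})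
    (x : {x // x ∉ K}) : (ofCross K A).Adj a.1 x.1 ↔ A a x = true := by
  simp only [ofCross, SimpleGraph.fromRel_adj]
  refine ⟨?_, fun h => ⟨fun e => x.2 (e ▸ a.2), Or.inl (Or.inr ⟨a.2, x.2, h⟩)⟩⟩
  rintro ⟨-, ((h | ⟨_, _, h⟩) | (h | ⟨h, -, -⟩))⟩
  · exact absurd h.2 x.2
  · exact h
  · exact absurd h.1 x.2
  · exact absurd h x.2

lemma ofCross_clique (A : {a // a ∈ K} → {x // x ∉ K} → Bool) :
    ∀ a ∈ K, ∀ b ∈ K, a ≠ b → (ofCross K A).Adj a b := fun a ha b hb hab => by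
  simp only [ofCross, SimpleGraph.fromRel_adj]
  exact ⟨hab, Or.inl (Or.inl ⟨ha, hb⟩)⟩

lemma ofCross_indep (A : {a // a ∈ K} → {x // x ∉ K} → Bool) :
    ∀ a, a ∉ K → ∀ b, b ∉ K → ¬(ofCross K A).Adj a b := fun a ha b hb h => by
  simp only [ofCross, SimpleGraph.fromRel_adj] at h
  rcases h.2 with (h | ⟨h, -⟩) | (h | ⟨h, -⟩)
  exacts [ha h.1, ha h, hb h.1, hb h]

lemma degree_clique {G : SimpleGraph (Fin n)} (hG : ∀ a ∈ K, ∀ b ∈ K, a ≠ b → G.Adj a b)
    (a : {a // a ∈ K}) : #(univ.filter fun w => G.Adj a.1 w) =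
      (#K - 1) + #(univ.filter fun x : {x // x ∉ K} => decide (G.Adj a.1 x.1) = true) := by
  rw [← card_erase_of_mem a.2, ← card_map (Function.Embedding.subtype fun x => x ∉ K),
    ← card_union_of_disjoint]
  · congr 1
    ext w
    simp only [mem_filter, mem_univ, true_and, mem_union, mem_erase, mem_map,
      Function.Embedding.coe_subtype, decide_eq_true_eq, Subtype.exists, exists_and_left,
      exists_prop, exists_eq_right_right]
    by_cases hw : w ∈ K
    · constructor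
      · exact fun h => Or.inl ⟨h.ne', hw⟩
      · rintro (h | h)
        · exact hG a.1 a.2 w hw h.1.symm
        · exact absurd hw (by simpa using h.2)
    · simp [hw]
  · rw [disjoint_left]
    intro w hw
    simp only [mem_map, Function.Embedding.coe_subtype, not_exists, not_and]
    intro x _ hx
    exact x.2 (hx ▸ (mem_erase.1 hw).2)

lemma degree_indep {G : SimpleGraph (Fin n)} (hG : ∀ a, a ∉ K → ∀ b, b ∉ K → ¬G.Adj a b)
    (x : {x // x ∉ K}) : #(univ.filter fun w => G.Adj x.1 w) =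
      #(univ.filter fun a : {a // a ∈ K} => decide (G.Adj a.1 x.1) = true) := by
  rw [← card_map (Function.Embedding.subtype fun a => a ∈ K)]
  congr 1
  ext w
  simp only [mem_filter, mem_univ, true_and, mem_map, Function.Embedding.coe_subtype,
    decide_eq_true_eq, Subtype.exists, exists_and_left, exists_prop, exists_eq_right_right]
  by_cases hw : w ∈ K
  · simp [hw, G.adj_comm]
  · simp [hw, hG x.1 x.2 w hw]

/-- Two realisations of a split degree vector with the same cross edges are equal. -/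
lemma split_ext {G H : SimpleGraph (Fin n)} (hG : ∀ a ∈ K, ∀ b ∈ K, a ≠ b → G.Adj a b)
    (hG' : ∀ a, a ∉ K → ∀ b, b ∉ K → ¬G.Adj a b) (hH : ∀ a ∈ K, ∀ b ∈ K, a ≠ b → H.Adj a b)
    (hH' : ∀ a, a ∉ K → ∀ b, b ∉ K → ¬H.Adj a b)
    (h : ∀ (a : {a // a ∈ K}) (x : {x // x ∉ K}), G.Adj a.1 x.1 ↔ H.Adj a.1 x.1) : G = H := by
  ext u v
  rcases eq_or_ne u v with rfl | huv
  · simp
  by_cases hu : u ∈ K <;> by_cases hv : v ∈ K
  · exact iff_of_true (hG u hu v hv huv) (hH u hu v hv huv)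
  · exact h ⟨u, hu⟩ ⟨v, hv⟩
  · rw [G.adj_comm, H.adj_comm]; exact h ⟨v, hv⟩ ⟨u, hu⟩
  · exact iff_of_false (hG' u hu v hv) (hH' u hu v hv)

/-- The realisations of a split degree vector are the matrices with the induced margins. -/
lemma exists_margins_equiv {d : Fin n → ℕ} {G₀ : SimpleGraph (Fin n)} (hG₀ : G₀ ∈ realisations d)
    (hK : ∀ a ∈ K, ∀ b ∈ K, a ≠ b → G₀.Adj a b)
    (hI : ∀ a, a ∉ K → ∀ b, b ∉ K → ¬G₀.Adj a b) :
    ∃ (r : {a // a ∈ K} → ℕ) (c : {x // x ∉ K} → ℕ)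
      (e : Margins r c ≃ {G // G ∈ realisations d}), ∀ A, (e A).1 = ofCross K A.1 := by
  have hdeg : ∀ {G}, G ∈ realisations d → ∀ v, #(univ.filter fun w => G.Adj v w) = d v :=
    fun {G} hG v => by rw [← ncard_neighborSet_eq]; exact (mem_filter.1 hG).2 v
  refine ⟨fun a => d a.1 - (#K - 1), fun x => d x.1, ?_⟩
  have hrdef : ∀ a : {a // a ∈ K}, #K - 1 ≤ d a.1 := fun a => by
    have h := degree_clique hK a
    rw [hdeg hG₀] at h
    omega
  have hmem : ∀ A : Margins (fun a : {a // a ∈ K} => d a.1 - (#K - 1))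
      (fun x : {x // x ∉ K} => d x.1), ofCross K A.1 ∈ realisations d := fun A => by
    refine mem_filter.2 ⟨mem_univ _, fun v => ?_⟩
    rw [ncard_neighborSet_eq]
    by_cases hv : v ∈ K
    · rw [degree_clique (ofCross_clique A.1) ⟨v, hv⟩]
      simp only [ofCross_cross A.1 ⟨v, hv⟩, decide_eq_true_eq]
      rw [A.2.1 ⟨v, hv⟩]
      have := hrdef ⟨v, hv⟩
      dsimp only at this ⊢
      omega
    · rw [degree_indep (ofCross_indep A.1) ⟨v, hv⟩]
      simp only [ofCross_cross A.1 _ ⟨v, hv⟩, decide_eq_true_eq]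
      exact A.2.2 ⟨v, hv⟩
  refine ⟨{ toFun := fun A => ⟨ofCross K A.1, hmem A⟩
            invFun := fun G => ⟨fun a x => decide (G.1.Adj a.1 x.1), fun a => ?_, fun x => ?_⟩
            left_inv := fun A => ?_
            right_inv := fun G => ?_ }, fun A => rfl⟩
  · have h := degree_clique (split_structure hG₀ hK hI G.2).1 a
    rw [hdeg G.2] at h
    dsimp only
    omega
  · have h := degree_indep (split_structure hG₀ hK hI G.2).2 x
    rw [hdeg G.2] at h
    exact h.symm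
  · exact Subtype.ext <| funext fun a => funext fun x => by simp [ofCross_cross A.1 a x]
  · obtain ⟨g1, g2⟩ := split_structure hG₀ hK hI G.2
    exact Subtype.ext <| split_ext (ofCross_clique _) (ofCross_indep _) g1 g2 fun a x => by
      rw [ofCross_cross]; simp

/-- An effective exchange is a switch. -/
lemma ofCross_pairSwap {d : Fin n → ℕ} {G₀ : SimpleGraph (Fin n)} (hG₀ : G₀ ∈ realisations d)
    (hK : ∀ a ∈ K, ∀ b ∈ K, a ≠ b → G₀.Adj a b)
    (hI : ∀ a, a ∉ K → ∀ b, b ∉ K → ¬G₀.Adj a b) {A : {a // a ∈ K} → {x // x ∉ K} → Bool}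
    (hA : ofCross K A ∈ realisations d) {τ : Fin 4 ↪ Fin n} {i k : {a // a ∈ K}}
    {x y : {x // x ∉ K}} (hik : i ≠ k) (hxy : x ≠ y) (t0 : τ 0 = i.1) (t1 : τ 1 = x.1)
    (t2 : τ 2 = y.1) (t3 : τ 3 = k.1) (a1 : A i x = true) (a2 : A i y = false)
    (a3 : A k x = false) (a4 : A k y = true) :
    ofCross K (pairSwap i k x y A) = switchMap τ (ofCross K A) := by
  have hc : CanSwitch τ (ofCross K A) := by
    refine ⟨?_, ?_, ?_, ?_⟩ <;> simp only [t0, t1, t2, t3]
    · exact (ofCross_cross A _ _).2 a1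
    · exact ((ofCross_cross A _ _).2 a4).symm
    · rw [ofCross_cross, a2]; exact Bool.false_ne_true
    · rw [SimpleGraph.adj_comm, ofCross_cross, a3]; exact Bool.false_ne_true
  obtain ⟨g1, g2⟩ := split_structure hG₀ hK hI (switchMap_mem τ hA)
  refine split_ext (ofCross_clique _) (ofCross_indep _) g1 g2 fun l z => ?_
  rw [switchMap_adj hc, ofCross_cross, ofCross_cross, t0, t1, t2, t3, pairSwap,
    if_pos (by simp [a1, a2, a3, a4])]
  have hne : ∀ (a : {a // a ∈ K}) (x : {x // x ∉ K}), a.1 ≠ x.1 := fun a x h => x.2 (h ▸ a.2)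
  have hne' : ∀ (a : {a // a ∈ K}) (x : {x // x ∉ K}), x.1 ≠ a.1 := fun a x => (hne a x).symm
  simp only [Sym2.eq_iff, ne_eq, hne, hne', and_false, or_false, false_or,
    Subtype.val_inj]
  rcases eq_or_ne l i with rfl | hl1
  · rcases eq_or_ne z x with rfl | hz1
    · simp [a2, hik, hxy]
    rcases eq_or_ne z y with rfl | hz2
    · simp [a1, hik]
    · simp [Equiv.swap_apply_def, hz1, hz2]
  rcases eq_or_ne l k with rfl | hl2
  · rcases eq_or_ne z x with rfl | hz1
    · simp [a4]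
    rcases eq_or_ne z y with rfl | hz2
    · simp [a3, hl1, hxy.symm]
    · simp [Equiv.swap_apply_def, hz1, hz2]
  · simp [hl1, hl2]

lemma pairSwap_comm {α β : Type*} (i k : α) (x y : β) (A : α → β → Bool) :
    pairSwap i k y x A = pairSwap i k x y A := by
  simp only [pairSwap, Equiv.swap_comm y x, eq_comm]

lemma pairSwap_eq_self {α β : Type*} {i k : α} {x y : β} {A : α → β → Bool}
    (h : A i x = A i y) : pairSwap i k x y A = A := by
  unfold pairSwap
  split_ifs with hs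
  · have hk : A k x = A k y := by
      rw [h] at hs
      revert hs
      cases A k x <;> cases A k y <;> simp
    funext l z
    rcases eq_or_ne z x with rfl | hz1
    · rw [Equiv.swap_apply_left]
      split_ifs with hl
      · rcases hl with rfl | rfl
        exacts [h.symm, hk.symm]
      · rfl
    rcases eq_or_ne z y with rfl | hz2
    · rw [Equiv.swap_apply_right]
      split_ifs with hl
      · rcases hl with rfl | rfl
        exacts [h, hk]
      · rfl
    · simp [Equiv.swap_apply_of_ne_of_ne hz1 hz2]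
  · rfl

/-- The exchanges of a split degree vector are switches, each used at most twice. -/
lemma exchange_sum_le {d : Fin n → ℕ} {G₀ : SimpleGraph (Fin n)} (hG₀ : G₀ ∈ realisations d)
    (hK : ∀ a ∈ K, ∀ b ∈ K, a ≠ b → G₀.Adj a b)
    (hI : ∀ a, a ∉ K → ∀ b, b ∉ K → ¬G₀.Adj a b) {r : {a // a ∈ K} → ℕ}
    {c : {x // x ∉ K} → ℕ} (e : Margins r c ≃ {G // G ∈ realisations d})
    (he : ∀ A, (e A).1 = ofCross K A.1) (f : SimpleGraph (Fin n) → ℝ) :
    ∑ i, ∑ k, ∑ x, ∑ y, ∑ A : Margins r c,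
        (f (ofCross K (pswap i k x y A).1) - f (ofCross K A.1)) ^ 2 ≤
      2 * ∑ τ : Fin 4 ↪ Fin n, ∑ G ∈ realisations d, (f (switchMap τ G) - f G) ^ 2 := by
  have hmem : ∀ A : Margins r c, ofCross K A.1 ∈ realisations d := fun A => he A ▸ (e A).2
  set φ : (Fin 4 ↪ Fin n) → ℝ := fun τ =>
    ∑ A : Margins r c, (f (switchMap τ (ofCross K A.1)) - f (ofCross K A.1)) ^ 2 with hφ
  have hφe : ∀ τ, ∑ G ∈ realisations d, (f (switchMap τ G) - f G) ^ 2 = φ τ := fun τ => by
    rw [← sum_coe_sort (realisations d) fun G => (f (switchMap τ G) - f G) ^ 2,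
      ← e.sum_comp fun G => (f (switchMap τ G.1) - f G.1) ^ 2]
    exact sum_congr rfl fun A _ => by rw [he]
  rw [sum_congr rfl fun τ _ => hφe τ]
  have hne : ∀ (a : {a // a ∈ K}) (x : {x // x ∉ K}), a.1 ≠ x.1 := fun a x h => x.2 (h ▸ a.2)
  let P := ({a // a ∈ K} × {a // a ∈ K}) × ({x // x ∉ K} × {x // x ∉ K})
  let good : P → Prop := fun q => q.1.1 ≠ q.1.2 ∧ q.2.1 ≠ q.2.2
  let τ₁ : {q // good q} → (Fin 4 ↪ Fin n) := fun q =>
    ⟨![q.1.1.1.1, q.1.2.1.1, q.1.2.2.1, q.1.1.2.1], by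
      have h1 : q.1.1.1.1 ≠ q.1.1.2.1 := fun h => q.2.1 (Subtype.ext h)
      have h2 : q.1.2.1.1 ≠ q.1.2.2.1 := fun h => q.2.2 (Subtype.ext h)
      have h3 := hne q.1.1.1 q.1.2.1
      have h4 := hne q.1.1.1 q.1.2.2
      have h5 := hne q.1.1.2 q.1.2.1
      have h6 := hne q.1.1.2 q.1.2.2
      intro u v
      fin_cases u <;> fin_cases v <;>
        simp [h1, h2, h3, h4, h5, h6, h1.symm, h2.symm, h3.symm, h4.symm, h5.symm, h6.symm]⟩
  let τ₂ : {q // good q} → (Fin 4 ↪ Fin n) := fun q =>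
    τ₁ ⟨(q.1.1, (q.1.2.2, q.1.2.1)), q.2.1, q.2.2.symm⟩
  have hinj1 : Function.Injective τ₁ := fun q q' h => by
    have h0 : q.1.1.1.1 = q'.1.1.1.1 := DFunLike.congr_fun h 0
    have h1 : q.1.2.1.1 = q'.1.2.1.1 := DFunLike.congr_fun h 1
    have h2 : q.1.2.2.1 = q'.1.2.2.1 := DFunLike.congr_fun h 2
    have h3 : q.1.1.2.1 = q'.1.1.2.1 := DFunLike.congr_fun h 3
    exact Subtype.ext (Prod.ext (Prod.ext (Subtype.ext h0) (Subtype.ext h3))
      (Prod.ext (Subtype.ext h1) (Subtype.ext h2)))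
  have hinj2 : Function.Injective τ₂ := fun q q' h => by
    have h' := congrArg Subtype.val (hinj1 h)
    obtain ⟨e1, e2⟩ := Prod.ext_iff.1 h'
    obtain ⟨e3, e4⟩ := Prod.ext_iff.1 e2
    exact Subtype.ext (Prod.ext e1 (Prod.ext e4 e3))
  have hpt : ∀ q : {q // good q}, ∑ A : Margins r c,
      (f (ofCross K (pswap q.1.1.1 q.1.1.2 q.1.2.1 q.1.2.2 A).1) - f (ofCross K A.1)) ^ 2 ≤
        φ (τ₁ q) + φ (τ₂ q) := by
    intro q
    simp only [hφ, ← sum_add_distrib]
    refine sum_le_sum fun A _ => ?_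
    have p1 := sq_nonneg (f (switchMap (τ₁ q) (ofCross K A.1)) - f (ofCross K A.1))
    have p2 := sq_nonneg (f (switchMap (τ₂ q) (ofCross K A.1)) - f (ofCross K A.1))
    rw [pswap_val _ _ A q.2.1]
    by_cases hsame : A.1 q.1.1.1 q.1.2.1 = A.1 q.1.1.1 q.1.2.2
    · rw [pairSwap_eq_self hsame, sub_self, zero_pow two_ne_zero]
      linarith
    by_cases hsums : (A.1 q.1.1.1 q.1.2.1).toNat + (A.1 q.1.1.2 q.1.2.1).toNat =
        (A.1 q.1.1.1 q.1.2.2).toNat + (A.1 q.1.1.2 q.1.2.2).toNat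
    · cases h1 : A.1 q.1.1.1 q.1.2.1 <;> cases h2 : A.1 q.1.1.1 q.1.2.2 <;>
        cases h3 : A.1 q.1.1.2 q.1.2.1 <;> cases h4 : A.1 q.1.1.2 q.1.2.2 <;>
        simp [h1, h2, h3, h4] at hsame hsums
      · rw [← pairSwap_comm, ofCross_pairSwap hG₀ hK hI (hmem A) (τ := τ₂ q) q.2.1 q.2.2.symm
          rfl rfl rfl rfl h2 h1 h4 h3]
        linarith
      · rw [ofCross_pairSwap hG₀ hK hI (hmem A) (τ := τ₁ q) q.2.1 q.2.2
          rfl rfl rfl rfl h1 h2 h3 h4]
        linarith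
    · rw [pairSwap, if_neg hsums, sub_self, zero_pow two_ne_zero]
      linarith
  set W : P → ℝ := fun q => ∑ A : Margins r c,
    (f (ofCross K (pswap q.1.1 q.1.2 q.2.1 q.2.2 A).1) - f (ofCross K A.1)) ^ 2 with hW
  have hzero : ∀ q : P, W q ≠ 0 → good q := fun q hq => by
    by_contra h
    refine hq (sum_eq_zero fun A _ => ?_)
    by_cases hik : q.1.1 = q.1.2
    · simp [pswap, hik]
    · have hxy : q.2.1 = q.2.2 := not_not.1 fun c => h ⟨hik, c⟩
      rw [pswap_val _ _ A hik, pairSwap_eq_self (by rw [hxy]), sub_self, zero_pow two_ne_zero]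
  have hlhs : ∑ i, ∑ k, ∑ x, ∑ y, ∑ A : Margins r c,
      (f (ofCross K (pswap i k x y A).1) - f (ofCross K A.1)) ^ 2 = ∑ q, W q := by
    simp only [P, hW, Fintype.sum_prod_type]
  rw [hlhs, ← sum_filter_of_ne (p := good) (fun q _ h => hzero q h),
    sum_subtype (p := good) (univ.filter good) (fun q => by simp) W]
  have hφ0 : ∀ τ, 0 ≤ φ τ := fun τ => sum_nonneg fun A _ => sq_nonneg _
  calc ∑ q : {q // good q}, W q.1 ≤ ∑ q, (φ (τ₁ q) + φ (τ₂ q)) := sum_le_sum fun q _ => hpt q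
    _ = ∑ q, φ (τ₁ q) + ∑ q, φ (τ₂ q) := sum_add_distrib
    _ ≤ ∑ τ, φ τ + ∑ τ, φ τ :=
        add_le_add (sum_tuple_le τ₁ hinj1 φ hφ0) (sum_tuple_le τ₂ hinj2 φ hφ0)
    _ = 2 * ∑ τ, φ τ := (two_mul _).symm

/-- The Poincaré inequality for split degree vectors from the one for margins. -/
theorem split_poincare (d : Fin n → ℕ) (hd : IsSplit d) (C : ℝ) (hC : 0 ≤ C)
    (hM : ∀ (α β : Type) [Fintype α] [Fintype β], Fintype.card α ≤ n → Fintype.card β ≤ n →
      ∀ (r : α → ℕ) (c : β → ℕ) (f : Margins r c → ℝ),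
        tvar f ≤ C * ∑ i, ∑ k, ∑ x, ∑ y, ∑ A, (f (pswap i k x y A) - f A) ^ 2) :
    ∀ f : SimpleGraph (Fin n) → ℝ,
      ∑ G ∈ realisations d,
          (f G - (∑ H ∈ realisations d, f H) / (#(realisations d) : ℝ)) ^ 2 ≤
        2 * C * ∑ τ : Fin 4 ↪ Fin n, ∑ G ∈ realisations d, (f (switchMap τ G) - f G) ^ 2 := by
  intro f
  obtain ⟨G₀, hG₀, K, hK, hI⟩ := hd
  obtain ⟨r, c, e, he⟩ := exists_margins_equiv hG₀ hK hI
  set g : Margins r c → ℝ := fun A => f (ofCross K A.1) with hg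
  have hsumf : ∀ φ : SimpleGraph (Fin n) → ℝ,
      ∑ G ∈ realisations d, φ G = ∑ A : Margins r c, φ (ofCross K A.1) := fun φ => by
    rw [← sum_coe_sort (realisations d) φ, ← e.sum_comp fun G => φ G.1]
    exact sum_congr rfl fun A _ => by rw [he]
  have hcard : #(realisations d) = Fintype.card (Margins r c) := by
    rw [Fintype.card_congr e, Fintype.card_coe]
  have hvar : ∑ G ∈ realisations d,
      (f G - (∑ H ∈ realisations d, f H) / (#(realisations d) : ℝ)) ^ 2 = tvar g := by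
    have hfib : ∀ A, fib (fun _ : Margins r c => ()) A = univ := fun A => by simp [fib]
    rw [hsumf, hsumf, hcard]
    simp [tvar, cvar, cavg, hfib, hg, card_univ]
  rw [hvar]
  refine (hM {a // a ∈ K} {x // x ∉ K} ((Fintype.card_subtype_le _).trans (Fintype.card_fin n).le)
    ((Fintype.card_subtype_le _).trans (Fintype.card_fin n).le) r c g).trans ?_
  rw [mul_comm 2 C, mul_assoc]
  refine mul_le_mul_of_nonneg_left ?_ hC
  exact exchange_sum_le hG₀ hK hI e he f

end Vale.Agent.P335
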