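import Mathlib

/-! Mixing of finite lazy symmetric chains from a Poincaré inequality. -/

open Finset Matrix Real

namespace Vale.Agent.P335

variable {α : Type*} [Fintype α] [DecidableEq α]

/-- Total variation distance to the uniform distribution at time `t` from `x`. -/
noncomputable def tvUnif (P : Matrix α α ℝ) (t : ℕ) (x : α) : ℝ :=
  1 / 2 * ∑ y, |(P ^ t) x y - 1 / (Fintype.card α : ℝ)|

/-- The mixing time to total variation distance `1 / 4` from the uniform distribution. -/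
noncomputable def mixTime (P : Matrix α α ℝ) : ℕ :=
  sInf {t | ∀ x, tvUnif P t x ≤ 1 / 4}

/-- A lazy symmetric stochastic matrix. -/
structure LazyChain (P : Matrix α α ℝ) : Prop where
  symm : ∀ x y, P x y = P y x
  nonneg : ∀ x y, 0 ≤ P x y
  row : ∀ x, ∑ y, P x y = 1
  lazy : ∀ x, 1 / 2 ≤ P x x

namespace LazyChain

variable {P : Matrix α α ℝ}

omit [DecidableEq α] in
/-- A symmetric stochastic matrix contracts the squared norm. -/
lemma sum_sq_mulVec_le {K : Matrix α α ℝ} (hs : ∀ x y, K x y = K y x) (h0 : ∀ x y, 0 ≤ K x y)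
    (h1 : ∀ x, ∑ y, K x y = 1) (f : α → ℝ) : ∑ x, (K *ᵥ f) x ^ 2 ≤ ∑ x, f x ^ 2 := by
  calc ∑ x, (K *ᵥ f) x ^ 2 ≤ ∑ x, ∑ y, K x y * f y ^ 2 := by
        refine sum_le_sum fun x _ => ?_
        have h := Finset.sum_sq_le_sum_mul_sum_of_sq_le_mul univ (r := fun y => K x y * f y)
          (f := fun y => K x y) (g := fun y => K x y * f y ^ 2) (fun y _ => h0 x y)
          (fun y _ => mul_nonneg (h0 x y) (sq_nonneg _)) (fun y _ => le_of_eq (by ring))
        rw [h1, one_mul] at h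
        exact h
    _ = ∑ y, f y ^ 2 := by
        rw [sum_comm]
        refine sum_congr rfl fun y _ => ?_
        rw [← sum_mul, sum_congr rfl fun x _ => hs x y, h1, one_mul]

/-- One step of a lazy chain satisfies `‖P f‖² ≤ ⟪f, P f⟫`. -/
lemma sum_sq_mulVec_le_inner (hP : LazyChain P) (f : α → ℝ) :
    ∑ x, (P *ᵥ f) x ^ 2 ≤ ∑ x, f x * (P *ᵥ f) x := by
  set K : Matrix α α ℝ := (2 : ℝ) • P - 1 with hK
  have hKe : ∀ x y, K x y = 2 * P x y - if x = y then 1 else 0 := fun x y => by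
    simp [hK, Matrix.one_apply]
  have h := sum_sq_mulVec_le (K := K) (fun x y => by rw [hKe, hKe, hP.symm x y]; simp [eq_comm])
    (fun x y => by
      rw [hKe]
      rcases eq_or_ne x y with rfl | h
      · rw [if_pos rfl]; linarith [hP.lazy x]
      · rw [if_neg h]; linarith [hP.nonneg x y])
    (fun x => by simp [hKe, sum_sub_distrib, ← mul_sum, hP.row x]; norm_num) f
  have hmv : ∀ x, (K *ᵥ f) x = 2 * (P *ᵥ f) x - f x := fun x => by
    simp [hK, Matrix.sub_mulVec, Matrix.smul_mulVec]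
  simp only [hmv] at h
  have e : ∀ x, (2 * (P *ᵥ f) x - f x) ^ 2
      = 4 * (P *ᵥ f) x ^ 2 - 4 * (f x * (P *ᵥ f) x) + f x ^ 2 := fun x => by ring
  simp only [e, sum_add_distrib, sum_sub_distrib, ← mul_sum] at h
  linarith

omit [DecidableEq α] in
lemma sum_mulVec (hP : LazyChain P) (f : α → ℝ) : ∑ x, (P *ᵥ f) x = ∑ x, f x := by
  simp only [mulVec, dotProduct]
  rw [sum_comm]
  refine sum_congr rfl fun y _ => ?_
  rw [← sum_mul, sum_congr rfl fun x _ => hP.symm x y, hP.row, one_mul]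

/-- Geometric decay of mean-zero functions under a Poincaré inequality. -/
lemma sum_sq_pow_le (hP : LazyChain P) {C : ℝ} (hC : 1 ≤ C)
    (hgap : ∀ f : α → ℝ, ∑ x, f x = 0 → ∑ x, f x ^ 2 ≤ C * ∑ x, f x * (f x - (P *ᵥ f) x))
    (t : ℕ) (f : α → ℝ) (hf : ∑ x, f x = 0) :
    ∑ x, ((P ^ t) *ᵥ f) x = 0 ∧ ∑ x, ((P ^ t) *ᵥ f) x ^ 2 ≤ (1 - 1 / C) ^ t * ∑ x, f x ^ 2 := by
  induction t with
  | zero => simp [hf]
  | succ t ih =>
    obtain ⟨h0, h1⟩ := ih
    set g := (P ^ t) *ᵥ f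
    rw [pow_succ', ← Matrix.mulVec_mulVec]
    refine ⟨(hP.sum_mulVec g).trans h0, ?_⟩
    have hg := hgap g h0
    simp only [mul_sub, sum_sub_distrib, ← sq] at hg
    have h2 : ∑ x, g x * (P *ᵥ g) x ≤ (1 - 1 / C) * ∑ x, g x ^ 2 := by
      have : (∑ x, g x ^ 2) / C ≤ ∑ x, g x ^ 2 - ∑ x, g x * (P *ᵥ g) x := by
        rw [div_le_iff₀' (by linarith), mul_sub]; linarith
      have e : (1 - 1 / C) * ∑ x, g x ^ 2 = ∑ x, g x ^ 2 - (∑ x, g x ^ 2) / C := by ring
      linarith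
    have hc : 0 ≤ 1 - 1 / C := by rw [sub_nonneg, div_le_one (by linarith)]; exact hC
    calc _ ≤ _ := hP.sum_sq_mulVec_le_inner g
      _ ≤ _ := h2
      _ ≤ (1 - 1 / C) * ((1 - 1 / C) ^ t * ∑ x, f x ^ 2) := mul_le_mul_of_nonneg_left h1 hc
      _ = _ := by rw [pow_succ]; ring

lemma pow_symm (hP : LazyChain P) (t : ℕ) (x y : α) : (P ^ t) x y = (P ^ t) y x := by
  have h : Pᵀ = P := Matrix.ext fun a b => hP.symm b a
  have h2 := Matrix.transpose_pow P t
  rw [h] at h2
  exact (congrFun (congrFun h2 y) x)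

/-- Mixing from a Poincaré inequality. -/
theorem tvUnif_le (hP : LazyChain P) [Nonempty α] {C : ℝ} (hC : 1 ≤ C)
    (hgap : ∀ f : α → ℝ, ∑ x, f x = 0 → ∑ x, f x ^ 2 ≤ C * ∑ x, f x * (f x - (P *ᵥ f) x))
    {t : ℕ} (ht : C * (log (Fintype.card α) + 2) ≤ t) (x : α) : tvUnif P t x ≤ 1 / 4 := by
  set N := (Fintype.card α : ℝ) with hN
  have hN0 : 0 < N := by simp [hN, Fintype.card_pos]
  set f : α → ℝ := fun y => (if y = x then 1 else 0) - 1 / N with hf
  have hf0 : ∑ y, f y = 0 := by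
    simp [hf, sum_sub_distrib, hN]
  have hf1 : ∑ y, f y ^ 2 ≤ 1 := by
    have e : ∀ y, f y ^ 2 = (if y = x then 1 - 2 / N else 0) + 1 / N ^ 2 := fun y => by
      simp only [hf]; split_ifs <;> ring
    simp only [e, sum_add_distrib, sum_ite_eq', mem_univ, if_true, sum_const, card_univ,
      nsmul_eq_mul, ← hN]
    have : 0 < 1 / N := by positivity
    have : N * (1 / N ^ 2) = 1 / N := by field_simp
    have : (2 : ℝ) / N = 2 * (1 / N) := by ring
    linarith
  obtain ⟨-, hdec⟩ := hP.sum_sq_pow_le hC hgap t f hf0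
  have hrow : ∀ s : ℕ, ∀ y, ∑ w, (P ^ s) y w = 1 := fun s => by
    induction s with
    | zero => intro y; simp [Matrix.one_apply]
    | succ s ih =>
      intro y
      simp only [pow_succ, Matrix.mul_apply]
      rw [sum_comm]
      simp [← mul_sum, hP.row, ih y]
  have hv : ∀ y, ((P ^ t) *ᵥ f) y = (P ^ t) x y - 1 / N := fun y => by
    simp only [mulVec, dotProduct, hf, mul_sub, sum_sub_distrib, mul_ite, mul_one, mul_zero,
      sum_ite_eq', mem_univ, if_true, ← sum_mul, hrow, one_mul]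
    rw [hP.pow_symm]
  simp only [hv] at hdec
  have hcs := sq_sum_le_card_mul_sum_sq (s := (univ : Finset α))
    (f := fun y => |(P ^ t) x y - 1 / N|)
  simp only [sq_abs, card_univ, ← hN] at hcs
  have hc : 0 ≤ 1 - 1 / C := by rw [sub_nonneg, div_le_one (by linarith)]; exact hC
  have hexp : (1 - 1 / C) ^ t ≤ 1 / (4 * N) := by
    refine (pow_le_pow_left₀ hc (Real.one_sub_le_exp_neg _) t).trans ?_
    rw [← Real.exp_nat_mul, ← Real.exp_log (show 0 < 1 / (4 * N) by positivity), exp_le_exp,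
      one_div (4 * N), Real.log_inv, Real.log_mul (by norm_num) hN0.ne']
    have hlog4 : log 4 ≤ 2 := by
      rw [show (4 : ℝ) = 2 ^ 2 by norm_num, log_pow]
      have := log_two_lt_d9
      push_cast
      linarith
    have : log N + 2 ≤ (t : ℝ) * (1 / C) := by
      rw [mul_one_div, le_div_iff₀ (by linarith)]; linarith
    linarith
  have hfin : (∑ y, |(P ^ t) x y - 1 / N|) ^ 2 ≤ (1 / 2) ^ 2 := by
    calc _ ≤ N * ((1 - 1 / C) ^ t * ∑ y, f y ^ 2) :=
          hcs.trans (mul_le_mul_of_nonneg_left hdec hN0.le)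
      _ ≤ N * (1 / (4 * N) * 1) := mul_le_mul_of_nonneg_left
          (mul_le_mul hexp hf1 (sum_nonneg fun y _ => sq_nonneg _) (by positivity)) hN0.le
      _ = (1 / 2) ^ 2 := by field_simp; ring
  have := (sq_le_sq₀ (sum_nonneg fun y _ => abs_nonneg _) (by norm_num)).1 hfin
  simp only [tvUnif, ← hN]
  linarith

/-- The mixing time from a Poincaré inequality. -/
theorem mixTime_le (hP : LazyChain P) [Nonempty α] {C : ℝ} (hC : 1 ≤ C)
    (hgap : ∀ f : α → ℝ, ∑ x, f x = 0 → ∑ x, f x ^ 2 ≤ C * ∑ x, f x * (f x - (P *ᵥ f) x)) :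
    (mixTime P : ℝ) ≤ C * (log (Fintype.card α) + 2) + 1 := by
  set T := C * (log (Fintype.card α) + 2)
  have hT : 0 ≤ T := mul_nonneg (by linarith) (by
    have := Real.log_natCast_nonneg (Fintype.card α)
    linarith)
  have h : mixTime P ≤ ⌈T⌉₊ := Nat.sInf_le fun x => hP.tvUnif_le hC hgap (Nat.le_ceil T) x
  have := (Nat.cast_le (α := ℝ)).2 h
  linarith [Nat.ceil_lt_add_one hT]

omit [DecidableEq α] in
/-- The Dirichlet form of a symmetric stochastic matrix. -/
lemma dirichlet_eq (hP : LazyChain P) (f : α → ℝ) :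
    ∑ x, f x * (f x - (P *ᵥ f) x) = 1 / 2 * ∑ x, ∑ y, P x y * (f x - f y) ^ 2 := by
  have e : ∀ x y, P x y * (f x - f y) ^ 2
      = P x y * f x ^ 2 - 2 * (f x * (P x y * f y)) + P x y * f y ^ 2 := fun x y => by ring
  simp only [e, sum_add_distrib, sum_sub_distrib, ← mul_sum, ← sum_mul, hP.row, one_mul]
  rw [sum_comm (f := fun x y => P x y * f y ^ 2)]
  simp only [← sum_mul, sum_congr rfl fun x _ => hP.symm x _, hP.row, one_mul, mul_sub,
    sum_sub_distrib, ← sq]
  simp only [mulVec, dotProduct]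
  ring

end LazyChain

end Vale.Agent.P335
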