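import Vale.Agent.P335.Defs
import Vale.Agent.P335.Mixing

/-!
# P335: the switch chain as a lazy symmetric chain on the realisations, and its mixing time
-/

open Finset Matrix Real
open scoped Classical

namespace Vale.Agent.P335

variable {n : ℕ}

/-- The condition under which a switch is made. -/
def CanSwitch (τ : Fin 4 ↪ Fin n) (G : SimpleGraph (Fin n)) : Prop :=
  G.Adj (τ 0) (τ 1) ∧ G.Adj (τ 2) (τ 3) ∧ ¬G.Adj (τ 0) (τ 2) ∧ ¬G.Adj (τ 1) (τ 3)

lemma switchMap_of_not {τ : Fin 4 ↪ Fin n} {G : SimpleGraph (Fin n)} (h : ¬CanSwitch τ G) :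
    switchMap τ G = G := if_neg h

lemma switchMap_adj {τ : Fin 4 ↪ Fin n} {G : SimpleGraph (Fin n)} (h : CanSwitch τ G)
    (x y : Fin n) : (switchMap τ G).Adj x y ↔
      (G.Adj x y ∧ s(x, y) ≠ s(τ 0, τ 1) ∧ s(x, y) ≠ s(τ 2, τ 3)) ∨
        s(x, y) = s(τ 0, τ 2) ∨ s(x, y) = s(τ 1, τ 3) := by
  have h02 : τ 0 ≠ τ 2 := τ.injective.ne (by decide)
  have h13 : τ 1 ≠ τ 3 := τ.injective.ne (by decide)
  rw [show switchMap τ G = _ from if_pos h, SimpleGraph.fromEdgeSet_adj]
  simp only [Set.mem_union, Set.mem_sdiff, SimpleGraph.mem_edgeSet, Set.mem_insert_iff,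
    Set.mem_singleton_iff, not_or]
  refine ⟨fun h' => h'.1, fun h' => ⟨h', ?_⟩⟩
  rintro rfl
  rcases h' with h' | h' | h'
  · exact h'.1.ne rfl
  · rcases Sym2.eq_iff.1 h' with ⟨e1, e2⟩ | ⟨e1, e2⟩ <;> exact h02 (by rw [← e1, ← e2])
  · rcases Sym2.eq_iff.1 h' with ⟨e1, e2⟩ | ⟨e1, e2⟩ <;> exact h13 (by rw [← e1, ← e2])

/-- Around every vertex a switch permutes the neighbourhood. -/
lemma exists_perm_switchMap (τ : Fin 4 ↪ Fin n) (G : SimpleGraph (Fin n)) (v : Fin n) :
    ∃ σ : Equiv.Perm (Fin n), (switchMap τ G).neighborSet v = σ ⁻¹' G.neighborSet v := by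
  by_cases h : CanSwitch τ G
  swap; · exact ⟨1, by rw [switchMap_of_not h]; rfl⟩
  obtain ⟨h01, h23, h02, h13⟩ := h
  have hne : ∀ i j : Fin 4, i ≠ j → τ i ≠ τ j := fun i j h => τ.injective.ne h
  have n01 := hne 0 1 (by decide)
  have n02 := hne 0 2 (by decide)
  have n03 := hne 0 3 (by decide)
  have n12 := hne 1 2 (by decide)
  have n13 := hne 1 3 (by decide)
  have n23 := hne 2 3 (by decide)
  have s01 := h01.symm
  have s23 := h23.symm
  have s02 : ¬G.Adj (τ 2) (τ 0) := fun h => h02 h.symm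
  have s13 : ¬G.Adj (τ 3) (τ 1) := fun h => h13 h.symm
  have key : ∀ y, y ∈ (switchMap τ G).neighborSet v ↔
      (G.Adj v y ∧ s(v, y) ≠ s(τ 0, τ 1) ∧ s(v, y) ≠ s(τ 2, τ 3)) ∨
        s(v, y) = s(τ 0, τ 2) ∨ s(v, y) = s(τ 1, τ 3) := fun y =>
    switchMap_adj ⟨h01, h23, h02, h13⟩ v y
  by_cases e0 : v = τ 0
  · refine ⟨Equiv.swap (τ 1) (τ 2), Set.ext fun y => ?_⟩
    subst e0
    rw [key y, Set.mem_preimage, SimpleGraph.mem_neighborSet, Equiv.swap_apply_def]
    split_ifs <;> simp_all
  by_cases e1 : v = τ 1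
  · refine ⟨Equiv.swap (τ 0) (τ 3), Set.ext fun y => ?_⟩
    subst e1
    rw [key y, Set.mem_preimage, SimpleGraph.mem_neighborSet, Equiv.swap_apply_def]
    split_ifs <;> simp_all
  by_cases e2 : v = τ 2
  · refine ⟨Equiv.swap (τ 0) (τ 3), Set.ext fun y => ?_⟩
    subst e2
    rw [key y, Set.mem_preimage, SimpleGraph.mem_neighborSet, Equiv.swap_apply_def]
    split_ifs <;> simp_all
  by_cases e3 : v = τ 3
  · refine ⟨Equiv.swap (τ 1) (τ 2), Set.ext fun y => ?_⟩
    subst e3
    rw [key y, Set.mem_preimage, SimpleGraph.mem_neighborSet, Equiv.swap_apply_def]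
    split_ifs <;> simp_all
  · refine ⟨1, Set.ext fun y => ?_⟩
    rw [key y]
    simp [e0, e1, e2, e3]

/-- A switch preserves every degree. -/
lemma switchMap_mem {d : Fin n → ℕ} (τ : Fin 4 ↪ Fin n) {G : SimpleGraph (Fin n)}
    (hG : G ∈ realisations d) : switchMap τ G ∈ realisations d := by
  simp only [realisations, Finset.mem_filter, Finset.mem_univ, true_and] at hG ⊢
  intro v
  obtain ⟨σ, hσ⟩ := exists_perm_switchMap τ G v
  rw [hσ, Set.ncard_preimage_of_injective_subset_range σ.injective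
    (by rw [σ.surjective.range_eq]; exact Set.subset_univ _)]
  exact hG v

/-- The tuple of the inverse switch. -/
def invTuple : (Fin 4 ↪ Fin n) ≃ (Fin 4 ↪ Fin n) where
  toFun τ := (Equiv.swap 1 2).toEmbedding.trans τ
  invFun τ := (Equiv.swap 1 2).toEmbedding.trans τ
  left_inv τ := by ext i; simp
  right_inv τ := by ext i; simp

/-- A switch is undone by the switch of the swapped tuple. -/
lemma switchMap_invTuple {τ : Fin 4 ↪ Fin n} {G : SimpleGraph (Fin n)}
    (h : switchMap τ G ≠ G) : switchMap (invTuple τ) (switchMap τ G) = G := by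
  have hc : CanSwitch τ G := not_not.1 fun c => h (switchMap_of_not c)
  obtain ⟨h01, h23, h02, h13⟩ := hc
  have hc : CanSwitch τ G := ⟨h01, h23, h02, h13⟩
  have hne : ∀ i j : Fin 4, i ≠ j → τ i ≠ τ j := fun i j h => τ.injective.ne h
  have n01 := hne 0 1 (by decide)
  have n02 := hne 0 2 (by decide)
  have n03 := hne 0 3 (by decide)
  have n12 := hne 1 2 (by decide)
  have n13 := hne 1 3 (by decide)
  have n23 := hne 2 3 (by decide)
  have i0 : invTuple τ 0 = τ 0 := rfl
  have i1 : invTuple τ 1 = τ 2 := rfl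
  have i2 : invTuple τ 2 = τ 1 := rfl
  have i3 : invTuple τ 3 = τ 3 := rfl
  have hc' : CanSwitch (invTuple τ) (switchMap τ G) := by
    simp only [CanSwitch, i0, i1, i2, i3, switchMap_adj hc]
    refine ⟨?_, ?_, ?_, ?_⟩ <;>
      simp [n01, n02, n03, n12, n13, n23, n01.symm, n02.symm, n03.symm, n12.symm,
        n13.symm, n23.symm]
  ext x y
  rw [switchMap_adj hc', i0, i1, i2, i3, switchMap_adj hc]
  constructor
  · rintro (⟨(⟨h, -, -⟩ | h | h), e1, e2⟩ | h | h)
    · exact h
    · exact absurd h e1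
    · exact absurd h e2
    · rwa [← SimpleGraph.mem_edgeSet, h]
    · rwa [← SimpleGraph.mem_edgeSet, h]
  · intro h
    by_cases e1 : s(x, y) = s(τ 0, τ 1)
    · exact Or.inr (Or.inl e1)
    by_cases e2 : s(x, y) = s(τ 2, τ 3)
    · exact Or.inr (Or.inr e2)
    refine Or.inl ⟨Or.inl ⟨h, e1, e2⟩, fun e => ?_, fun e => ?_⟩
    · exact h02 (by rwa [← SimpleGraph.mem_edgeSet, ← e, SimpleGraph.mem_edgeSet])
    · exact h13 (by rwa [← SimpleGraph.mem_edgeSet, ← e, SimpleGraph.mem_edgeSet])

lemma switchCount_symm (G H : SimpleGraph (Fin n)) :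
    #(univ.filter fun τ : Fin 4 ↪ Fin n => switchMap τ G = H) =
      #(univ.filter fun τ : Fin 4 ↪ Fin n => switchMap τ H = G) := by
  rcases eq_or_ne G H with rfl | hne
  · rfl
  refine Finset.card_bij' (fun τ _ => invTuple τ) (fun τ _ => invTuple τ) (fun τ hτ => ?_)
    (fun τ hτ => ?_) (fun τ _ => invTuple.left_inv τ) (fun τ _ => invTuple.left_inv τ) <;>
  · simp only [Finset.mem_filter, Finset.mem_univ, true_and] at hτ ⊢
    rw [← hτ]
    exact switchMap_invTuple (by rw [hτ]; first | exact hne.symm | exact hne)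

lemma switchChain_symm (G H : SimpleGraph (Fin n)) : switchChain n G H = switchChain n H G := by
  simp only [switchChain, Matrix.of_apply]
  rw [switchCount_symm G H]
  congr 1
  exact if_congr eq_comm rfl rfl

lemma switchChain_nonneg (G H : SimpleGraph (Fin n)) : 0 ≤ switchChain n G H := by
  simp only [switchChain, Matrix.of_apply]
  split_ifs <;> positivity

/-- The switch chain applied to a function. -/
lemma sum_switchChain_mul (G : SimpleGraph (Fin n)) (g : SimpleGraph (Fin n) → ℝ) :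
    ∑ H, switchChain n G H * g H = 1 / 2 * g G +
      1 / 2 / (Fintype.card (Fin 4 ↪ Fin n) : ℝ) * ∑ τ : Fin 4 ↪ Fin n, g (switchMap τ G) := by
  simp only [switchChain, Matrix.of_apply, add_mul, sum_add_distrib, ite_mul, zero_mul,
    sum_ite_eq, mem_univ, if_true]
  congr 1
  rw [← sum_fiberwise_of_maps_to (t := univ) (g := fun τ : Fin 4 ↪ Fin n => switchMap τ G)
    (fun τ _ => mem_univ _) (fun τ => g (switchMap τ G)), mul_sum]
  refine sum_congr rfl fun H _ => ?_
  rw [sum_congr rfl fun τ hτ => congrArg g (mem_filter.1 hτ).2, sum_const, nsmul_eq_mul]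
  ring

variable {d : Fin n → ℕ}

lemma switchChain_eq_zero {G H : SimpleGraph (Fin n)} (hG : G ∈ realisations d)
    (hH : H ∉ realisations d) : switchChain n G H = 0 := by
  simp only [switchChain, Matrix.of_apply]
  rw [if_neg (fun h => hH (by rw [← h]; exact hG)), filter_false_of_mem fun τ _ h => hH
    (by rw [← h]; exact switchMap_mem τ hG)]
  simp

/-- The switch chain on the realisations of `d`. -/
noncomputable def realChain (d : Fin n → ℕ) :
    Matrix {G // G ∈ realisations d} {G // G ∈ realisations d} ℝ :=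
  (switchChain n).submatrix Subtype.val Subtype.val

lemma sum_realChain_mul (G : {G // G ∈ realisations d}) (g : SimpleGraph (Fin n) → ℝ) :
    ∑ H, realChain d G H * g H.1 = ∑ H, switchChain n G.1 H * g H := by
  rw [← sum_subset (subset_univ (realisations d)) fun H _ hH => by
    rw [switchChain_eq_zero G.2 hH, zero_mul]]
  exact (sum_coe_sort (realisations d) fun H => switchChain n G.1 H * g H)

lemma lazyChain_realChain (hn : 4 ≤ n) (d : Fin n → ℕ) : LazyChain (realChain d) := by
  have : Nonempty (Fin 4 ↪ Fin n) := ⟨Fin.castLEEmb hn⟩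
  refine ⟨fun G H => switchChain_symm _ _, fun G H => switchChain_nonneg _ _, fun G => ?_,
    fun G => ?_⟩
  · have h := (sum_realChain_mul G fun _ => 1).trans (sum_switchChain_mul G.1 fun _ => 1)
    simp only [mul_one, sum_const, card_univ, nsmul_eq_mul] at h
    rw [h]
    field_simp
    norm_num
  · simp only [realChain, Matrix.submatrix_apply, switchChain, Matrix.of_apply, if_pos]
    exact le_add_of_nonneg_right (by positivity)

lemma pow_switchChain (G H : {G // G ∈ realisations d}) (t : ℕ) :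
    (switchChain n ^ t) G.1 H.1 = (realChain d ^ t) G H := by
  induction t generalizing G with
  | zero => rw [pow_zero, pow_zero, Matrix.one_apply, Matrix.one_apply]; exact if_congr Subtype.val_inj rfl rfl
  | succ t ih =>
    rw [pow_succ', pow_succ', Matrix.mul_apply, Matrix.mul_apply]
    rw [← sum_realChain_mul G fun K => (switchChain n ^ t) K H.1]
    exact sum_congr rfl fun K _ => by rw [ih K]

lemma log_card_realisations_le (d : Fin n → ℕ) :
    log (#(realisations d) : ℝ) ≤ (n : ℝ) ^ 2 := by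
  have h1 : #(realisations d) ≤ 2 ^ (n * n) := by
    refine le_trans (card_le_univ _) (le_trans (Fintype.card_le_of_injective
      (fun G : SimpleGraph (Fin n) => fun p : Fin n × Fin n => decide (G.Adj p.1 p.2))
      fun G H h => ?_) (by simp))
    ext x y
    simpa using congrFun h (x, y)
  rcases Nat.eq_zero_or_pos #(realisations d) with h | h
  · simp [h]
  calc log (#(realisations d) : ℝ) ≤ log ((2 : ℝ) ^ (n * n)) :=
        Real.log_le_log (by exact_mod_cast h) (by exact_mod_cast h1)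
    _ = (n * n : ℕ) * log 2 := Real.log_pow _ _
    _ ≤ (n * n : ℕ) * 1 := mul_le_mul_of_nonneg_left (by linarith [Real.log_two_lt_d9])
        (Nat.cast_nonneg _)
    _ = (n : ℝ) ^ 2 := by push_cast; ring

/-- Rapid mixing from a Poincaré inequality for the switches. -/
theorem rapid_of_poincare (hn : 4 ≤ n) (d : Fin n → ℕ) (C : ℕ) (hC : 1 ≤ C)
    (h : ∀ f : SimpleGraph (Fin n) → ℝ,
      ∑ G ∈ realisations d,
          (f G - (∑ H ∈ realisations d, f H) / (#(realisations d) : ℝ)) ^ 2 ≤
        C * ∑ τ : Fin 4 ↪ Fin n, ∑ G ∈ realisations d, (f (switchMap τ G) - f G) ^ 2) :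
    ∀ t : ℕ, 12 * C * n ^ 6 ≤ t → ∀ G ∈ realisations d, tvToUniform d G t ≤ 1 / 4 := by
  intro t ht G hG
  have : Nonempty {G // G ∈ realisations d} := ⟨⟨G, hG⟩⟩
  have : Nonempty (Fin 4 ↪ Fin n) := ⟨Fin.castLEEmb hn⟩
  set T := (Fintype.card (Fin 4 ↪ Fin n) : ℝ) with hT
  have hT1 : (1 : ℝ) ≤ T := by
    rw [hT]; exact_mod_cast Fintype.card_pos
  have hTn : T ≤ (n : ℝ) ^ 4 := by
    have := Fintype.card_le_of_injective (fun τ : Fin 4 ↪ Fin n => (τ : Fin 4 → Fin n))
      DFunLike.coe_injective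
    rw [Fintype.card_fun, Fintype.card_fin, Fintype.card_fin] at this
    rw [hT]; exact_mod_cast this
  have hC1 : (1 : ℝ) ≤ C := by exact_mod_cast hC
  set C' : ℝ := 4 * T * C with hC'
  have hC'1 : 1 ≤ C' := by nlinarith
  have hP := lazyChain_realChain hn d
  have hcard : Fintype.card {G // G ∈ realisations d} = #(realisations d) := Fintype.card_coe _
  have hgap : ∀ f : {G // G ∈ realisations d} → ℝ, ∑ x, f x = 0 →
      ∑ x, f x ^ 2 ≤ C' * ∑ x, f x * (f x - (realChain d *ᵥ f) x) := by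
    intro f hf
    set F : SimpleGraph (Fin n) → ℝ := fun H =>
      if hH : H ∈ realisations d then f ⟨H, hH⟩ else 0 with hF
    have hFf : ∀ x : {G // G ∈ realisations d}, F x.1 = f x := fun x => dif_pos x.2
    have hd : ∑ x, ∑ y, realChain d x y * (f x - f y) ^ 2 =
        1 / 2 / T * ∑ τ : Fin 4 ↪ Fin n, ∑ G ∈ realisations d, (F (switchMap τ G) - F G) ^ 2 := by
      rw [sum_comm (γ := Fin 4 ↪ Fin n),
        ← sum_coe_sort (realisations d) fun H => ∑ τ : Fin 4 ↪ Fin n, (F (switchMap τ H) - F H) ^ 2,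
        mul_sum]
      refine sum_congr rfl fun x _ => ?_
      have e := (sum_realChain_mul x fun H => (F x.1 - F H) ^ 2).trans
        (sum_switchChain_mul x.1 fun H => (F x.1 - F H) ^ 2)
      simp only [hFf, sub_self] at e
      rw [e, zero_pow two_ne_zero, mul_zero, zero_add]
      simp only [sub_sq_comm (f x), ← hT, hFf]
    have h0 := h F
    rw [← sum_coe_sort (realisations d) fun H => F H,
      ← sum_coe_sort (realisations d) fun H => (F H - _) ^ 2] at h0
    simp only [hFf, hf, zero_div, sub_zero] at h0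
    rw [hP.dirichlet_eq, hd]
    refine h0.trans (le_of_eq ?_)
    rw [hC']
    field_simp
    ring
  have hcast : (12 * C * n ^ 6 : ℝ) ≤ t := by exact_mod_cast ht
  have htime : C' * (log (Fintype.card {G // G ∈ realisations d}) + 2) ≤ t := by
    rw [hcard]
    refine le_trans ?_ hcast
    have hn4 : (4 : ℝ) ≤ n := by exact_mod_cast hn
    have hlog := log_card_realisations_le d
    have h2 : log (#(realisations d) : ℝ) + 2 ≤ 3 * (n : ℝ) ^ 2 := by nlinarith
    calc C' * (log (#(realisations d) : ℝ) + 2) ≤ (4 * (n : ℝ) ^ 4 * C) * (3 * (n : ℝ) ^ 2) := by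
          refine mul_le_mul ?_ h2 ?_ (by positivity)
          · rw [hC']; gcongr
          · have := Real.log_natCast_nonneg #(realisations d); linarith
      _ = 12 * C * (n : ℝ) ^ 6 := by ring
  have hmix := hP.tvUnif_le hC'1 hgap htime ⟨G, hG⟩
  refine le_trans (le_of_eq ?_) hmix
  rw [tvToUniform, tvUnif, hcard,
    ← sum_coe_sort (realisations d) fun H => |(switchChain n ^ t) G H - _|]
  simp only [← pow_switchChain ⟨G, hG⟩]

end Vale.Agent.P335
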