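import Vale.Agent.P335.Bochner

/-!
# P335: resampling two rows compared with single exchanges
-/

open Finset
open scoped Classical

namespace Vale.Agent.P335

variable {α β : Type*} [Fintype α] [Fintype β] {r : α → ℕ} {c : β → ℕ}

/-- The column sums over the rows `i`, `k`. -/
def psum (i k : α) (A : Margins r c) (x : β) : ℕ := (A.1 i x).toNat + (A.1 k x).toNat

theorem psum_fib {i k : α} (hik : i ≠ k) {A B : Margins r c}
    (h : offS {i, k} B = offS {i, k} A) : psum i k B = psum i k A := by
  funext x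
  have h1 := sum_toNat_col A x
  have h2 := sum_toNat_col B x
  rw [← sum_add_sum_compl ({i, k} : Finset α), sum_pair hik] at h1 h2
  have h3 : ∑ l ∈ ({i, k} : Finset α)ᶜ, (B.1 l x).toNat =
      ∑ l ∈ ({i, k} : Finset α)ᶜ, (A.1 l x).toNat :=
    sum_congr rfl fun l hl => by rw [offS_eq_iff.1 h l (mem_compl.1 hl)]
  simp only [psum]
  omega

/-- The column permutations preserving the column sums over the rows `i`, `k`. -/
noncomputable def stab (i k : α) (A : Margins r c) : Finset (Equiv.Perm β) :=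
  univ.filter fun σ => ∀ x, psum i k A (σ x) = psum i k A x

theorem mem_stab {i k : α} {A : Margins r c} {σ : Equiv.Perm β} :
    σ ∈ stab i k A ↔ ∀ x, psum i k A (σ x) = psum i k A x := by simp [stab]

theorem stab_fib {i k : α} (hik : i ≠ k) {A B : Margins r c}
    (h : offS {i, k} B = offS {i, k} A) : stab i k B = stab i k A := by
  simp only [stab, psum_fib hik h]

/-- Permute the entries of rows `i`, `k`. -/
noncomputable def pm (i k : α) (σ : Equiv.Perm β) (A : α → β → Bool) : α → β → Bool :=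
  fun l z => if l = i ∨ l = k then A l (σ z) else A l z

theorem pm_margins {i k : α} (hik : i ≠ k) {A : Margins r c} {σ : Equiv.Perm β}
    (hσ : σ ∈ stab i k A) :
    (∀ l, #(univ.filter fun z => pm i k σ A.1 l z = true) = r l) ∧
      ∀ z, #(univ.filter fun l => pm i k σ A.1 l z = true) = c z := by
  refine ⟨fun l => ?_, fun z => ?_⟩
  · by_cases hl : l = i ∨ l = k
    · simp only [pm, hl, if_true]
      exact (card_comp_perm σ (A.1 l)).trans (A.2.1 l)
    · simp only [pm, hl, if_false]
      exact A.2.1 l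
  · have h := mem_stab.1 hσ z
    simp only [psum] at h
    rw [← A.2.2 z, card_rows_pair _ hik, card_rows_pair (fun l => A.1 l z) hik]
    have e : ((univ.filter fun l => l ≠ i ∧ l ≠ k).filter fun l => pm i k σ A.1 l z = true) =
        (univ.filter fun l => l ≠ i ∧ l ≠ k).filter fun l => A.1 l z = true := by
      refine filter_congr fun l hl => ?_
      obtain ⟨-, h1, h2⟩ := mem_filter.1 hl
      simp [pm, h1, h2]
    rw [e]
    simp only [pm, true_or, or_true, if_true]
    omega

/-- The permutation as a map of matrices with given margins. -/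
noncomputable def pperm (i k : α) (σ : Equiv.Perm β) (A : Margins r c) : Margins r c :=
  if h : i ≠ k ∧ σ ∈ stab i k A then ⟨pm i k σ A.1, pm_margins h.1 h.2⟩ else A

theorem pperm_val {i k : α} (hik : i ≠ k) {σ : Equiv.Perm β} {A : Margins r c}
    (hσ : σ ∈ stab i k A) : (pperm i k σ A).1 = pm i k σ A.1 := by
  have h : pperm i k σ A = ⟨pm i k σ A.1, pm_margins hik hσ⟩ := dif_pos ⟨hik, hσ⟩
  rw [h]

theorem offS_pperm (i k : α) (σ : Equiv.Perm β) (A : Margins r c) :
    offS {i, k} (pperm i k σ A) = offS {i, k} A := by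
  by_cases h : i ≠ k ∧ σ ∈ stab i k A
  · refine offS_eq_iff.2 fun l hl => ?_
    simp only [mem_insert, mem_singleton, not_or] at hl
    rw [pperm_val h.1 h.2]
    funext z
    simp [pm, hl.1, hl.2]
  · have h' : pperm i k σ A = A := dif_neg h
    rw [h']

theorem stab_mul {i k : α} {A : Margins r c} {σ τ : Equiv.Perm β}
    (hσ : σ ∈ stab i k A) (hτ : τ ∈ stab i k A) : σ * τ ∈ stab i k A :=
  mem_stab.2 fun x => (mem_stab.1 hσ (τ x)).trans (mem_stab.1 hτ x)

theorem stab_inv {i k : α} {A : Margins r c} {σ : Equiv.Perm β} (hσ : σ ∈ stab i k A) :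
    σ⁻¹ ∈ stab i k A :=
  mem_stab.2 fun x => by
    have := mem_stab.1 hσ (σ⁻¹ x)
    rw [show σ (σ⁻¹ x) = x by simp] at this
    exact this.symm

theorem pperm_pperm {i k : α} (hik : i ≠ k) {σ τ : Equiv.Perm β} {A : Margins r c}
    (hσ : σ ∈ stab i k A) (hτ : τ ∈ stab i k A) :
    pperm i k σ (pperm i k τ A) = pperm i k (τ * σ) A := by
  refine Subtype.ext ?_
  rw [pperm_val hik (by rwa [stab_fib hik (offS_pperm i k τ A)]), pperm_val hik hτ,
    pperm_val hik (stab_mul hτ hσ)]
  funext l z
  simp only [pm]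
  split_ifs <;> simp

theorem pperm_one {i k : α} (hik : i ≠ k) (A : Margins r c) : pperm i k 1 A = A := by
  refine Subtype.ext ?_
  rw [pperm_val hik (mem_stab.2 fun _ => rfl)]
  funext l z
  simp [pm]

theorem pperm_sum {i k : α} (hik : i ≠ k) {A₀ : Margins r c} {σ : Equiv.Perm β}
    (hσ : σ ∈ stab i k A₀) (F : Margins r c → ℝ) :
    ∑ A ∈ fib (offS {i, k}) A₀, F (pperm i k σ A) = ∑ A ∈ fib (offS {i, k}) A₀, F A := by
  have hm : ∀ τ, ∀ A ∈ fib (offS {i, k}) A₀, pperm i k τ A ∈ fib (offS {i, k}) A₀ := by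
    intro τ A hA
    simp only [fib, mem_filter, mem_univ, true_and] at hA ⊢
    rw [offS_pperm, hA]
  refine sum_nbij' (pperm i k σ) (pperm i k σ⁻¹) (hm σ) (hm σ⁻¹) ?_ ?_ fun _ _ => rfl
  · intro A hA
    have hs : stab i k A = stab i k A₀ :=
      stab_fib hik (by simpa [fib] using hA)
    rw [pperm_pperm hik (hs ▸ stab_inv hσ) (hs ▸ hσ), mul_inv_cancel, pperm_one hik]
  · intro A hA
    have hs : stab i k A = stab i k A₀ :=
      stab_fib hik (by simpa [fib] using hA)
    rw [pperm_pperm hik (hs ▸ hσ) (hs ▸ stab_inv hσ), inv_mul_cancel, pperm_one hik]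

theorem pswap_eq_pperm {i k : α} (hik : i ≠ k) {x y : β} {A : Margins r c}
    (h : psum i k A x = psum i k A y) : pswap i k x y A = pperm i k (Equiv.swap x y) A := by
  have hs : Equiv.swap x y ∈ stab i k A := mem_stab.2 fun z => by
    rcases eq_or_ne z x with rfl | hzx
    · rw [Equiv.swap_apply_left, h]
    rcases eq_or_ne z y with rfl | hzy
    · rw [Equiv.swap_apply_right, h]
    · rw [Equiv.swap_apply_of_ne_of_ne hzx hzy]
  refine Subtype.ext ?_
  rw [pperm_val hik hs, pswap_val x y A hik]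
  unfold pairSwap pm
  rw [if_pos (by simpa [psum] using h)]

/-- A permutation costs at most the square of its support times the exchanges. -/
theorem perm_le {i k : α} (hik : i ≠ k) (A₀ : Margins r c) (f : Margins r c → ℝ) :
    ∀ (m : ℕ) (σ : Equiv.Perm β), σ ∈ stab i k A₀ → #(univ.filter fun x => σ x ≠ x) ≤ m →
      ∑ A ∈ fib (offS {i, k}) A₀, (f (pperm i k σ A) - f A) ^ 2 ≤ (m : ℝ) ^ 2 *
        ∑ x, ∑ y, ∑ A ∈ fib (offS {i, k}) A₀, (f (pswap i k x y A) - f A) ^ 2 := by
  set Φ := fib (offS {i, k}) A₀ with hΦ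
  set M := ∑ x, ∑ y, ∑ A ∈ Φ, (f (pswap i k x y A) - f A) ^ 2 with hM
  intro m
  induction m with
  | zero =>
    intro σ _ hs
    have h1 : σ = 1 := Equiv.ext fun x => by
      by_contra hx
      have : 0 < #(univ.filter fun x => σ x ≠ x) := card_pos.2 ⟨x, by simpa using hx⟩
      omega
    subst h1
    simp [pperm_one hik]
  | succ m ih =>
    intro σ hσ hs
    by_cases h1 : ∀ x, σ x = x
    · have : σ = 1 := Equiv.ext h1
      subst this
      have hM0 : 0 ≤ M := sum_nonneg fun _ _ => sum_nonneg fun _ _ => sum_nonneg fun _ _ => sq_nonneg _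
      simp only [pperm_one hik, sub_self, ne_eq, OfNat.ofNat_ne_zero, not_false_eq_true, zero_pow,
        sum_const_zero]
      positivity
    obtain ⟨x, hx⟩ := not_forall.1 h1
    set y := σ x with hy
    have hxy : psum i k A₀ x = psum i k A₀ y := (mem_stab.1 hσ x).symm
    set s := Equiv.swap x y with hsw
    have hsS : s ∈ stab i k A₀ := mem_stab.2 fun z => by
      rcases eq_or_ne z x with rfl | hzx
      · rw [hsw, Equiv.swap_apply_left, hxy]
      rcases eq_or_ne z y with hzy | hzy
      · rw [hzy, hsw, Equiv.swap_apply_right, hxy]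
      · rw [hsw, Equiv.swap_apply_of_ne_of_ne hzx hzy]
    set τ := s * σ with hτ
    have hτS : τ ∈ stab i k A₀ := stab_mul hsS hσ
    have hτx : τ x = x := by simp [hτ, hsw, hy]
    have hsub : (univ.filter fun z => τ z ≠ z) ⊆ (univ.filter fun z => σ z ≠ z).erase x := by
      intro z hz
      simp only [mem_filter, mem_univ, true_and] at hz
      refine mem_erase.2 ⟨fun e => hz (e ▸ hτx), mem_filter.2 ⟨mem_univ _, fun hσz => hz ?_⟩⟩
      have hzx : z ≠ x := fun e => hx (hy.trans ((congrArg σ e.symm).trans (hσz.trans e)))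
      have hzy : z ≠ y := fun e => hzx (σ.injective (hσz.trans (e.trans hy)))
      simp [hτ, hsw, hσz, Equiv.swap_apply_of_ne_of_ne hzx hzy]
    have hcard : #(univ.filter fun z => τ z ≠ z) ≤ m := by
      refine (card_le_card hsub).trans ?_
      rw [card_erase_of_mem (show x ∈ univ.filter fun z => σ z ≠ z by simpa [← hy] using hx)]
      omega
    have hT := ih τ hτS hcard
    have hσeq : σ = s * τ := by rw [hτ, ← mul_assoc, hsw, Equiv.swap_mul_self, one_mul]
    have hS : ∑ A ∈ Φ, (f (pperm i k s A) - f A) ^ 2 ≤ M := by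
      have e : ∀ A ∈ Φ, (f (pperm i k s A) - f A) ^ 2 = (f (pswap i k x y A) - f A) ^ 2 :=
        fun A hA => by
          rw [pswap_eq_pperm hik]
          rw [psum_fib hik (by simpa [hΦ, fib] using hA : offS {i, k} A = offS {i, k} A₀), hxy]
      rw [sum_congr rfl e, hM]
      refine le_trans ?_ (single_le_sum (fun a _ => sum_nonneg fun b _ => sum_nonneg fun _ _ =>
        sq_nonneg _) (mem_univ x))
      exact single_le_sum (f := fun b => ∑ A ∈ Φ, (f (pswap i k x b A) - f A) ^ 2)
        (fun b _ => sum_nonneg fun _ _ => sq_nonneg _) (mem_univ y)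
    rcases Nat.eq_zero_or_pos m with rfl | hm
    · exfalso
      have h2 : σ y ≠ y := fun e => hx (σ.injective e)
      have h3 : 1 < #(univ.filter fun z => σ z ≠ z) :=
        one_lt_card.2 ⟨x, by simpa using hx, y, by simpa using h2, Ne.symm hx⟩
      omega
    have hm' : (0 : ℝ) < m := by exact_mod_cast hm
    have key : ∀ A ∈ Φ, (f (pperm i k σ A) - f A) ^ 2 ≤
        (m + 1 : ℝ) / m * (f (pperm i k τ (pperm i k s A)) - f (pperm i k s A)) ^ 2 +
          (m + 1 : ℝ) * (f (pperm i k s A) - f A) ^ 2 := by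
      intro A hA
      have hs' : stab i k A = stab i k A₀ := stab_fib hik (by simpa [hΦ, fib] using hA)
      rw [pperm_pperm hik (hs' ▸ hτS) (hs' ▸ hsS), ← hσeq, div_mul_eq_mul_div, div_add' _ _ _ hm'.ne',
        le_div_iff₀ hm']
      nlinarith [sq_nonneg (f (pperm i k σ A) - f (pperm i k s A) -
        (m : ℝ) * (f (pperm i k s A) - f A))]
    calc _ ≤ _ := sum_le_sum key
      _ = (m + 1 : ℝ) / m * ∑ A ∈ Φ, (f (pperm i k τ A) - f A) ^ 2 +
          (m + 1 : ℝ) * ∑ A ∈ Φ, (f (pperm i k s A) - f A) ^ 2 := by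
        rw [sum_add_distrib, ← mul_sum, ← mul_sum,
          pperm_sum hik hsS fun A => (f (pperm i k τ A) - f A) ^ 2]
      _ ≤ (m + 1 : ℝ) / m * ((m : ℝ) ^ 2 * M) + (m + 1 : ℝ) * M := by
        gcongr
      _ = _ := by
        push_cast
        field_simp

theorem exists_perm_eq {i k : α} (hik : i ≠ k) {A B : Margins r c}
    (h : offS {i, k} B = offS {i, k} A) :
    ∃ σ ∈ stab i k A, pperm i k σ A = B := by
  let q : Margins r c → Bool × Bool → ℕ := fun U t =>
    #(univ.filter fun x => (U.1 i x, U.1 k x) = t)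
  have hfacts : ∀ U : Margins r c,
      q U (true, true) = #(univ.filter fun x => psum i k U x = 2) ∧
      q U (false, false) = #(univ.filter fun x => psum i k U x = 0) ∧
      r i = q U (true, true) + q U (true, false) ∧
      r k = q U (true, true) + q U (false, true) := by
    intro U
    refine ⟨?_, ?_, ?_, ?_⟩ <;> simp only [q]
    · exact congrArg card <| filter_congr fun x _ => by
        simp only [psum]; cases U.1 i x <;> cases U.1 k x <;> simp
    · exact congrArg card <| filter_congr fun x _ => by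
        simp only [psum]; cases U.1 i x <;> cases U.1 k x <;> simp
    · rw [← U.2.1 i, card_filter, card_filter, card_filter, ← sum_add_distrib]
      exact sum_congr rfl fun x _ => by cases U.1 i x <;> cases U.1 k x <;> simp
    · rw [← U.2.1 k, card_filter, card_filter, card_filter, ← sum_add_distrib]
      exact sum_congr rfl fun x _ => by cases U.1 i x <;> cases U.1 k x <;> simp
  have hps := psum_fib hik h
  have hcard : ∀ t, Fintype.card {x // (B.1 i x, B.1 k x) = t} =
      Fintype.card {x // (A.1 i x, A.1 k x) = t} := by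
    intro t
    obtain ⟨a1, a2, a3, a4⟩ := hfacts A
    obtain ⟨b1, b2, b3, b4⟩ := hfacts B
    rw [hps] at b1 b2
    rw [Fintype.card_subtype, Fintype.card_subtype]
    change q B t = q A t
    obtain ⟨u, v⟩ := t
    cases u <;> cases v <;> omega
  let σ : Equiv.Perm β := Equiv.ofFiberEquiv fun t => Fintype.equivOfCardEq (hcard t)
  have hσ : ∀ z, (A.1 i (σ z), A.1 k (σ z)) = (B.1 i z, B.1 k z) :=
    fun z => by simp only [σ]; exact Equiv.ofFiberEquiv_map (g := fun x => (A.1 i x, A.1 k x)) _ z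
  have hmem : σ ∈ stab i k A := mem_stab.2 fun z => by
    have := hσ z
    simp only [Prod.mk.injEq] at this
    rw [← congrFun hps z]
    simp [psum, this.1, this.2]
  refine ⟨σ, hmem, Subtype.ext ?_⟩
  rw [pperm_val hik hmem]
  funext l z
  have := hσ z
  simp only [Prod.mk.injEq] at this
  simp only [pm]
  split_ifs with hl
  · rcases hl with rfl | rfl
    exacts [this.1, this.2]
  · simp only [not_or] at hl
    exact (congrFun (offS_eq_iff.1 h l (by simp [hl.1, hl.2])) z).symm

/-- The average over the permutations is the average over the fibre. -/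
theorem avg_stab {i k : α} (hik : i ≠ k) {A₀ A : Margins r c}
    (hA : A ∈ fib (offS {i, k}) A₀) (F : Margins r c → ℝ) :
    ∑ σ ∈ stab i k A₀, F (pperm i k σ A) =
      #(stab i k A₀) * cavg (offS {i, k}) F A₀ := by
  set Φ := fib (offS {i, k}) A₀ with hΦ
  have hind : ∀ B ∈ Φ, ∑ σ ∈ stab i k A₀, F (pperm i k σ B) =
      ∑ σ ∈ stab i k A₀, F (pperm i k σ A₀) := by
    intro B hB
    obtain ⟨τ, hτ, rfl⟩ := exists_perm_eq hik (by simpa [hΦ, fib] using hB :
      offS {i, k} B = offS {i, k} A₀)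
    refine sum_nbij' (fun σ => τ * σ) (fun σ => τ⁻¹ * σ) (fun σ hσ => stab_mul hτ hσ)
      (fun σ hσ => stab_mul (stab_inv hτ) hσ) (fun σ _ => by simp) (fun σ _ => by simp)
      fun σ hσ => ?_
    rw [pperm_pperm hik hσ hτ]
  have h1 : (#Φ : ℝ) * ∑ σ ∈ stab i k A₀, F (pperm i k σ A₀) =
      #(stab i k A₀) * ∑ B ∈ Φ, F B := by
    rw [← nsmul_eq_mul, ← sum_const, ← sum_congr rfl hind, sum_comm,
      sum_congr rfl fun σ hσ => pperm_sum hik hσ F, sum_const, nsmul_eq_mul]
  rw [hind A hA, cavg]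
  have hpos : (0 : ℝ) < #Φ := by exact_mod_cast card_fib_pos _ A₀
  rw [← hΦ, mul_div_assoc', eq_div_iff hpos.ne', mul_comm]
  exact h1

theorem cvar_pair_le {i k : α} (hik : i ≠ k) (f : Margins r c → ℝ) :
    cvar (offS {i, k}) f ≤ (Fintype.card β : ℝ) ^ 2 *
      ∑ x, ∑ y, ∑ A, (f (pswap i k x y A) - f A) ^ 2 := by
  set g : Margins r c → _ := offS {i, k} with hg
  rw [cvar_eq_dev, sum_fib g fun A => dev g f A ^ 2]
  calc ∑ A₀, (∑ A ∈ fib g A₀, dev g f A ^ 2) / #(fib g A₀)
      ≤ ∑ A₀, ((Fintype.card β : ℝ) ^ 2 *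
          ∑ x, ∑ y, ∑ A ∈ fib g A₀, (f (pswap i k x y A) - f A) ^ 2) / #(fib g A₀) := by
        refine sum_le_sum fun A₀ _ => div_le_div_of_nonneg_right ?_ (Nat.cast_nonneg _)
        set H := stab i k A₀
        have hH : (0 : ℝ) < #H := by
          exact_mod_cast card_pos.2 ⟨1, mem_stab.2 fun _ => rfl⟩
        have h1 : ∀ A ∈ fib g A₀, (#H : ℝ) * dev g f A ^ 2 ≤
            ∑ σ ∈ H, (f (pperm i k σ A) - f A) ^ 2 := by
          intro A hA
          have h2 : ∑ σ ∈ H, (f (pperm i k σ A) - f A) = -(#H : ℝ) * dev g f A := by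
            rw [sum_sub_distrib, avg_stab hik hA, sum_const, nsmul_eq_mul, dev_apply,
              cavg_congr g f (by simpa [fib] using hA : g A = g A₀)]
            ring
          have h3 := sq_sum_le_card_mul_sum_sq (s := H)
            (f := fun σ => f (pperm i k σ A) - f A)
          rw [h2] at h3
          refine le_of_mul_le_mul_left ?_ hH
          calc _ = (-(#H : ℝ) * dev g f A) ^ 2 := by ring
            _ ≤ _ := h3
        have h4 := sum_le_sum h1
        rw [← mul_sum, sum_comm] at h4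
        have h5 := sum_le_sum fun σ hσ => perm_le hik A₀ f (Fintype.card β) σ hσ (card_le_univ _)
        rw [sum_const, nsmul_eq_mul] at h5
        exact le_of_mul_le_mul_left (h4.trans h5) hH
    _ = _ := by
        simp only [mul_div_assoc, ← mul_sum, sum_div]
        congr 1
        rw [sum_comm]
        refine sum_congr rfl fun x _ => ?_
        rw [sum_comm]
        refine sum_congr rfl fun y _ => ?_
        rw [sum_fib g fun A => (f (pswap i k x y A) - f A) ^ 2]
        simp only [sum_div]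

/-- All exchanges control the variance. -/
theorem margins_compare
    (h3 : ∀ (r' : Fin 3 → ℕ) (c' : β → ℕ) (f : Margins r' c' → ℝ),
      tvar f ≤ ∑ l : Fin 3, cvar (fun A : Margins r' c' => A.1 l) f)
    (f : Margins r c → ℝ) :
    tvar f ≤ (Fintype.card β : ℝ) ^ 2 *
      ∑ i, ∑ k, ∑ x, ∑ y, ∑ A, (f (pswap i k x y A) - f A) ^ 2 := by
  refine (tvar_le_pairs h3 f).trans ?_
  set D : α × α → ℝ := fun ik => ∑ x, ∑ y, ∑ A, (f (pswap ik.1 ik.2 x y A) - f A) ^ 2
  have hD : ∀ ik, 0 ≤ D ik :=
    fun ik => sum_nonneg fun _ _ => sum_nonneg fun _ _ => sum_nonneg fun _ _ => sq_nonneg _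
  have hmap : ∀ ik ∈ (univ : Finset α).offDiag,
      ({ik.1, ik.2} : Finset α) ∈ (univ : Finset α).powersetCard 2 := fun ik hik =>
    mem_powersetCard.2 ⟨subset_univ _, card_pair (mem_offDiag.1 hik).2.2⟩
  calc ∑ p ∈ (univ : Finset α).powersetCard 2, cvar (offS p) f
      ≤ ∑ p ∈ (univ : Finset α).powersetCard 2,
          ∑ ik ∈ (univ : Finset α).offDiag.filter (fun ik => ({ik.1, ik.2} : Finset α) = p),
            (Fintype.card β : ℝ) ^ 2 * D ik := by
        refine sum_le_sum fun p hp => ?_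
        obtain ⟨i, k, hik, rfl⟩ := card_eq_two.1 (mem_powersetCard.1 hp).2
        refine (cvar_pair_le hik f).trans ?_
        exact single_le_sum (f := fun ik : α × α => (Fintype.card β : ℝ) ^ 2 * D ik)
          (fun ik _ => mul_nonneg (sq_nonneg _) (hD ik))
          (a := (i, k)) (mem_filter.2 ⟨mem_offDiag.2 ⟨mem_univ _, mem_univ _, hik⟩, rfl⟩)
    _ = ∑ ik ∈ (univ : Finset α).offDiag, (Fintype.card β : ℝ) ^ 2 * D ik :=
        sum_fiberwise_of_maps_to hmap _
    _ ≤ ∑ ik : α × α, (Fintype.card β : ℝ) ^ 2 * D ik :=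
        sum_le_sum_of_subset_of_nonneg (subset_univ _) fun ik _ _ =>
          mul_nonneg (sq_nonneg _) (hD ik)
    _ = _ := by rw [← mul_sum, Fintype.sum_prod_type]

end Vale.Agent.P335
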