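import Vale.Agent.P335.MatDefs

/-!
# P335: conditional averages on a finite space
-/

open Finset
open scoped Classical

namespace Vale.Agent.P335

variable {Ω K : Type*} [Fintype Ω]

theorem self_mem_fib (g : Ω → K) (ω : Ω) : ω ∈ fib g ω := by simp [fib]

theorem card_fib_pos (g : Ω → K) (ω : Ω) : 0 < #(fib g ω) := card_pos.2 ⟨ω, self_mem_fib g ω⟩

theorem fib_congr (g : Ω → K) {ω ω' : Ω} (h : g ω' = g ω) : fib g ω' = fib g ω := by
  simp [fib, h]

theorem cavg_congr (g : Ω → K) (f : Ω → ℝ) {ω ω' : Ω} (h : g ω' = g ω) :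
    cavg g f ω' = cavg g f ω := by
  simp [cavg, fib_congr g h]

theorem cavg_of_const (g : Ω → K) {f : Ω → ℝ} (h : ∀ ω ω', g ω' = g ω → f ω' = f ω) :
    cavg g f = f := by
  funext ω
  have hc : ∀ x ∈ fib g ω, f x = f ω := fun x hx => h ω x (by simpa [fib] using hx)
  rw [cavg, sum_congr rfl hc, sum_const, nsmul_eq_mul, mul_div_assoc, ← mul_div_assoc,
    mul_div_cancel_left₀]
  exact_mod_cast (card_fib_pos g ω).ne'

theorem cavg_idem (g : Ω → K) (f : Ω → ℝ) : cavg g (cavg g f) = cavg g f :=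
  cavg_of_const g fun _ _ h => cavg_congr g f h

theorem cavg_sub (g : Ω → K) (f h : Ω → ℝ) : cavg g (f - h) = cavg g f - cavg g h := by
  funext ω; simp [cavg, sum_sub_distrib, sub_div]

/-- Deviation from the conditional average. -/
noncomputable def dev (g : Ω → K) (f : Ω → ℝ) : Ω → ℝ := f - cavg g f

theorem dev_apply (g : Ω → K) (f : Ω → ℝ) (ω : Ω) : dev g f ω = f ω - cavg g f ω := rfl

theorem cvar_eq_dev (g : Ω → K) (f : Ω → ℝ) : cvar g f = ∑ ω, dev g f ω ^ 2 := rfl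

theorem dev_idem (g : Ω → K) (f : Ω → ℝ) : dev g (dev g f) = dev g f := by
  simp [dev, cavg_sub, cavg_idem]

theorem sum_cavg_mul (g : Ω → K) (f h : Ω → ℝ) :
    ∑ ω, cavg g f ω * h ω = ∑ ω, f ω * cavg g h ω := by
  have e : ∀ (f h : Ω → ℝ) ω, cavg g f ω * h ω =
      ∑ x, if g x = g ω then f x * h ω / #(fib g ω) else 0 := fun f h ω => by
    rw [← sum_filter, cavg, div_mul_eq_mul_div, sum_mul, sum_div]; rfl
  simp only [e, mul_comm (f _) (cavg g h _)]
  rw [sum_comm]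
  refine sum_congr rfl fun x _ => sum_congr rfl fun ω _ => ?_
  by_cases hx : g ω = g x
  · rw [if_pos hx, if_pos hx.symm, fib_congr g hx]; ring
  · rw [if_neg hx, if_neg (Ne.symm hx)]

theorem sum_dev_mul (g : Ω → K) (f h : Ω → ℝ) :
    ∑ ω, dev g f ω * h ω = ∑ ω, f ω * dev g h ω := by
  simp only [dev_apply, sub_mul, mul_sub, sum_sub_distrib, sum_cavg_mul]

theorem cvar_eq_mul (g : Ω → K) (f : Ω → ℝ) : cvar g f = ∑ ω, f ω * dev g f ω := by
  rw [cvar_eq_dev]
  simp only [pow_two]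
  rw [sum_dev_mul, dev_idem]

theorem sum_dev_mul_dev (g : Ω → K) (f h : Ω → ℝ) :
    ∑ ω, dev g f ω * dev g h ω = ∑ ω, f ω * dev g h ω := by
  rw [sum_dev_mul, dev_idem]

/-- If the averages commute, the deviations have nonnegative correlation. -/
theorem sum_dev_mul_dev_nonneg {K' : Type*} (g : Ω → K) (g' : Ω → K') (f : Ω → ℝ)
    (hc : ∀ h, cavg g (cavg g' h) = cavg g' (cavg g h)) :
    0 ≤ ∑ ω, dev g f ω * dev g' f ω := by
  have hd : ∀ h, dev g (dev g' h) = dev g' (dev g h) := fun h => by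
    simp only [dev, cavg_sub, hc]; abel
  have e : ∑ ω, dev g f ω * dev g' f ω = ∑ ω, dev g' (dev g f) ω ^ 2 := by
    simp only [pow_two]
    rw [sum_dev_mul g' (dev g f) (dev g' (dev g f)), dev_idem, ← hd,
      sum_dev_mul_dev g f (dev g' f), ← sum_dev_mul g f (dev g' f)]
  rw [e]
  exact sum_nonneg fun _ _ => sq_nonneg _

/-- Variance inside each fibre of a key, in terms of the fibre. -/
theorem cvar_of_equiv {Ω' K' L : Type*} [Fintype Ω'] (G : Ω → L) (ω₀ : Ω) (ψ : Ω' → Ω)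
    (hψ : Function.Injective ψ) (hrange : ∀ ω, G ω = G ω₀ ↔ ∃ a, ψ a = ω)
    (g : Ω → K) (g' : Ω' → K') (hfine : ∀ ω ω', g ω' = g ω → G ω' = G ω)
    (hkey : ∀ a b, g (ψ a) = g (ψ b) ↔ g' a = g' b) (f : Ω → ℝ) :
    ∑ ω ∈ fib G ω₀, dev g f ω ^ 2 = cvar g' (f ∘ ψ) := by
  have hf : fib G ω₀ = univ.image ψ := by ext ω; simp [fib, hrange]
  rw [hf, sum_image hψ.injOn, cvar_eq_dev]
  refine sum_congr rfl fun a _ => ?_
  have hfa : fib g (ψ a) = (fib g' a).image ψ := by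
    ext ω
    simp only [fib, mem_filter, mem_univ, true_and, mem_image]
    constructor
    · intro h
      obtain ⟨b, rfl⟩ := (hrange ω).1
        ((hfine _ _ h).trans ((hrange (ψ a)).2 ⟨a, rfl⟩))
      exact ⟨b, (hkey b a).1 h, rfl⟩
    · rintro ⟨b, hb, rfl⟩
      exact (hkey b a).2 hb
  simp only [dev_apply, cavg, hfa, sum_image hψ.injOn, card_image_of_injective _ hψ,
    Function.comp_apply]

/-- A sum over the space is the sum over fibres. -/
theorem sum_fib (G : Ω → K) (u : Ω → ℝ) :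
    ∑ ω, u ω = ∑ ω, (∑ x ∈ fib G ω, u x) / #(fib G ω) := by
  have h := sum_cavg_mul G (fun _ => (1 : ℝ)) u
  rw [cavg_of_const G (f := fun _ => (1 : ℝ)) (fun _ _ _ => rfl)] at h
  simpa [cavg] using h

end Vale.Agent.P335
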