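import Mathlib

/-! Averages over subsets of two neighbouring sizes stay within the pairwise distance. -/

open Finset

namespace Vale.Agent.P335

variable {γ : Type*} [DecidableEq γ]

/-- Double counting of pairs (set, element of it). -/
lemma sum_erase_pairs {β : Type*} [AddCommMonoid β] (U : Finset γ) (m : ℕ)
    (h : Finset γ → γ → β) :
    ∑ J ∈ U.powersetCard (m + 1), ∑ z ∈ J, h (J.erase z) z =
      ∑ K ∈ U.powersetCard m, ∑ z ∈ U \ K, h K z := by
  rw [sum_sigma', sum_sigma']
  refine sum_nbij' (fun p => ⟨p.1.erase p.2, p.2⟩) (fun p => ⟨insert p.2 p.1, p.2⟩) ?_ ?_ ?_ ?_ ?_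
  · rintro ⟨J, z⟩ hp
    simp only [mem_sigma, mem_powersetCard, mem_sdiff] at hp ⊢
    obtain ⟨⟨hJ, hc⟩, hz⟩ := hp
    refine ⟨⟨(erase_subset _ _).trans hJ, ?_⟩, hJ hz, notMem_erase _ _⟩
    rw [card_erase_of_mem hz, hc]
    omega
  · rintro ⟨K, z⟩ hp
    simp only [mem_sigma, mem_powersetCard, mem_sdiff] at hp ⊢
    obtain ⟨⟨hK, hc⟩, hz, hzK⟩ := hp
    exact ⟨⟨insert_subset hz hK, by rw [card_insert_of_notMem hzK, hc]⟩, mem_insert_self _ _⟩
  · rintro ⟨J, z⟩ hp
    simp only [mem_sigma] at hp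
    simp [insert_erase hp.2]
  · rintro ⟨K, z⟩ hp
    simp only [mem_sigma, mem_sdiff] at hp
    simp [erase_insert hp.2.2]
  · intro p _; rfl

/-- Removing one element: the sum at size `m + 1` follows the one at size `m`. -/
lemma abs_sum_down {U : Finset γ} {m : ℕ} {G G' : Finset γ → ℝ} {α : ℝ}
    (h : ∀ J ∈ U.powersetCard (m + 1), ∀ z ∈ J, |G J - G' (J.erase z)| ≤ α) :
    |((m : ℝ) + 1) * ∑ J ∈ U.powersetCard (m + 1), G J
        - ((U.card : ℝ) - m) * ∑ K ∈ U.powersetCard m, G' K| ≤
      α * (((U.card : ℝ) - m) * (U.powersetCard m).card) := by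
  have hpair := sum_erase_pairs U m (fun K _ => G' K)
  have hone := sum_erase_pairs U m (fun _ _ => (1 : ℝ))
  have hK : ∀ (c : Finset γ → ℝ), ∑ K ∈ U.powersetCard m, ∑ _z ∈ U \ K, c K =
      ((U.card : ℝ) - m) * ∑ K ∈ U.powersetCard m, c K := fun c => by
    rw [mul_sum]
    refine sum_congr rfl fun K hK => ?_
    rw [mem_powersetCard] at hK
    rw [sum_const, nsmul_eq_mul, card_sdiff_of_subset hK.1, Nat.cast_sub (card_le_card hK.1), hK.2]
  have hJ : ((m : ℝ) + 1) * ∑ J ∈ U.powersetCard (m + 1), G J =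
      ∑ J ∈ U.powersetCard (m + 1), ∑ _z ∈ J, G J := by
    rw [mul_sum]
    refine sum_congr rfl fun J hJ => ?_
    rw [sum_const, nsmul_eq_mul, (mem_powersetCard.1 hJ).2]
    push_cast; ring
  rw [hK, sum_const, nsmul_one] at hone
  rw [hK] at hpair
  rw [hJ, ← hpair, ← sum_sub_distrib]
  simp only [← sum_sub_distrib]
  refine (abs_sum_le_sum_abs _ _).trans ?_
  refine (sum_le_sum (g := fun J => ∑ _z ∈ J, α * 1) fun J hJ =>
    (abs_sum_le_sum_abs _ _).trans (sum_le_sum fun z hz => by simpa using h J hJ z hz)).trans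
    (le_of_eq ?_)
  simp only [← mul_sum]
  rw [hone]

/-- Adding one element: the sum at size `m` follows the one at size `m + 1`. -/
lemma abs_sum_up {U : Finset γ} {m : ℕ} {G G' : Finset γ → ℝ} {α : ℝ}
    (h : ∀ K ∈ U.powersetCard m, ∀ z ∈ U \ K, |G K - G' (insert z K)| ≤ α) :
    |((U.card : ℝ) - m) * ∑ K ∈ U.powersetCard m, G K
        - ((m : ℝ) + 1) * ∑ J ∈ U.powersetCard (m + 1), G' J| ≤
      α * (((m : ℝ) + 1) * (U.powersetCard (m + 1)).card) := by
  have hpair := sum_erase_pairs U m (fun K z => G' (insert z K))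
  have hone := sum_erase_pairs U m (fun _ _ => (1 : ℝ))
  have hK : ∀ (c : Finset γ → ℝ), ((U.card : ℝ) - m) * ∑ K ∈ U.powersetCard m, c K =
      ∑ K ∈ U.powersetCard m, ∑ _z ∈ U \ K, c K := fun c => by
    rw [mul_sum]
    refine sum_congr rfl fun K hK => ?_
    rw [mem_powersetCard] at hK
    rw [sum_const, nsmul_eq_mul, card_sdiff_of_subset hK.1, Nat.cast_sub (card_le_card hK.1), hK.2]
  have hJ : ∀ (c : Finset γ → ℝ), ((m : ℝ) + 1) * ∑ J ∈ U.powersetCard (m + 1), c J =
      ∑ J ∈ U.powersetCard (m + 1), ∑ _z ∈ J, c J := fun c => by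
    rw [mul_sum]
    refine sum_congr rfl fun J hJ => ?_
    rw [sum_const, nsmul_eq_mul, (mem_powersetCard.1 hJ).2]
    push_cast; ring
  have e : ∑ J ∈ U.powersetCard (m + 1), ∑ _z ∈ J, G' J =
      ∑ K ∈ U.powersetCard m, ∑ z ∈ U \ K, G' (insert z K) := by
    rw [← hpair]
    exact sum_congr rfl fun J _ => sum_congr rfl fun z hz => by rw [insert_erase hz]
  rw [hK, hJ, e, ← sum_sub_distrib]
  simp only [← sum_sub_distrib]
  refine (abs_sum_le_sum_abs _ _).trans ?_
  refine (sum_le_sum (g := fun K => ∑ _z ∈ U \ K, α * 1) fun K hK =>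
    (abs_sum_le_sum_abs _ _).trans (sum_le_sum fun z hz => by simpa using h K hK z hz)).trans
    (le_of_eq ?_)
  simp only [← mul_sum]
  rw [← hone, card_eq_sum_ones (U.powersetCard (m + 1)), Nat.cast_sum]
  simp only [Nat.cast_one]
  rw [hJ]

/-- Averages over subsets of size m + 1 of the set U plus x, y and over m-subsets of U. -/
theorem abs_avg_sub_avg_le {U : Finset γ} {x y : γ} {m : ℕ} {G G' : Finset γ → ℝ} {α : ℝ}
    (hxy : x ≠ y) (hx : x ∉ U) (hy : y ∉ U) (hm : m ≤ U.card)
    (hdown : ∀ J ∈ U.powersetCard (m + 1), ∀ z ∈ J, |G J - G' (J.erase z)| ≤ α)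
    (hone : ∀ K ∈ U.powersetCard m,
      |G (insert x K) - G' K| ≤ α ∧ |G (insert y K) - G' K| ≤ α)
    (hup : ∀ K, K ⊆ U → K.card + 1 = m → ∀ z ∈ U \ K,
      |G (insert x (insert y K)) - G' (insert z K)| ≤ α) :
    |(∑ J ∈ (insert x (insert y U)).powersetCard (m + 1), G J) /
        ((insert x (insert y U)).powersetCard (m + 1)).card
      - (∑ K ∈ U.powersetCard m, G' K) / (U.powersetCard m).card| ≤ α := by
  set n := (U.powersetCard m).card with hn
  set T := ∑ K ∈ U.powersetCard m, G' K with hT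
  have hn0 : 0 < (n : ℝ) := by
    rw [hn, card_powersetCard]
    exact_mod_cast Nat.choose_pos hm
  -- the three groups of subsets
  obtain ⟨pA, hA⟩ : ∃ p : ℝ, p = (U.powersetCard (m + 1)).card := ⟨_, rfl⟩
  set A := ∑ J ∈ U.powersetCard (m + 1), G J with hAdef
  set B := (∑ K ∈ U.powersetCard m, G (insert x K)) + ∑ K ∈ U.powersetCard m, G (insert y K)
    with hBdef
  set D := ∑ K ∈ U.powerset.filter (fun K => K.card + 1 = m), G (insert x (insert y K)) with hDdef
  obtain ⟨pD, hD⟩ : ∃ p : ℝ, p = (U.powerset.filter (fun K => K.card + 1 = m)).card := ⟨_, rfl⟩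
  have hins : ∀ {a : γ} {V : Finset γ} (l : ℕ), a ∉ V → ∀ F : Finset γ → ℝ,
      ∑ J ∈ (insert a V).powersetCard (l + 1), F J =
        (∑ J ∈ V.powersetCard (l + 1), F J) + ∑ K ∈ V.powersetCard l, F (insert a K) := by
    intro a V l ha F
    rw [powersetCard_succ_insert ha, sum_union, sum_image]
    · intro K hK L hL hKL
      have hK' : a ∉ K := fun c => ha ((mem_powersetCard.1 hK).1 c)
      have hL' : a ∉ L := fun c => ha ((mem_powersetCard.1 hL).1 c)
      rw [← erase_insert hK', hKL, erase_insert hL']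
    · rw [disjoint_left]
      intro J hJ hJ'
      obtain ⟨K, -, rfl⟩ := mem_image.1 hJ'
      exact ha ((mem_powersetCard.1 hJ).1 (mem_insert_self _ _))
  have hxV : x ∉ insert y U := by simp [hxy, hx]
  have hdec : ∀ F : Finset γ → ℝ, ∑ J ∈ (insert x (insert y U)).powersetCard (m + 1), F J =
      (∑ J ∈ U.powersetCard (m + 1), F J) + ((∑ K ∈ U.powersetCard m, F (insert x K)) +
        ∑ K ∈ U.powersetCard m, F (insert y K)) +
        ∑ K ∈ U.powerset.filter (fun K => K.card + 1 = m), F (insert x (insert y K)) := by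
    intro F
    rw [hins m hxV, hins m hy]
    rcases m with - | l
    · have : U.powerset.filter (fun K => K.card + 1 = 0) = ∅ := by simp
      rw [this, sum_empty, powersetCard_zero, powersetCard_zero]
      simp only [sum_singleton, add_zero]
      ring
    · have : U.powerset.filter (fun K => K.card + 1 = l + 1) = U.powersetCard l := by
        ext K; simp [mem_powersetCard]
      rw [this, hins l hy fun K => F (insert x K)]
      ring
  have hcard : (((insert x (insert y U)).powersetCard (m + 1)).card : ℝ) = pA + 2 * n + pD := by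
    have := hdec fun _ => 1
    simp only [sum_const, nsmul_one] at this
    rw [this, hA, hD, hn]
    ring
  have bA : |(n : ℝ) * A - pA * T| ≤ α * (n * pA) := by
    have h := abs_sum_down (G' := G') hdown
    have h1 := abs_sum_down (U := U) (m := m) (G := fun _ => 1) (G' := fun _ => 1) (α := 0)
      (fun _ _ _ _ => by simp)
    simp only [sum_const, nsmul_one, zero_mul, abs_nonpos_iff, sub_eq_zero] at h1
    rw [← hA, ← hn] at h1
    have hm1 : (0 : ℝ) < m + 1 := by positivity
    have e : ((U.card : ℝ) - m) = ((m : ℝ) + 1) * pA / n := by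
      rw [eq_div_iff hn0.ne']; linarith
    rw [e, ← hn, ← hAdef, ← hT] at h
    have e2 : ((m : ℝ) + 1) * A - ((m : ℝ) + 1) * pA / n * T =
        ((m : ℝ) + 1) / n * (n * A - pA * T) := by field_simp
    rw [e2, abs_mul, abs_of_pos (div_pos hm1 hn0)] at h
    refine le_of_mul_le_mul_left (h.trans_eq ?_) (div_pos hm1 hn0)
    field_simp
  have bB : |B - 2 * T| ≤ α * (2 * n) := by
    have e : B - 2 * T = ∑ K ∈ U.powersetCard m,
        ((G (insert x K) - G' K) + (G (insert y K) - G' K)) := by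
      simp only [sum_add_distrib, sum_sub_distrib, hBdef, hT]
      ring
    rw [e]
    refine (abs_sum_le_sum_abs _ _).trans ?_
    refine (sum_le_sum (g := fun _ => α + α) fun K hK => (abs_add_le _ _).trans
      (add_le_add (hone K hK).1 (hone K hK).2)).trans (le_of_eq ?_)
    rw [sum_const, nsmul_eq_mul, hn]
    ring
  have bD : |(n : ℝ) * D - pD * T| ≤ α * (n * pD) := by
    rcases m with - | l
    · have : U.powerset.filter (fun K => K.card + 1 = 0) = ∅ := by simp
      rw [hDdef, this, sum_empty] at *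
      rw [hD]
      simp
    have ef : U.powerset.filter (fun K => K.card + 1 = l + 1) = U.powersetCard l := by
      ext K; simp [mem_powersetCard]
    rw [ef] at hD hDdef
    have h := abs_sum_up (G := fun K => G (insert x (insert y K))) (G' := G')
      (fun K hK z hz => hup K (mem_powersetCard.1 hK).1 (by rw [(mem_powersetCard.1 hK).2]) z hz)
    have h1 := abs_sum_up (U := U) (m := l) (G := fun _ => 1) (G' := fun _ => 1) (α := 0)
      (fun _ _ _ _ => by simp)
    simp only [sum_const, nsmul_one, zero_mul, abs_nonpos_iff, sub_eq_zero] at h1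
    rw [← hD, ← hn] at h1
    have hl : (0 : ℝ) < (U.card : ℝ) - l := by
      have : ((l + 1 : ℕ) : ℝ) ≤ U.card := Nat.cast_le.2 hm
      push_cast at this; linarith
    have e : ((l : ℝ) + 1) = ((U.card : ℝ) - l) * pD / n := by
      rw [eq_div_iff hn0.ne']; linarith
    rw [e, ← hn, ← hDdef, ← hT] at h
    have e2 : ((U.card : ℝ) - l) * D - ((U.card : ℝ) - l) * pD / n * T =
        ((U.card : ℝ) - l) / n * (n * D - pD * T) := by field_simp
    rw [e2, abs_mul, abs_of_pos (div_pos hl hn0)] at h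
    refine le_of_mul_le_mul_left (h.trans_eq ?_) (div_pos hl hn0)
    field_simp
  rw [hdec G, hcard, ← hAdef, ← hBdef, ← hDdef]
  have hpos : 0 < pA + 2 * (n : ℝ) + pD := by
    have : 0 ≤ pA := hA ▸ Nat.cast_nonneg _
    have : 0 ≤ pD := hD ▸ Nat.cast_nonneg _
    linarith
  rw [div_sub_div _ _ hpos.ne' hn0.ne', abs_div, abs_of_pos (mul_pos hpos hn0),
    div_le_iff₀ (mul_pos hpos hn0)]
  have e : (A + B + D) * n - (pA + 2 * n + pD) * T =
      (n * A - pA * T) + n * (B - 2 * T) + (n * D - pD * T) := by ring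
  rw [e]
  refine (abs_add_le _ _).trans ((add_le_add ((abs_add_le _ _).trans
    (add_le_add bA ?_)) bD).trans (le_of_eq (a := α * (n * pA) + α * (n * (2 * n)) + α * (n * pD))
      (by ring)))
  rw [abs_mul, abs_of_pos hn0]
  exact (mul_le_mul_of_nonneg_left bB hn0.le).trans_eq (by ring)

end Vale.Agent.P335
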