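import Mathlib

/-!
# P335: zero-one matrices with given margins
-/

open Finset
open scoped Classical

namespace Vale.Agent.P335

section cond

variable {Ω K : Type*} [Fintype Ω]

/-- The states with the same key as `ω`. -/
noncomputable def fib (g : Ω → K) (ω : Ω) : Finset Ω := univ.filter fun ω' => g ω' = g ω

/-- The conditional average of `f` given the key `g`, for the uniform law. -/
noncomputable def cavg (g : Ω → K) (f : Ω → ℝ) (ω : Ω) : ℝ :=
  (∑ x ∈ fib g ω, f x) / #(fib g ω)

/-- The sum of the squared deviations from the conditional average. -/
noncomputable def cvar (g : Ω → K) (f : Ω → ℝ) : ℝ := ∑ ω, (f ω - cavg g f ω) ^ 2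

/-- The sum of the squared deviations from the average. -/
noncomputable def tvar (f : Ω → ℝ) : ℝ := cvar (fun _ : Ω => ()) f

end cond

variable {α β : Type*} [Fintype α] [Fintype β]

/-- Zero-one matrices with row sums `r` and column sums `c`. -/
def Margins (r : α → ℕ) (c : β → ℕ) : Type _ :=
  {A : α → β → Bool //
    (∀ i, #(univ.filter fun x => A i x = true) = r i) ∧
      ∀ x, #(univ.filter fun i => A i x = true) = c x}

noncomputable instance (r : α → ℕ) (c : β → ℕ) : Fintype (Margins r c) := by
  unfold Margins; infer_instance

/-- The rows other than `i` and `k`. -/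
def off {r : α → ℕ} {c : β → ℕ} (i k : α) (A : Margins r c) : {l : α // l ≠ i ∧ l ≠ k} → β → Bool :=
  fun l => A.1 l.1

/-- Exchange the entries of rows `i`, `k` between columns `x` and `y`, if the two columns have the
same sum over these two rows. -/
noncomputable def pairSwap (i k : α) (x y : β) (A : α → β → Bool) : α → β → Bool :=
  if ((A i x).toNat + (A k x).toNat = (A i y).toNat + (A k y).toNat) then
    fun l z => if l = i ∨ l = k then A l (Equiv.swap x y z) else A l z
  else A

end Vale.Agent.P335
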