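import Vale.Agent.P335.MatDefs
import Vale.Agent.P335.Coupling

/-! The three-row lemma: resampling two of three rows has spectral gap at least one. -/

open Finset
open scoped Classical

namespace Vale.Agent.P335

section cavg

variable {Ω K : Type*} [Fintype Ω] (g : Ω → K)

lemma mem_fib {ω ω' : Ω} : ω' ∈ fib g ω ↔ g ω' = g ω := by simp [fib]

lemma fib_congr {ω ω' : Ω} (h : g ω' = g ω) : fib g ω' = fib g ω := by
  ext; simp [fib, h]

lemma card_fib_pos (ω : Ω) : 0 < #(fib g ω) := card_pos.2 ⟨ω, (mem_fib g).2 rfl⟩

lemma cavg_congr (f : Ω → ℝ) {ω ω' : Ω} (h : g ω' = g ω) : cavg g f ω' = cavg g f ω := by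
  simp only [cavg, fib_congr g h]

lemma cavg_cavg (f : Ω → ℝ) (ω : Ω) : cavg g (cavg g f) ω = cavg g f ω := by
  rw [cavg, sum_congr rfl fun x hx => cavg_congr g f ((mem_fib g).1 hx), sum_const, nsmul_eq_mul,
    mul_div_assoc, mul_comm, div_mul_cancel₀]
  exact_mod_cast (card_fib_pos g ω).ne'

lemma sum_mul_cavg_symm (f h : Ω → ℝ) :
    ∑ ω, h ω * cavg g f ω = ∑ ω, f ω * cavg g h ω := by
  simp only [cavg, fib, sum_filter, sum_div, mul_sum]
  rw [sum_comm]
  refine sum_congr rfl fun x _ => sum_congr rfl fun y _ => ?_
  by_cases e : g x = g y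
  · rw [if_pos e, if_pos e.symm, show (univ.filter fun z => g z = g x) =
      univ.filter fun z => g z = g y by rw [e]]
    ring
  · rw [if_neg e, if_neg fun c => e c.symm]
    simp

lemma cavg_one (ω : Ω) : cavg g (fun _ => (1 : ℝ)) ω = 1 := by
  simp [cavg, (card_fib_pos g ω).ne']

lemma sum_cavg (f : Ω → ℝ) : ∑ ω, cavg g f ω = ∑ ω, f ω := by
  have := sum_mul_cavg_symm g f (fun _ => 1)
  simpa [cavg_one g] using this

lemma cvar_eq (f : Ω → ℝ) : cvar g f = ∑ ω, f ω ^ 2 - ∑ ω, f ω * cavg g f ω := by
  have h1 : ∑ ω, f ω * cavg g f ω = ∑ ω, cavg g f ω ^ 2 := by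
    have := sum_mul_cavg_symm g f (cavg g f)
    simp only [cavg_cavg g f] at this
    rw [← this]
    exact sum_congr rfl fun ω _ => (sq _).symm
  have e : cvar g f = ∑ ω, (f ω ^ 2 - 2 * (f ω * cavg g f ω) + cavg g f ω ^ 2) :=
    sum_congr rfl fun ω _ => by ring
  rw [e, sum_add_distrib, sum_sub_distrib, ← mul_sum, h1]
  ring

end cavg

section fin3

lemma sum_three {M : Type*} [AddCommMonoid M] (i : Fin 3) (g : Fin 3 → M) :
    ∑ j, g j = g i + (g (i + 1) + g (i + 2)) := by
  fin_cases i <;> rw [Fin.sum_univ_three] <;> simp <;> abel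

lemma three_ne (i : Fin 3) : i + 1 ≠ i ∧ i + 2 ≠ i ∧ i + 1 ≠ i + 2 := by
  fin_cases i <;> decide

lemma other_eq {i k : Fin 3} (h : k ≠ i) : k = i + 1 ∨ k = i + 2 := by
  revert h
  fin_cases i <;> fin_cases k <;> simp

end fin3

namespace ThreeRow

variable {β : Type*} [Fintype β] {r : Fin 3 → ℕ} {c : β → ℕ}

/-- Number of true entries among the columns of sum one. -/
noncomputable def ones (i : Fin 3) (A : Margins r c) : ℕ :=
  #(univ.filter fun z => c z = 1 ∧ A.1 i z = true)

lemma col_eq (A : Margins r c) (i : Fin 3) (z : β) :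
    c z = (A.1 i z).toNat + ((A.1 (i + 1) z).toNat + (A.1 (i + 2) z).toNat) := by
  rw [← sum_three i fun j => (A.1 j z).toNat, ← A.2.2 z, card_filter]
  exact sum_congr rfl fun j _ => by cases A.1 j z <;> rfl

lemma col_le (A : Margins r c) (z : β) : c z ≤ 3 := by
  have := col_eq A 0 z
  have := (A.1 0 z).toNat_le
  have := (A.1 (0 + 1) z).toNat_le
  have := (A.1 (0 + 2) z).toNat_le
  omega

/-- The columns of sum `m`. -/
noncomputable def colClass (c : β → ℕ) (m : ℕ) : Finset β := univ.filter fun z => c z = m

lemma row_eq (A : Margins r c) (i : Fin 3) :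
    r i = ones i A + #(univ.filter fun z => c z = 2 ∧ A.1 i z = true) + #(colClass c 3) := by
  rw [← A.2.1 i, ones, colClass, card_filter, card_filter, card_filter, card_filter,
    ← sum_add_distrib, ← sum_add_distrib]
  refine sum_congr rfl fun z _ => ?_
  have h := col_eq A i z
  have := (A.1 i z).toNat_le
  have := (A.1 (i + 1) z).toNat_le
  have := (A.1 (i + 2) z).toNat_le
  obtain hc | hc | hc | hc : c z = 0 ∨ c z = 1 ∨ c z = 2 ∨ c z = 3 := by omega
  all_goals cases hA : A.1 i z <;> simp [hc]
  all_goals simp [hA, hc] at h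
  all_goals omega

lemma filter_zero (A : Margins r c) (i : Fin 3) :
    #(univ.filter fun z => c z = 0 ∧ A.1 i z = true) = 0 := by
  rw [card_eq_zero, filter_eq_empty_iff]
  rintro z - ⟨hc, hA⟩
  have := col_eq A i z
  simp [hA, hc] at this
  omega

lemma filter_three (A : Margins r c) (i : Fin 3) :
    (univ.filter fun z => c z = 3 ∧ A.1 i z = true) = colClass c 3 := by
  refine filter_congr fun z _ => and_iff_left_of_imp fun hc => ?_
  have := col_eq A i z
  have := (A.1 (i + 1) z).toNat_le
  have := (A.1 (i + 2) z).toNat_le
  cases hA : A.1 i z <;> simp_all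
  omega

/-- The exchange of two columns of equal sum, as a permutation. -/
noncomputable def colPerm (c : β → ℕ) (x y : β) : Equiv.Perm β :=
  if c x = c y then Equiv.swap x y else Equiv.refl β

omit [Fintype β] in
lemma c_colPerm (c : β → ℕ) (x y z : β) : c (colPerm c x y z) = c z := by
  unfold colPerm
  split_ifs with h
  · rw [Equiv.swap_apply_def]
    split_ifs with h1 h2 <;> simp_all
  · rfl

/-- Exchange two columns of equal sum. -/
noncomputable def colSwap (x y : β) (A : Margins r c) : Margins r c :=
  ⟨fun i z => A.1 i (colPerm c x y z), fun i => by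
      rw [← A.2.1 i]
      exact Finset.card_equiv (colPerm c x y) (by simp),
    fun z => (A.2.2 _).trans (c_colPerm c x y z)⟩

lemma colSwap_apply {x y : β} (h : c x = c y) (A : Margins r c) (i : Fin 3) (z : β) :
    (colSwap x y A).1 i z = A.1 i (Equiv.swap x y z) := by
  simp [colSwap, colPerm, h]

lemma colSwap_of_ne {x y : β} (h : c x ≠ c y) (A : Margins r c) : colSwap x y A = A :=
  Subtype.ext (funext fun i => funext fun z => by simp [colSwap, colPerm, h])

lemma colSwap_colSwap (x y : β) (A : Margins r c) : colSwap x y (colSwap x y A) = A := by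
  by_cases h : c x = c y
  · refine Subtype.ext (funext fun i => funext fun z => ?_)
    rw [colSwap_apply h, colSwap_apply h, Equiv.swap_apply_self]
  · rw [colSwap_of_ne h, colSwap_of_ne h]

lemma colSwap_row {x y : β} {A : Margins r c} {i : Fin 3} (h : A.1 i x = A.1 i y) :
    (colSwap x y A).1 i = A.1 i := by
  by_cases hc : c x = c y
  · funext z
    rw [colSwap_apply hc, Equiv.swap_apply_def]
    split_ifs with h1 h2 <;> simp_all
  · rw [colSwap_of_ne hc]

/-- The row map. -/
def rowOf (i : Fin 3) : Margins r c → β → Bool := fun A => A.1 i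

lemma fib_colSwap (x y : β) (i : Fin 3) (A : Margins r c) :
    fib (rowOf i) (colSwap x y A) = (fib (rowOf i) A).image (colSwap x y) := by
  by_cases h : c x = c y
  · have key : ∀ B C : Margins r c, rowOf i B = rowOf i C →
        rowOf i (colSwap x y B) = rowOf i (colSwap x y C) := fun B C e => by
      funext z
      simp only [rowOf, colSwap_apply h]
      exact congrFun e _
    ext B
    simp only [mem_image, mem_fib]
    constructor
    · intro e
      refine ⟨colSwap x y B, ?_, colSwap_colSwap x y B⟩
      have := key _ _ e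
      rwa [colSwap_colSwap] at this
    · rintro ⟨C, e, rfl⟩
      exact key _ _ e
  · have : (colSwap x y : Margins r c → Margins r c) = id := funext fun B => colSwap_of_ne h B
    simp [this]

lemma cavg_colSwap (x y : β) (i : Fin 3) (f : Margins r c → ℝ) (A : Margins r c) :
    cavg (rowOf i) f (colSwap x y A) = cavg (rowOf i) (fun B => f (colSwap x y B)) A := by
  have hinj : Set.InjOn (colSwap x y) (↑(fib (rowOf i) A) : Set (Margins r c)) :=
    fun B _ C _ e => by rw [← colSwap_colSwap x y B, e, colSwap_colSwap]
  simp only [cavg, fib_colSwap]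
  rw [card_image_of_injOn hinj, sum_image hinj]

/-- The columns in which exactly one of the two rows other than `v` has a one. -/
noncomputable def free (c : β → ℕ) (v : β → Bool) : Finset β :=
  univ.filter fun z => c z = (v z).toNat + 1

/-- The other two rows are, given row `i`, the subsets of the free columns of a fixed size. -/
lemma sum_fib (A : Margins r c) (i : Fin 3) (K : ℕ → ℕ → ℝ) :
    ∑ B ∈ fib (rowOf i) A, K (ones (i + 1) B) (ones (i + 2) B) =
      ∑ J ∈ (free c (A.1 i)).powersetCard #((free c (A.1 i)).filter fun z => A.1 (i + 1) z = true),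
        K #(J.filter fun z => c z = 1) #((free c (A.1 i) \ J).filter fun z => c z = 1) := by
  obtain ⟨n1, n2, n3⟩ := three_ne i
  set M := free c (A.1 i) with hM
  set j := #(M.filter fun z => A.1 (i + 1) z = true) with hj
  -- the entries of the other two rows in terms of the chosen set
  let mk : Finset β → Fin 3 → β → Bool := fun J l z =>
    if l = i then A.1 i z
    else if z ∈ M then (if l = i + 1 then decide (z ∈ J) else !decide (z ∈ J))
    else decide (c z = (A.1 i z).toNat + 2)
  have hMz : ∀ z, z ∈ M ↔ c z = (A.1 i z).toNat + 1 := fun z => by simp [hM, free]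
  have hfacts : ∀ B : Margins r c, B.1 i = A.1 i → ∀ z,
      (z ∉ M → B.1 (i + 1) z = decide (c z = (A.1 i z).toNat + 2) ∧
        B.1 (i + 2) z = decide (c z = (A.1 i z).toNat + 2)) ∧
      (z ∈ M → B.1 (i + 2) z = !(B.1 (i + 1) z)) := fun B hB z => by
    have h := col_eq B i z
    rw [congrFun hB z] at h
    refine ⟨fun hz => ?_, fun hz => ?_⟩ <;> rw [hMz] at hz <;>
      cases h1 : B.1 (i + 1) z <;> cases h2 : B.1 (i + 2) z <;> simp [h1, h2] at h ⊢ <;> omega
  have hmk : ∀ B : Margins r c, B.1 i = A.1 i →
      mk (M.filter fun z => B.1 (i + 1) z = true) = B.1 := fun B hB => by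
    funext l z
    obtain ⟨h1, h2⟩ := hfacts B hB z
    have hl : l = i ∨ l = i + 1 ∨ l = i + 2 := by
      fin_cases i <;> fin_cases l <;> simp
    rcases hl with rfl | rfl | rfl
    · simp [mk, hB]
    · by_cases hz : z ∈ M
      · simp [mk, n1, hz]
      · simp [mk, n1, hz, (h1 hz).1]
    · by_cases hz : z ∈ M
      · simp [mk, n2, Ne.symm n3, hz, h2 hz]
      · simp [mk, n2, hz, (h1 hz).2]
  have hcnt : ∀ J ⊆ M, #(univ.filter fun z => mk J (i + 1) z = true) =
      #J + #(univ.filter fun z => z ∉ M ∧ c z = (A.1 i z).toNat + 2) ∧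
      #(univ.filter fun z => mk J (i + 2) z = true) + #J =
      #M + #(univ.filter fun z => z ∉ M ∧ c z = (A.1 i z).toNat + 2) := fun J hJ => by
    have e1 : (univ.filter fun z => mk J (i + 1) z = true) =
        J ∪ univ.filter fun z => z ∉ M ∧ c z = (A.1 i z).toNat + 2 := by
      ext z
      by_cases hz : z ∈ M
      · simp [mk, n1, hz]
      · have : z ∉ J := fun h => hz (hJ h)
        simp [mk, n1, hz, this]
    have e2 : (univ.filter fun z => mk J (i + 2) z = true) =
        (M \ J) ∪ univ.filter fun z => z ∉ M ∧ c z = (A.1 i z).toNat + 2 := by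
      ext z
      by_cases hz : z ∈ M <;> simp [mk, n2, Ne.symm n3, hz]
    rw [e1, e2, card_union_of_disjoint, card_union_of_disjoint, add_right_comm,
      card_sdiff_add_card_eq_card hJ]
    · exact ⟨rfl, rfl⟩
    · simp only [disjoint_left, mem_sdiff, mem_filter, mem_univ, true_and, not_and]
      exact fun z hz h => absurd hz.1 h
    · simp only [disjoint_left, mem_filter, mem_univ, true_and, not_and]
      exact fun z hz h => absurd (hJ hz) h
  have hvalid : ∀ J ∈ M.powersetCard j,
      (∀ l, #(univ.filter fun z => mk J l z = true) = r l) ∧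
      ∀ z, #(univ.filter fun l => mk J l z = true) = c z := fun J hJ => by
    rw [mem_powersetCard] at hJ
    refine ⟨fun l => ?_, fun z => ?_⟩
    · have hA := hcnt _ (filter_subset (fun z => A.1 (i + 1) z = true) M)
      rw [hmk A rfl, A.2.1, A.2.1, ← hj] at hA
      obtain ⟨h1, h2⟩ := hcnt J hJ.1
      rw [hJ.2] at h1 h2
      have hl : l = i ∨ l = i + 1 ∨ l = i + 2 := by
        fin_cases i <;> fin_cases l <;> simp
      rcases hl with rfl | rfl | rfl
      · rw [← A.2.1 l]
        simp [mk]
      · omega
      · omega
    · rw [card_filter, sum_three i]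
      by_cases hz : z ∈ M
      · have e := (hMz z).1 hz
        cases hA : A.1 i z <;> by_cases hzJ : z ∈ J <;>
          simp [mk, n1, n2, Ne.symm n3, hz, hzJ, hA] at e ⊢ <;> omega
      · have h := col_eq A i z
        have e := (not_congr (hMz z)).1 hz
        have := (A.1 (i + 1) z).toNat_le
        have := (A.1 (i + 2) z).toNat_le
        cases hA : A.1 i z <;> simp [mk, n1, n2, hz, hA] at h e ⊢ <;> split_ifs <;> omega
  have hones : ∀ B : Margins r c, B.1 i = A.1 i →
      ones (i + 1) B = #((M.filter fun z => B.1 (i + 1) z = true).filter fun z => c z = 1) ∧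
      ones (i + 2) B = #((M \ M.filter fun z => B.1 (i + 1) z = true).filter fun z => c z = 1) :=
    fun B hB => by
      constructor <;> refine congrArg Finset.card ?_ <;> ext z <;>
        simp only [mem_filter, mem_univ, true_and, mem_sdiff] <;>
        (have h := hfacts B hB z; have e := hMz z; by_cases hz : z ∈ M <;>
          cases hA : A.1 i z <;> simp_all)
  symm
  refine sum_bij (fun J hJ => (⟨mk J, hvalid J hJ⟩ : Margins r c)) ?_ ?_ ?_ ?_
  · intro J _
    refine (mem_fib _).2 ?_
    funext z
    simp [rowOf, mk]
  · intro J hJ J' hJ' e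
    rw [mem_powersetCard] at hJ hJ'
    have e' := congrArg Subtype.val e
    ext z
    by_cases hz : z ∈ M
    · have := congrFun (congrFun e' (i + 1)) z
      simpa [mk, n1, hz] using this
    · exact iff_of_false (fun h => hz (hJ.1 h)) fun h => hz (hJ'.1 h)
  · intro B hB
    have hB' : B.1 i = A.1 i := (mem_fib (rowOf i)).1 hB
    refine ⟨M.filter fun z => B.1 (i + 1) z = true, mem_powersetCard.2 ⟨filter_subset _ _, ?_⟩,
      Subtype.ext (hmk B hB')⟩
    have hA := hcnt _ (filter_subset (fun z => A.1 (i + 1) z = true) M)
    have hB2 := hcnt _ (filter_subset (fun z => B.1 (i + 1) z = true) M)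
    rw [hmk A rfl, A.2.1] at hA
    rw [hmk B hB', B.2.1] at hB2
    omega
  · intro J hJ
    have hrow : (⟨mk J, hvalid J hJ⟩ : Margins r c).1 i = A.1 i := by
      funext z; simp [mk]
    obtain ⟨h1, h2⟩ := hones _ hrow
    have hJsub := (mem_powersetCard.1 hJ).1
    have hJe : (M.filter fun z => mk J (i + 1) z = true) = J := by
      ext z
      by_cases hz : z ∈ M
      · simp [mk, n1, hz]
      · exact iff_of_false (fun h => hz (mem_filter.1 h).1) fun h => hz (hJsub h)
    simp only [h1, h2, hJe]

/-- Moving one column of sum one into row `i`. -/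
lemma exists_step {A B : Margins r c} {i : Fin 3} (hlt : ones i A < ones i B) :
    ∃ A' : Margins r c, ones i A' = ones i A + 1 := by
  have hB1 : ∀ (l : Fin 3) (C : Margins r c), ones l C ≤ #(colClass c 1) := fun l C =>
    card_le_card fun z hz => by
      simp only [colClass, mem_filter, mem_univ, true_and] at hz ⊢; exact hz.1
  by_cases hex : ∃ k, k ≠ i ∧ ∃ x y, c x = 1 ∧ A.1 k x = true ∧ c y = 2 ∧ A.1 i y = true ∧
      A.1 k y = false
  · obtain ⟨k, hki, x, y, hx, hkx, hy, hiy, hky⟩ := hex
    have hix : A.1 i x = false := by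
      have h := col_eq A i x
      rcases other_eq hki with rfl | rfl <;> cases hA : A.1 i x <;>
        simp_all
    have hxy : x ≠ y := fun e => by rw [e, hy] at hx; omega
    let A1 : Fin 3 → β → Bool := fun l z =>
      if l = i ∨ l = k then A.1 l (Equiv.swap x y z) else A.1 l z
    have hr : ∀ l, #(univ.filter fun z => A1 l z = true) = r l := fun l => by
      rw [← A.2.1 l]
      by_cases hl : l = i ∨ l = k
      · exact Finset.card_equiv (Equiv.swap x y) (by simp [A1, hl])
      · simp [A1, hl]
    have hc : ∀ z, #(univ.filter fun l => A1 l z = true) = c z := fun z => by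
      rw [← A.2.2 z]
      rcases eq_or_ne z x with rfl | hzx
      · refine Finset.card_equiv (Equiv.swap i k) fun l => ?_
        rcases eq_or_ne l i with rfl | hli
        · simp [A1, hiy, hkx]
        rcases eq_or_ne l k with rfl | hlk
        · simp [A1, hky, hix]
        · simp [A1, hli, hlk, Equiv.swap_apply_of_ne_of_ne hli hlk]
      rcases eq_or_ne z y with rfl | hzy
      · refine Finset.card_equiv (Equiv.swap i k) fun l => ?_
        rcases eq_or_ne l i with rfl | hli
        · simp [A1, hix, hky]
        rcases eq_or_ne l k with rfl | hlk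
        · simp [A1, hkx, hiy]
        · simp [A1, hli, hlk, Equiv.swap_apply_of_ne_of_ne hli hlk]
      · simp [A1, Equiv.swap_apply_of_ne_of_ne hzx hzy]
    refine ⟨⟨A1, hr, hc⟩, ?_⟩
    simp only [ones]
    rw [← card_insert_of_notMem (a := x) (s := univ.filter fun z => c z = 1 ∧ A.1 i z = true)
      (by simp [hix])]
    refine congrArg Finset.card ?_
    ext z
    rcases eq_or_ne z x with rfl | hzx
    · simp [A1, hx, hiy]
    rcases eq_or_ne z y with rfl | hzy
    · simp [A1, hy, hzx]
    · simp [A1, Equiv.swap_apply_of_ne_of_ne hzx hzy, hzx]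
  · exfalso
    push Not at hex
    obtain ⟨x, hx, hix⟩ : ∃ x, c x = 1 ∧ A.1 i x = false := by
      by_contra hno
      push Not at hno
      have : ones i A = #(colClass c 1) := by
        refine congrArg Finset.card (filter_congr fun z _ => and_iff_left_of_imp fun hz => ?_)
        cases hA : A.1 i z
        · exact absurd hA (hno z hz)
        · rfl
      have := hB1 i B
      omega
    obtain ⟨y, hy, hiy⟩ : ∃ y, c y = 2 ∧ A.1 i y = true := by
      by_contra hno
      have : #(univ.filter fun z => c z = 2 ∧ A.1 i z = true) = 0 := by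
        rw [card_eq_zero, filter_eq_empty_iff]
        exact fun z _ hz => hno ⟨z, hz⟩
      have := row_eq A i
      have := row_eq B i
      omega
    -- `k` owns the free columns of sum one, and it is present in every column of sum two
    obtain ⟨k, hki, hkx⟩ : ∃ k, k ≠ i ∧ A.1 k x = true := by
      have h := col_eq A i x
      cases h1 : A.1 (i + 1) x
      · refine ⟨i + 2, (three_ne i).2.1, ?_⟩
        cases h2 : A.1 (i + 2) x <;> simp_all
      · exact ⟨i + 1, (three_ne i).1, h1⟩
    have hy' : ∀ z, c z = 2 → A.1 k z = true := fun z hz => by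
      cases hA : A.1 k z
      · cases hzi : A.1 i z
        · have h := col_eq A i z
          have := (A.1 (i + 1) z).toNat_le
          have := (A.1 (i + 2) z).toNat_le
          rcases other_eq hki with rfl | rfl <;> simp_all
        · exact absurd hA (hex k hki x z hx hkx hz hzi)
      · rfl
    have hx' : ∀ z, c z = 1 → A.1 i z = false → A.1 k z = true := fun z hz hzi => by
      cases hA : A.1 k z
      · exfalso
        have h := col_eq A i z
        have hy2 := hy' y hy
        have h2 := col_eq A i y
        rcases eq_or_ne k (i + 1) with rfl | hk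
        · have h3 : A.1 (i + 2) z = true := by cases h4 : A.1 (i + 2) z <;> simp_all
          have h5 : A.1 (i + 2) y = false := by cases h4 : A.1 (i + 2) y <;> simp_all
          exact hex (i + 2) (three_ne i).2.1 z y hz h3 hy hiy h5
        · have hk2 : k = i + 2 := (other_eq hki).resolve_left hk
          subst hk2
          have h3 : A.1 (i + 1) z = true := by cases h4 : A.1 (i + 1) z <;> simp_all
          have h5 : A.1 (i + 1) y = false := by cases h4 : A.1 (i + 1) y <;> simp_all
          exact hex (i + 1) (three_ne i).1 z y hz h3 hy hiy h5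
      · rfl
    have e2 : #(univ.filter fun z => c z = 2 ∧ A.1 k z = true) = #(colClass c 2) :=
      congrArg Finset.card (filter_congr fun z _ => and_iff_left_of_imp (hy' z))
    have e2' : #(univ.filter fun z => c z = 2 ∧ B.1 k z = true) ≤ #(colClass c 2) :=
      card_le_card fun z hz => by
        simp only [colClass, mem_filter, mem_univ, true_and] at hz ⊢; exact hz.1
    have e1 : #(colClass c 1) ≤ ones i A + ones k A := by
      refine (card_le_card fun z hz => ?_).trans (card_union_le _ _)
      simp only [colClass, mem_filter, mem_univ, true_and] at hz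
      cases hzi : A.1 i z
      · simp [hz, hx' z hz hzi]
      · simp [hz, hzi]
    have e1' : ones i B + ones k B ≤ #(colClass c 1) := by
      rw [ones, ones, ← card_union_of_disjoint]
      · exact card_le_card fun z hz => by
          simp only [colClass, mem_union, mem_filter, mem_univ, true_and] at hz ⊢
          rcases hz with h | h <;> exact h.1
      · simp only [disjoint_left, mem_filter, mem_univ, true_and]
        rintro z ⟨hz, hzi⟩ ⟨-, hzk⟩
        have h := col_eq B i z
        rcases other_eq hki with rfl | rfl <;> simp_all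
    have := row_eq A k
    have := row_eq B k
    omega

variable (v : Margins r c → ℝ)

/-- The conditional averages of a function given one row. -/
noncomputable def phi (i : Fin 3) : Margins r c → ℝ := cavg (rowOf i) v

lemma phi_congr {i : Fin 3} {A B : Margins r c} (h : B.1 i = A.1 i) : phi v i B = phi v i A :=
  cavg_congr _ v h

/-- A function in an eigenspace above `2` is constant in the columns of equal sum. -/
lemma phi_colSwap {μ : ℝ} (hμ : 1 < μ)
    (heq : ∀ i A, μ * phi v i A = cavg (rowOf i) (fun B => phi v (i + 1) B + phi v (i + 2) B) A)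
    (i : Fin 3) (x y : β) (A : Margins r c) : phi v i (colSwap x y A) = phi v i A := by
  obtain ⟨p, -, hp⟩ := exists_max_image (univ : Finset (Fin 3 × β × β × Margins r c))
    (fun p => |phi v p.1 (colSwap p.2.1 p.2.2.1 p.2.2.2) - phi v p.1 p.2.2.2|)
    ⟨(i, x, y, A), mem_univ _⟩
  set b := |phi v p.1 (colSwap p.2.1 p.2.2.1 p.2.2.2) - phi v p.1 p.2.2.2| with hbdef
  have hb0 : 0 ≤ b := abs_nonneg _
  have hbd : ∀ i x y A, |phi v i (colSwap x y A) - phi v i A| ≤ b := fun i x y A =>
    hp (i, x, y, A) (mem_univ _)
  suffices key : ∀ i x y A, μ * |phi v i (colSwap x y A) - phi v i A| ≤ b by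
    have h1 : μ * b ≤ b := key p.1 p.2.1 p.2.2.1 p.2.2.2
    have h2 : b = 0 := by nlinarith
    exact sub_eq_zero.1 (abs_nonpos_iff.1 (h2 ▸ hbd i x y A))
  intro i x y A
  by_cases h : A.1 i x = A.1 i y
  · rw [phi_congr v (colSwap_row h), sub_self, abs_zero, mul_zero]
    exact hb0
  by_cases hc : c x = c y
  · rw [← abs_of_pos (zero_lt_one.trans hμ), ← abs_mul, mul_sub, heq, heq, cavg_colSwap]
    simp only [cavg]
    rw [← sub_div, ← sum_sub_distrib, abs_div, Nat.abs_cast,
      div_le_iff₀ (by exact_mod_cast card_fib_pos _ A)]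
    refine (abs_sum_le_sum_abs _ _).trans ((sum_le_sum (g := fun _ => b) fun B hB => ?_).trans
      (le_of_eq (by rw [sum_const, nsmul_eq_mul, mul_comm])))
    have hB' : B.1 i = A.1 i := (mem_fib _).1 hB
    have h' : B.1 i x ≠ B.1 i y := by rwa [hB']
    have hcase : B.1 (i + 1) x = B.1 (i + 1) y ∨ B.1 (i + 2) x = B.1 (i + 2) y := by
      have hx := col_eq B i x
      have hy := col_eq B i y
      rw [hc, hy] at hx
      revert hx h'
      cases B.1 i x <;> cases B.1 i y <;> cases B.1 (i + 1) x <;> cases B.1 (i + 1) y <;>
        cases B.1 (i + 2) x <;> cases B.1 (i + 2) y <;> simp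
    rcases hcase with e | e
    · rw [phi_congr v (colSwap_row e)]
      simpa using hbd (i + 2) x y B
    · rw [phi_congr v (colSwap_row e)]
      simpa using hbd (i + 1) x y B
  · have : colSwap x y A = A := colSwap_of_ne hc A
    rw [this, sub_self, abs_zero, mul_zero]
    exact hb0

/-- Two patterns with the same numbers in every class are joined by column exchanges. -/
lemma exists_row (hswap : ∀ i x y A, phi v i (colSwap x y A) = phi v i A) (i : Fin 3)
    (w : β → Bool) : ∀ (m : ℕ) (A : Margins r c),
    #(univ.filter fun z => A.1 i z = true ∧ w z = false) = m →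
    (∀ q, #(univ.filter fun z => c z = q ∧ w z = true) =
      #(univ.filter fun z => c z = q ∧ A.1 i z = true)) →
    ∃ B : Margins r c, B.1 i = w ∧ phi v i B = phi v i A := by
  intro m
  induction m using Nat.strong_induction_on with
  | h m ih =>
    intro A hm hcount
    rcases Nat.eq_zero_or_pos m with hm0 | hm0
    · refine ⟨A, funext fun z => ?_, rfl⟩
      rw [hm0, card_eq_zero, filter_eq_empty_iff] at hm
      have hsub : (univ.filter fun u => c u = c z ∧ A.1 i u = true) ⊆
          univ.filter fun u => c u = c z ∧ w u = true := fun u hu => by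
        simp only [mem_filter, mem_univ, true_and] at hu ⊢
        refine ⟨hu.1, ?_⟩
        cases hw : w u
        · exact absurd ⟨hu.2, hw⟩ (hm (mem_univ u))
        · rfl
      have heq := Finset.ext_iff.1 (eq_of_subset_of_card_le hsub (hcount (c z)).le) z
      simp only [mem_filter, mem_univ, true_and] at heq
      cases h1 : A.1 i z <;> cases h2 : w z <;> simp_all
    · obtain ⟨x, hx⟩ := card_pos.1 (hm ▸ hm0)
      simp only [mem_filter, mem_univ, true_and] at hx
      obtain ⟨y, hy, hAy, hwy⟩ : ∃ y, c y = c x ∧ A.1 i y = false ∧ w y = true := by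
        by_contra hno
        have hss : (univ.filter fun u => c u = c x ∧ w u = true) ⊂
            univ.filter fun u => c u = c x ∧ A.1 i u = true := by
          rw [ssubset_iff_of_subset]
          · exact ⟨x, by simp [hx.1], by simp [hx.2]⟩
          · intro u hu
            simp only [mem_filter, mem_univ, true_and] at hu ⊢
            refine ⟨hu.1, ?_⟩
            cases hA : A.1 i u
            · exact absurd ⟨u, hu.1, hA, hu.2⟩ hno
            · rfl
        exact (card_lt_card hss).ne (hcount (c x))
      have hlt : #(univ.filter fun z => (colSwap x y A).1 i z = true ∧ w z = false) < m := by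
        rw [← hm]
        refine card_lt_card ?_
        rw [ssubset_iff_of_subset]
        · refine ⟨x, by simp [hx], ?_⟩
          simp [colSwap_apply hy.symm, hAy]
        · intro u hu
          simp only [mem_filter, mem_univ, true_and, colSwap_apply hy.symm] at hu ⊢
          refine ⟨?_, hu.2⟩
          rcases eq_or_ne u x with rfl | hux
          · exact hx.1
          rcases eq_or_ne u y with rfl | huy
          · simp_all
          · rw [Equiv.swap_apply_of_ne_of_ne hux huy] at hu
            exact hu.1
      obtain ⟨B, hB, hphi⟩ := ih _ hlt (colSwap x y A) rfl fun q => by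
        rw [hcount q]
        refine Finset.card_equiv (Equiv.swap x y) fun u => ?_
        simp only [mem_filter, mem_univ, true_and, colSwap_apply hy.symm, Equiv.swap_apply_self]
        have hcu : c (Equiv.swap x y u) = c u := by
          rw [Equiv.swap_apply_def]
          split_ifs with h1 h2 <;> simp_all
        rw [hcu]
      exact ⟨B, hB, hphi.trans (hswap i x y A)⟩

lemma counts_eq {i : Fin 3} {A B : Margins r c} (h : ones i A = ones i B) (q : ℕ) :
    #(univ.filter fun z => c z = q ∧ B.1 i z = true) =
      #(univ.filter fun z => c z = q ∧ A.1 i z = true) := by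
  rcases q with - | _ | _ | _ | q
  · rw [filter_zero, filter_zero]
  · exact h.symm
  · have := row_eq A i
    have := row_eq B i
    change #(univ.filter fun z => c z = 2 ∧ B.1 i z = true) =
      #(univ.filter fun z => c z = 2 ∧ A.1 i z = true)
    omega
  · change #(univ.filter fun z => c z = 3 ∧ B.1 i z = true) =
      #(univ.filter fun z => c z = 3 ∧ A.1 i z = true)
    rw [filter_three, filter_three]
  · have hemp : ∀ C : Margins r c, #(univ.filter fun z => c z = q + 4 ∧ C.1 i z = true) = 0 :=
      fun C => by
        rw [card_eq_zero, filter_eq_empty_iff]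
        rintro z - ⟨hz, -⟩
        have := col_le C z
        omega
    change #(univ.filter fun z => c z = q + 4 ∧ B.1 i z = true) =
      #(univ.filter fun z => c z = q + 4 ∧ A.1 i z = true)
    rw [hemp, hemp]

lemma phi_of_ones (hswap : ∀ i x y A, phi v i (colSwap x y A) = phi v i A) {i : Fin 3}
    {A B : Margins r c} (h : ones i A = ones i B) : phi v i A = phi v i B := by
  obtain ⟨C, hC, hphi⟩ := exists_row v hswap i (B.1 i) _ A rfl (counts_eq h)
  rw [← hphi, phi_congr v hC]

/-- The neighbouring count levels agree. -/
lemma phi_succ {μ : ℝ} (hμ : 1 < μ)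
    (heq : ∀ i A, μ * phi v i A = cavg (rowOf i) (fun B => phi v (i + 1) B + phi v (i + 2) B) A)
    (hswap : ∀ i x y A, phi v i (colSwap x y A) = phi v i A) (i : Fin 3) (A B : Margins r c)
    (hAB : ones i B = ones i A + 1) : phi v i B = phi v i A := by
  obtain ⟨p, -, hp⟩ := exists_max_image (univ : Finset (Fin 3 × Margins r c × Margins r c))
    (fun p => if ones p.1 p.2.2 = ones p.1 p.2.1 + 1 then |phi v p.1 p.2.2 - phi v p.1 p.2.1| else 0)
    ⟨(i, A, B), mem_univ _⟩
  set α := (if ones p.1 p.2.2 = ones p.1 p.2.1 + 1 then
    |phi v p.1 p.2.2 - phi v p.1 p.2.1| else 0) with hαdef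
  have hα0 : 0 ≤ α := by rw [hαdef]; split_ifs <;> first | exact abs_nonneg _ | exact le_rfl
  have hbd : ∀ i A B, ones i B = ones i A + 1 → |phi v i B - phi v i A| ≤ α := fun i A B h => by
    simpa [h] using hp (i, A, B) (mem_univ _)
  suffices key : ∀ i A B, ones i B = ones i A + 1 → μ * |phi v i B - phi v i A| ≤ α by
    have h2 : α = 0 := by
      by_cases h : ones p.1 p.2.2 = ones p.1 p.2.1 + 1
      · have h1 := key _ _ _ h
        have h3 : α = |phi v p.1 p.2.2 - phi v p.1 p.2.1| := by rw [hαdef, if_pos h]
        rw [← h3] at h1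
        nlinarith
      · rw [hαdef, if_neg h]
    exact sub_eq_zero.1 (abs_nonpos_iff.1 (h2 ▸ hbd i A B hAB))
  intro i A B hAB
  -- move to a row differing from that of `A` in two columns
  obtain ⟨x, hx, hix⟩ : ∃ x, c x = 1 ∧ A.1 i x = false := by
    by_contra hno
    push Not at hno
    have : ones i B ≤ ones i A := card_le_card fun z hz => by
      simp only [mem_filter, mem_univ, true_and] at hz ⊢
      refine ⟨hz.1, ?_⟩
      cases hA : A.1 i z
      · exact absurd hA (hno z hz.1)
      · rfl
    omega
  obtain ⟨y, hy, hiy⟩ : ∃ y, c y = 2 ∧ A.1 i y = true := by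
    by_contra hno
    have : #(univ.filter fun z => c z = 2 ∧ A.1 i z = true) = 0 := by
      rw [card_eq_zero, filter_eq_empty_iff]
      exact fun z _ hz => hno ⟨z, hz⟩
    have := row_eq A i
    have := row_eq B i
    omega
  have hxy : x ≠ y := fun e => by rw [e, hy] at hx; omega
  set w : β → Bool := fun z => if z = x then true else if z = y then false else A.1 i z with hw
  have hcount : ∀ q, #(univ.filter fun z => c z = q ∧ w z = true) =
      #(univ.filter fun z => c z = q ∧ B.1 i z = true) := by
    intro q
    rcases eq_or_ne q 1 with rfl | hq1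
    · change _ = ones i B
      rw [hAB, ones, ← card_insert_of_notMem (a := x)
        (s := univ.filter fun z => c z = 1 ∧ A.1 i z = true) (by simp [hix])]
      refine congrArg Finset.card ?_
      ext z
      rcases eq_or_ne z x with rfl | hzx
      · simp [hw, hx]
      rcases eq_or_ne z y with rfl | hzy
      · simp [hw, hy, hzx]
      · simp [hw, hzx, hzy]
    rcases eq_or_ne q 2 with rfl | hq2
    · have e : (univ.filter fun z => c z = 2 ∧ w z = true) =
          (univ.filter fun z => c z = 2 ∧ A.1 i z = true).erase y := by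
        ext z
        rcases eq_or_ne z x with rfl | hzx
        · simp [hx]
        rcases eq_or_ne z y with rfl | hzy
        · simp [hw, hzx]
        · simp [hw, hzx, hzy]
      rw [e, card_erase_of_mem (by simp [hy, hiy])]
      have := row_eq A i
      have := row_eq B i
      omega
    · have e : (univ.filter fun z => c z = q ∧ w z = true) =
          univ.filter fun z => c z = q ∧ A.1 i z = true := by
        ext z
        rcases eq_or_ne z x with rfl | hzx
        · simp [hx, Ne.symm hq1]
        rcases eq_or_ne z y with rfl | hzy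
        · simp [hy, Ne.symm hq2]
        · simp [hw, hzx, hzy]
      rw [e]
      rcases q with - | _ | _ | _ | q
      · rw [filter_zero, filter_zero]
      · exact absurd rfl hq1
      · exact absurd rfl hq2
      · change #(univ.filter fun z => c z = 3 ∧ A.1 i z = true) =
          #(univ.filter fun z => c z = 3 ∧ B.1 i z = true)
        rw [filter_three, filter_three]
      · have hemp : ∀ C : Margins r c,
            #(univ.filter fun z => c z = q + 4 ∧ C.1 i z = true) = 0 := fun C => by
          rw [card_eq_zero, filter_eq_empty_iff]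
          rintro z - ⟨hz, -⟩
          have := col_le C z
          omega
        change #(univ.filter fun z => c z = q + 4 ∧ A.1 i z = true) =
          #(univ.filter fun z => c z = q + 4 ∧ B.1 i z = true)
        rw [hemp, hemp]
  obtain ⟨B', hB', hphi⟩ := exists_row v hswap i w _ B rfl hcount
  rw [← hphi]
  -- the averaged function in terms of the two counts
  choose! h hh using fun (l : Fin 3) (a : ℕ) (C : Margins r c) (_ : ones l C = a) =>
    (⟨phi v l C, rfl⟩ : ∃ q, q = phi v l C)
  let H : Fin 3 → ℕ → ℝ := fun l a =>
    if e : ∃ C : Margins r c, ones l C = a then phi v l e.choose else 0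
  have hH : ∀ l (C : Margins r c), H l (ones l C) = phi v l C := fun l C => by
    have e : ∃ D : Margins r c, ones l D = ones l C := ⟨C, rfl⟩
    simp only [H, dif_pos e]
    exact phi_of_ones v hswap e.choose_spec
  set G : Finset β → Finset β → ℝ := fun S J =>
    H (i + 1) #(J.filter fun z => c z = 1) + H (i + 2) #((S \ J).filter fun z => c z = 1) with hG
  have havg : ∀ C : Margins r c, μ * phi v i C =
      (∑ J ∈ (free c (C.1 i)).powersetCard
          #((free c (C.1 i)).filter fun z => C.1 (i + 1) z = true), G (free c (C.1 i)) J) /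
        #((free c (C.1 i)).powersetCard
          #((free c (C.1 i)).filter fun z => C.1 (i + 1) z = true)) := fun C => by
    rw [heq, cavg]
    have e := sum_fib C i fun a b => H (i + 1) a + H (i + 2) b
    have e1 := sum_fib C i fun _ _ => (1 : ℝ)
    simp only [hH] at e
    simp only [sum_const, nsmul_one] at e1
    rw [e, e1]
  rw [← abs_of_pos (zero_lt_one.trans hμ), ← abs_mul, mul_sub, havg, havg, hB']
  set M := free c (A.1 i) with hM
  set U := free c w with hU
  have hxU : x ∉ U := by simp [hU, free, hw, hx]
  have hyU : y ∉ U := by simp [hU, free, hw, hy, hxy.symm]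
  have hMU : M = insert x (insert y U) := by
    ext z
    rcases eq_or_ne z x with rfl | hzx
    · simp [hM, free, hix, hx]
    rcases eq_or_ne z y with rfl | hzy
    · simp [hM, free, hiy, hy]
    · simp [hM, hU, free, hw, hzx, hzy]
  set mA := #(M.filter fun z => A.1 (i + 1) z = true) with hmA
  set m := #(U.filter fun z => B'.1 (i + 1) z = true) with hm
  have hmm : mA = m + 1 := by
    have split : ∀ C : Margins r c, r (i + 1) =
        #((free c (C.1 i)).filter fun z => C.1 (i + 1) z = true) +
          #(univ.filter fun z => c z = (C.1 i z).toNat + 2) := fun C => by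
      rw [← C.2.1, ← card_union_of_disjoint]
      · refine congrArg Finset.card ?_
        ext z
        have h := col_eq C i z
        simp only [free, mem_union, mem_filter, mem_univ, true_and]
        cases h1 : C.1 (i + 1) z <;> cases h2 : C.1 (i + 2) z <;> simp [h1, h2] at h ⊢ <;> omega
      · simp only [disjoint_left, free, mem_filter, mem_univ, true_and]
        intro z hz; omega
    have s1 := split A
    have s2 := split B'
    rw [hB', ← hU] at s2
    rw [← hM] at s1
    have e : (univ.filter fun z => c z = (w z).toNat + 2) =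
        insert y (univ.filter fun z => c z = (A.1 i z).toNat + 2) := by
      ext z
      rcases eq_or_ne z x with rfl | hzx
      · simp [hw, hx, hxy]
      rcases eq_or_ne z y with rfl | hzy
      · simp [hw, hzx, hy]
      · simp [hw, hzx, hzy]
    rw [e, card_insert_of_notMem (by simp [hy, hiy])] at s2
    omega
  rw [hmm, abs_sub_comm, hMU]
  have hfeasA : ∀ J ∈ M.powersetCard (m + 1), ∃ C : Margins r c,
      ones (i + 1) C = #(J.filter fun z => c z = 1) ∧
      ones (i + 2) C = #((M \ J).filter fun z => c z = 1) := fun J hJ => by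
    by_contra hno
    have e := sum_fib A i fun a b =>
      if a = #(J.filter fun z => c z = 1) ∧ b = #((M \ J).filter fun z => c z = 1) then 1 else 0
    rw [← hM, ← hmA, hmm, sum_eq_zero fun C _ => if_neg fun hC => hno ⟨C, hC.1, hC.2⟩] at e
    have := (sum_eq_zero_iff_of_nonneg fun K _ => by split_ifs <;> norm_num).1 e.symm J hJ
    simp at this
  have hfeasB : ∀ J ∈ U.powersetCard m, ∃ C : Margins r c,
      ones (i + 1) C = #(J.filter fun z => c z = 1) ∧
      ones (i + 2) C = #((U \ J).filter fun z => c z = 1) := fun J hJ => by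
    by_contra hno
    have e := sum_fib B' i fun a b =>
      if a = #(J.filter fun z => c z = 1) ∧ b = #((U \ J).filter fun z => c z = 1) then 1 else 0
    rw [hB', ← hU, ← hm, sum_eq_zero fun C _ => if_neg fun hC => hno ⟨C, hC.1, hC.2⟩] at e
    have := (sum_eq_zero_iff_of_nonneg fun K _ => by split_ifs <;> norm_num).1 e.symm J hJ
    simp at this
  have hclose : ∀ J ∈ M.powersetCard (m + 1), ∀ K ∈ U.powersetCard m,
      #(K.filter fun z => c z = 1) ≤ #(J.filter fun z => c z = 1) →
      #(J.filter fun z => c z = 1) ≤ #(K.filter fun z => c z = 1) + 1 →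
      |G M J - G U K| ≤ α := by
    intro J hJ K hK h1 h2
    obtain ⟨C, hC1, hC2⟩ := hfeasA J hJ
    obtain ⟨D, hD1, hD2⟩ := hfeasB K hK
    have hM1 : #(M.filter fun z => c z = 1) = #(U.filter fun z => c z = 1) + 1 := by
      rw [hMU, filter_insert, if_pos hx, filter_insert, if_neg (by omega),
        card_insert_of_notMem (by simp [hxU])]
    have tot : ∀ S T : Finset β, T ⊆ S → #(T.filter fun z => c z = 1) +
        #((S \ T).filter fun z => c z = 1) = #(S.filter fun z => c z = 1) := fun S T hTS => by
      rw [← card_union_of_disjoint (disjoint_sdiff.mono (filter_subset _ _) (filter_subset _ _)),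
        ← filter_union, union_sdiff_of_subset hTS]
    have t1 := tot M J (mem_powersetCard.1 hJ).1
    have t2 := tot U K (mem_powersetCard.1 hK).1
    simp only [hG, ← hC1, ← hC2, ← hD1, ← hD2, hH]
    rw [← hC1] at h1 h2 t1
    rw [← hC2] at t1
    rw [← hD1] at h1 h2 t2
    rw [← hD2] at t2
    rcases eq_or_ne (ones (i + 1) C) (ones (i + 1) D) with e | e
    · rw [phi_of_ones v hswap e]
      simpa using hbd (i + 2) D C (by omega)
    · rw [phi_of_ones v hswap (show ones (i + 2) C = ones (i + 2) D by omega)]
      simpa using hbd (i + 1) D C (by omega)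
  rw [hMU] at hclose
  refine abs_avg_sub_avg_le hxy hxU hyU ((card_filter_le _ _ : m ≤ #U))
    (fun J hJ z hz => ?_) (fun K hK => ?_) fun K hKU hKc z hz => ?_
  · obtain ⟨hJU, hJc⟩ := mem_powersetCard.1 hJ
    refine hclose J (mem_powersetCard.2
        ⟨hJU.trans ((subset_insert _ _).trans (subset_insert _ _)), hJc⟩) _
      (mem_powersetCard.2 ⟨(erase_subset _ _).trans hJU, by rw [card_erase_of_mem hz, hJc]; omega⟩)
      (card_le_card (filter_subset_filter _ (erase_subset _ _))) ?_
    rw [filter_erase]
    have := (J.filter fun u => c u = 1).pred_card_le_card_erase (a := z)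
    omega
  · obtain ⟨hKU, hKc⟩ := mem_powersetCard.1 hK
    constructor
    · refine hclose _ (mem_powersetCard.2 ⟨insert_subset_insert _
          (hKU.trans (subset_insert _ _)), by rw [card_insert_of_notMem fun h => hxU (hKU h), hKc]⟩)
        K hK (card_le_card (filter_subset_filter _ (subset_insert _ _))) ?_
      rw [filter_insert, if_pos hx]
      exact card_insert_le _ _
    · refine hclose _ (mem_powersetCard.2 ⟨insert_subset
          (mem_insert_of_mem (mem_insert_self _ _))
          (hKU.trans ((subset_insert _ _).trans (subset_insert _ _))),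
          by rw [card_insert_of_notMem fun h => hyU (hKU h), hKc]⟩)
        K hK ?_ ?_ <;> rw [filter_insert, if_neg (by omega)] <;> omega
  · obtain ⟨hzU, hzK⟩ := mem_sdiff.1 hz
    have hxK : x ∉ insert y K := fun h =>
      (mem_insert.1 h).elim hxy fun h => hxU (hKU h)
    have eJ : #((insert x (insert y K)).filter fun u => c u = 1) =
        #(K.filter fun u => c u = 1) + 1 := by
      rw [filter_insert, if_pos hx, filter_insert, if_neg (by omega),
        card_insert_of_notMem fun h => hxU (hKU (filter_subset _ _ h))]
    have eK := card_le_card (filter_subset_filter (fun u => c u = 1) (subset_insert z K))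
    have eK' : #((insert z K).filter fun u => c u = 1) ≤ #(K.filter fun u => c u = 1) + 1 := by
      rw [filter_insert]
      split_ifs
      · exact card_insert_le _ _
      · omega
    refine hclose _ (mem_powersetCard.2 ⟨insert_subset_insert _ (insert_subset_insert _ hKU),
        by rw [card_insert_of_notMem hxK, card_insert_of_notMem fun h => hyU (hKU h)]; omega⟩) _
      (mem_powersetCard.2 ⟨insert_subset hzU hKU, by rw [card_insert_of_notMem hzK]; omega⟩) ?_ ?_
    all_goals omega

/-- An eigenfunction with mean zero and eigenvalue above `2` vanishes. -/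
lemma eq_zero_of_eigen {lam : ℝ} (hlam : 2 < lam) (hsum : ∑ A, v A = 0)
    (hev : ∀ A, ∑ l, phi v l A = lam * v A) : v = 0 := by
  have heq : ∀ i A, (lam - 1) * phi v i A =
      cavg (rowOf i) (fun B => phi v (i + 1) B + phi v (i + 2) B) A := fun i A => by
    have e1 : cavg (rowOf i) (fun B => ∑ l, phi v l B) A = lam * phi v i A := by
      simp only [hev]
      rw [cavg, ← mul_sum, mul_div_assoc]
      rfl
    have e2 : cavg (rowOf i) (fun B => ∑ l, phi v l B) A =
        cavg (rowOf i) (phi v i) A +
          cavg (rowOf i) (fun B => phi v (i + 1) B + phi v (i + 2) B) A := by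
      simp only [cavg, ← add_div, ← sum_add_distrib, sum_three i]
    have e3 : cavg (rowOf i) (phi v i) A = phi v i A := cavg_cavg _ v A
    linarith
  have hμ : 1 < lam - 1 := by linarith
  have hswap := phi_colSwap v hμ heq
  have hstep := phi_succ v hμ heq hswap
  have hconst : ∀ (n : ℕ) (i : Fin 3) (A B : Margins r c), ones i A + n = ones i B →
      phi v i B = phi v i A := by
    intro n
    induction n with
    | zero => exact fun i A B h => (phi_of_ones v hswap (by omega)).symm
    | succ n ih =>
      intro i A B h
      obtain ⟨A', hA'⟩ := exists_step (A := A) (B := B) (i := i) (by omega)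
      rw [ih i A' B (by omega), hstep i A A' hA']
  have hconst' : ∀ i A B, phi v i B = phi v i A := fun i A B => by
    rcases le_total (ones i A) (ones i B) with h | h
    · exact hconst (ones i B - ones i A) i A B (by omega)
    · exact (hconst (ones i A - ones i B) i B A (by omega)).symm
  have hv : ∀ A B, v A = v B := fun A B => by
    have : lam * v A = lam * v B := by
      rw [← hev, ← hev]
      exact sum_congr rfl fun l _ => hconst' l B A
    exact mul_left_cancel₀ (by linarith) this
  funext A
  rw [sum_congr rfl fun B _ => hv B A, sum_const, nsmul_eq_mul] at hsum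
  exact (mul_eq_zero.1 hsum).resolve_left
    (Nat.cast_ne_zero.2 (card_pos.2 ⟨A, mem_univ A⟩).ne')

end ThreeRow

open ThreeRow

/-- The three-row lemma. -/
theorem three_row {β : Type*} [Fintype β] (r : Fin 3 → ℕ) (c : β → ℕ) (f : Margins r c → ℝ) :
    tvar f ≤ ∑ l : Fin 3, cvar (fun A : Margins r c => A.1 l) f := by
  have hav : ∀ (l : Fin 3) (h : Margins r c → ℝ) (A : Margins r c),
      cavg (rowOf l) h A = ∑ B, (if rowOf l B = rowOf l A then
        ((#(fib (rowOf l) A) : ℝ))⁻¹ else 0) * h B := fun l h A => by
    simp only [cavg, fib, sum_filter, div_eq_inv_mul, mul_sum]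
    refine sum_congr rfl fun B _ => ?_
    split_ifs <;> simp
  set N : ℝ := (Fintype.card (Margins r c) : ℝ) with hN
  have hall : ∀ (h : Margins r c → ℝ) (A : Margins r c),
      cavg (fun _ : Margins r c => ()) h A = (∑ B, h B) / N := fun h A => by
    simp [cavg, fib, hN]
  let G : Matrix (Margins r c) (Margins r c) ℝ := fun A B =>
    (∑ l, if rowOf l B = rowOf l A then ((#(fib (rowOf l) A) : ℝ))⁻¹ else 0) - N⁻¹
  have hmul : ∀ (h : Margins r c → ℝ) (A : Margins r c),
      G.mulVec h A = ∑ l, cavg (rowOf l) h A - (∑ B, h B) / N := fun h A => by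
    simp only [Matrix.mulVec, dotProduct, G, sub_mul, sum_mul, sum_sub_distrib, hav]
    rw [sum_comm, ← mul_sum, div_eq_inv_mul]
  have hsym : ∀ A B, G A B = G B A := fun A B => by
    simp only [G]
    refine congrArg (· - N⁻¹) (sum_congr rfl fun l _ => ?_)
    by_cases h : rowOf l B = rowOf l A
    · rw [if_pos h, if_pos h.symm, fib_congr _ h]
    · rw [if_neg h, if_neg (Ne.symm h)]
  set M : Matrix (Margins r c) (Margins r c) ℝ := (2 : ℝ) • 1 - G with hMdef
  have hH : M.IsHermitian := by
    rw [Matrix.IsHermitian]
    ext A B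
    simp [hMdef, Matrix.one_apply, hsym A B, eq_comm]
  have hpsd : M.PosSemidef := by
    rw [hH.posSemidef_iff_eigenvalues_nonneg]
    intro j
    by_contra hj
    rw [Pi.zero_apply, not_le] at hj
    set v : Margins r c → ℝ := ⇑(hH.eigenvectorBasis j) with hvdef
    have hv : M.mulVec v = hH.eigenvalues j • v := hH.mulVec_eigenvectorBasis j
    set lam := 2 - hH.eigenvalues j with hlam
    have hGv : ∀ A, G.mulVec v A = lam * v A := fun A => by
      have h1 := congrFun hv A
      simp only [hMdef, Matrix.sub_mulVec, Matrix.smul_mulVec, Matrix.one_mulVec, Pi.sub_apply,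
        Pi.smul_apply, smul_eq_mul] at h1
      rw [hlam]; linarith
    have hcardpos : 0 < N := by
      rw [hN]; exact_mod_cast Fintype.card_pos_iff.2 ⟨j⟩
    have hsum : ∑ A, v A = 0 := by
      have h1 : ∑ A, G.mulVec v A = 3 * ∑ A, v A - ∑ A, v A := by
        simp only [hmul, sum_sub_distrib, sum_const, card_univ, nsmul_eq_mul]
        rw [sum_comm]
        simp only [sum_cavg, sum_const, card_univ, Fintype.card_fin, nsmul_eq_mul, ← hN]
        rw [mul_div_cancel₀ _ hcardpos.ne']
        norm_num
      simp only [hGv, ← mul_sum] at h1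
      have : (lam - 2) * ∑ A, v A = 0 := by linarith
      exact (mul_eq_zero.1 this).resolve_left (by rw [hlam]; linarith)
    have h0 := eq_zero_of_eigen v (lam := lam) (by rw [hlam]; linarith) hsum fun A => by
      have h1 := hGv A
      rw [hmul, hsum, zero_div, sub_zero] at h1
      exact h1
    exact hH.eigenvectorBasis.orthonormal.ne_zero j (by ext A; exact congrFun h0 A)
  have hq : (0 : ℝ) ≤ ∑ A, f A * M.mulVec f A := by
    simpa [dotProduct] using hpsd.dotProduct_mulVec_nonneg f
  simp only [hMdef, Matrix.sub_mulVec, Matrix.smul_mulVec, Matrix.one_mulVec, Pi.sub_apply,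
    Pi.smul_apply, smul_eq_mul, hmul] at hq
  simp only [tvar, cvar_eq, sum_sub_distrib, sum_const, card_univ, Fintype.card_fin,
    nsmul_eq_mul, hall]
  simp only [mul_sub, sum_sub_distrib, mul_sum] at hq
  rw [sum_comm (f := fun A l => f A * cavg (rowOf l) f A)] at hq
  have e : ∑ A, f A * (2 * f A) = 2 * ∑ A, f A ^ 2 := by
    rw [mul_sum]; exact sum_congr rfl fun A _ => by ring
  rw [e] at hq
  push_cast
  change _ ≤ 3 * ∑ A, f A ^ 2 - ∑ l, ∑ A, f A * cavg (rowOf l) f A
  linarith

end Vale.Agent.P335
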