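import Vale.Agent.P335.Graph
import Vale.Agent.P335.Cond
import Vale.Agent.P335.MatDefs
import Vale.Agent.P335.Three

/-!
# P335: three vertices of a graph as three rows of a matrix

Fix the edges avoiding a set `T` of three vertices. The graphs with the given degrees are then the
zero-one matrices with three rows, a column for each vertex outside `T` and one further column for
the triangle on `T` (row `a` holds a one there iff the edge opposite `a` is absent). Resampling the
exclusive neighbours of two vertices of `T` is resampling two rows.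
-/

open Finset
open scoped Classical

namespace Vale.Agent.P335

variable {n : ℕ}

variable {d : Fin n → ℕ}

/-- The adjacencies avoiding `T`. -/
def keyT (T : Finset (Fin n)) (G : Rz d) : Fin n → Fin n → Prop :=
  fun x y => x ∉ T ∧ y ∉ T ∧ G.1.Adj x y

theorem keyT_eq_iff {T : Finset (Fin n)} {G H : Rz d} :
    keyT T H = keyT T G ↔ ∀ x y, x ∉ T → y ∉ T → (H.1.Adj x y ↔ G.1.Adj x y) := by
  simp only [funext_iff, keyT, eq_iff_iff, and_congr_right_iff]

/-- With the degrees fixed, the key is the adjacency not crossing the boundary of `p`. -/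
theorem key_iff_adj {p : Finset (Fin n)} {G H : Rz d} :
    key p G = key p H ↔ ∀ u v, (u ∈ p ↔ v ∈ p) → (G.1.Adj u v ↔ H.1.Adj u v) := by
  rw [key_eq_iff]
  refine ⟨fun h u v huv => ind_eq_iff.1 (h.1 u v huv), fun h => ⟨fun u v huv =>
    ind_eq_iff.2 (h u v huv), fun z => ?_⟩⟩
  by_cases hz : z ∈ p
  · exact congrArg card (filter_congr fun a ha => h a z (iff_of_true ha hz))
  · have hG := sum_ind G z
    have hH := sum_ind H z
    rw [← sum_add_sum_compl p] at hG hH
    have e : ∑ w ∈ pᶜ, ind G.1 z w = ∑ w ∈ pᶜ, ind H.1 z w :=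
      sum_congr rfl fun w hw => ind_eq_iff.2 (h z w (iff_of_false hz (mem_compl.1 hw)))
    have e2 : ∀ K : Rz d, cnt p K.1 z = ∑ w ∈ p, ind K.1 z w := fun K => by
      rw [cnt, card_filter]
      exact sum_congr rfl fun w _ => by rw [ind_comm]; rfl
    rw [e2 G, e2 H]
    omega

theorem keyT_of_key {p T : Finset (Fin n)} (hp : p ⊆ T) {G H : Rz d}
    (h : key p H = key p G) : keyT T H = keyT T G :=
  keyT_eq_iff.2 fun x y hx hy => key_iff_adj.1 h x y
    (iff_of_false (fun h => hx (hp h)) fun h => hy (hp h))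

section three

variable {T : Finset (Fin n)} (v : Fin 3 → Fin n)

/-- The three rows of a graph: the outside neighbours and the opposite non-edge. -/
noncomputable def rowsOf (G : SimpleGraph (Fin n)) :
    Fin 3 → Option {z : Fin n // z ∉ T} → Bool :=
  fun j o => match o with
    | some z => decide (G.Adj (v j) z.1)
    | none => !decide (G.Adj (v (j + 1)) (v (j + 2)))

/-- The graph with given rows and given edges outside `T`. -/
def graphOf (A : SimpleGraph (Fin n)) (a : Fin 3 → Option {z : Fin n // z ∉ T} → Bool) :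
    SimpleGraph (Fin n) :=
  SimpleGraph.fromRel fun x y =>
    (∃ j z, x = v j ∧ y = z.1 ∧ a j (some z) = true) ∨
      (∃ j, x = v (j + 1) ∧ y = v (j + 2) ∧ a j none = false) ∨
      (x ∉ T ∧ y ∉ T ∧ A.Adj x y)

variable {v} (hv : Function.Injective v) (hT : ∀ x, x ∈ T ↔ ∃ j, v j = x)
include hv hT

theorem deg_out (G : SimpleGraph (Fin n)) (z : {z : Fin n // z ∉ T}) :
    (G.neighborSet z.1).ncard = #(univ.filter fun y => y ∉ T ∧ G.Adj z.1 y) +
      ∑ j, (rowsOf (T := T) v G j (some z)).toNat := by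
  have hT' : T = univ.image v := by ext x; simp [hT x]
  have e : G.neighborSet z.1 = ↑(univ.filter fun y => G.Adj z.1 y) := by ext; simp
  rw [e, Set.ncard_coe_finset, ← card_filter_add_card_filter_not (s := univ.filter fun y =>
    G.Adj z.1 y) (fun y => y ∉ T), filter_filter, filter_filter]
  congr 1
  · exact congrArg card (filter_congr fun y _ => and_comm)
  have e2 : (univ.filter fun y => G.Adj z.1 y ∧ ¬y ∉ T) =
      (univ.filter fun j => G.Adj z.1 (v j)).image v := by
    ext y
    simp only [not_not, mem_filter, mem_univ, true_and, mem_image, hT y]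
    constructor
    · rintro ⟨h, j, rfl⟩; exact ⟨j, h, rfl⟩
    · rintro ⟨j, h, rfl⟩; exact ⟨h, j, rfl⟩
  rw [e2, card_image_of_injective _ hv, card_filter]
  exact sum_congr rfl fun j _ => by simp [rowsOf, G.adj_comm, Bool.toNat]

theorem deg_three (G : SimpleGraph (Fin n)) (j : Fin 3) :
    (G.neighborSet (v j)).ncard + ∑ i, (rowsOf (T := T) v G i none).toNat =
      #(univ.filter fun o => rowsOf (T := T) v G j o = true) + 2 := by
  have e : G.neighborSet (v j) = ↑(univ.filter fun y => G.Adj (v j) y) := by ext; simp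
  rw [e, Set.ncard_coe_finset, card_filter, card_filter, Fintype.sum_option,
    ← sum_add_sum_compl T fun y => if G.Adj (v j) y then 1 else 0]
  have h1 : ∑ y ∈ T, (if G.Adj (v j) y then 1 else 0) =
      ∑ i, if G.Adj (v j) (v i) then 1 else 0 := by
    have hT' : T = univ.image v := by ext x; simp [hT x]
    rw [hT', sum_image hv.injOn]
  have h2 : ∑ y ∈ Tᶜ, (if G.Adj (v j) y then 1 else 0) =
      ∑ z : {z : Fin n // z ∉ T}, if rowsOf (T := T) v G j (some z) = true then 1 else 0 := by
    rw [sum_subtype (Tᶜ) (p := fun y => y ∉ T) (fun y => mem_compl)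
      (fun y => if G.Adj (v j) y then 1 else 0)]
    refine sum_congr rfl fun y _ => ?_
    simp [rowsOf]
  rw [h1, h2]
  have h01 := G.adj_comm (v 0) (v 1)
  have h02 := G.adj_comm (v 0) (v 2)
  have h12 := G.adj_comm (v 1) (v 2)
  fin_cases j <;>
    simp only [Fin.sum_univ_three, rowsOf] <;>
    by_cases a01 : G.Adj (v 0) (v 1) <;> by_cases a02 : G.Adj (v 0) (v 2) <;>
      by_cases a12 : G.Adj (v 1) (v 2) <;> simp_all <;> omega

omit hT in
theorem graphOf_cross (A : SimpleGraph (Fin n)) (a) (hvT : ∀ j, v j ∈ T) (j : Fin 3)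
    (z : {z : Fin n // z ∉ T}) :
    (graphOf v A a).Adj (v j) z.1 ↔ a j (some z) = true := by
  have hne : ∀ i, v i ≠ z.1 := fun i h => z.2 (h ▸ hvT i)
  simp only [graphOf, SimpleGraph.fromRel_adj]
  constructor
  · rintro ⟨-, (⟨i, w, h1, h2, h⟩ | ⟨i, -, h2, -⟩ | ⟨h, -⟩) |
      (⟨i, w, h1, -⟩ | ⟨i, h1, -⟩ | ⟨-, h, -⟩)⟩
    · rwa [hv h1, Subtype.ext h2]
    · exact absurd h2.symm (hne _)
    · exact absurd (hvT j) h
    · exact absurd h1.symm (hne _)
    · exact absurd h1.symm (hne _)
    · exact absurd (hvT j) h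
  · exact fun h => ⟨hne j, Or.inl (Or.inl ⟨j, z, rfl, rfl, h⟩)⟩

omit hT in
theorem graphOf_inner (A : SimpleGraph (Fin n)) (a) (hvT : ∀ j, v j ∈ T) (j : Fin 3) :
    (graphOf (T := T) v A a).Adj (v (j + 1)) (v (j + 2)) ↔ a j none = false := by
  simp only [graphOf, SimpleGraph.fromRel_adj]
  constructor
  · rintro ⟨-, (⟨i, w, -, h2, -⟩ | ⟨i, h1, -, h⟩ | ⟨h, -⟩) |
      (⟨i, w, -, h2, -⟩ | ⟨i, h1, h2, -⟩ | ⟨h, -⟩)⟩
    · exact absurd (h2 ▸ hvT _) w.2
    · rwa [add_right_cancel (hv h1)]
    · exact absurd (hvT _) h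
    · exact absurd (h2 ▸ hvT _) w.2
    · have e1 := hv h1
      have e2 := hv h2
      have key' : ∀ j i : Fin 3, j + 1 = i + 2 → j + 2 = i + 1 → False := by decide
      first | exact (key' _ _ e1 e2).elim | exact (key' _ _ e2 e1).elim
    · exact absurd (hvT _) h
  · refine fun h => ⟨fun e => ?_, Or.inl (Or.inr (Or.inl ⟨j, rfl, rfl, h⟩))⟩
    have key' : ∀ j : Fin 3, j + 1 ≠ j + 2 := by decide
    exact key' j (hv e)

omit hv hT in
theorem graphOf_out (A : SimpleGraph (Fin n)) (a) (hvT : ∀ j, v j ∈ T) {x y : Fin n}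
    (hx : x ∉ T) (hy : y ∉ T) : (graphOf (T := T) v A a).Adj x y ↔ A.Adj x y := by
  simp only [graphOf, SimpleGraph.fromRel_adj]
  constructor
  · rintro ⟨-, (⟨i, w, h1, -⟩ | ⟨i, h1, -⟩ | ⟨-, -, h⟩) |
      (⟨i, w, h1, -⟩ | ⟨i, h1, -⟩ | ⟨-, -, h⟩)⟩
    · exact absurd (h1 ▸ hvT _) hx
    · exact absurd (h1 ▸ hvT _) hx
    · exact h
    · exact absurd (h1 ▸ hvT _) hy
    · exact absurd (h1 ▸ hvT _) hy
    · exact h.symm
  · exact fun h => ⟨h.ne, Or.inl (Or.inr (Or.inr ⟨hx, hy, h⟩))⟩

omit hv in
/-- A graph is determined by its rows and the adjacencies avoiding `T`. -/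
theorem graph_ext {G H : SimpleGraph (Fin n)}
    (hoff : ∀ x y, x ∉ T → y ∉ T → (G.Adj x y ↔ H.Adj x y))
    (hro : rowsOf (T := T) v G = rowsOf v H) : G = H := by
  have hz : ∀ j (z : {z : Fin n // z ∉ T}), G.Adj (v j) z.1 ↔ H.Adj (v j) z.1 := fun j z => by
    simpa [rowsOf] using congrFun (congrFun hro j) (some z)
  have hi : ∀ j, G.Adj (v (j + 1)) (v (j + 2)) ↔ H.Adj (v (j + 1)) (v (j + 2)) := fun j => by
    simpa [rowsOf] using congrFun (congrFun hro j) none
  refine SimpleGraph.ext (funext fun x => funext fun y => propext ?_)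
  by_cases hx : x ∈ T <;> by_cases hy : y ∈ T
  · obtain ⟨i, rfl⟩ := (hT x).1 hx
    obtain ⟨k, rfl⟩ := (hT y).1 hy
    have three : ∀ i k : Fin 3, i = k ∨ ∃ l, (i = l + 1 ∧ k = l + 2) ∨ (i = l + 2 ∧ k = l + 1) := by
      decide
    rcases three i k with rfl | ⟨l, ⟨rfl, rfl⟩ | ⟨rfl, rfl⟩⟩
    · simp
    · exact hi l
    · rw [G.adj_comm, H.adj_comm]; exact hi l
  · obtain ⟨i, rfl⟩ := (hT x).1 hx
    exact hz i ⟨y, hy⟩
  · obtain ⟨k, rfl⟩ := (hT y).1 hy
    rw [G.adj_comm, H.adj_comm]
    exact hz k ⟨x, hx⟩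
  · exact hoff x y hx hy

end three

/-- The three-row inequality on graphs: given the edges avoiding three vertices, resampling two
of them has spectral gap at least one. -/
theorem overlap_triple {T : Finset (Fin n)} (hT : #T = 3) (f : Rz d → ℝ) :
    ∑ G, dev (keyT T) f G ^ 2 ≤ ∑ p ∈ T.powersetCard 2, cvar (key p) f := by
  obtain e : Fin 3 ≃ T := (Fintype.equivFinOfCardEq (by simp [hT])).symm
  set v : Fin 3 → Fin n := fun j => (e j).1 with hvdef
  have hv : Function.Injective v := Subtype.val_injective.comp e.injective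
  have hmem : ∀ x, x ∈ T ↔ ∃ j, v j = x := fun x =>
    ⟨fun h => ⟨e.symm ⟨x, h⟩, by simp [hvdef]⟩, by rintro ⟨j, rfl⟩; exact (e j).2⟩
  have hvT : ∀ j, v j ∈ T := fun j => (e j).2
  have hpairs : T.powersetCard 2 = (univ : Finset (Fin 3)).image fun l => T.erase (v l) := by
    symm
    refine eq_of_subset_of_card_le (fun p hp => ?_) ?_
    · obtain ⟨l, -, rfl⟩ := mem_image.1 hp
      simp [mem_powersetCard, erase_subset, card_erase_of_mem (hvT l), hT]
    · rw [card_powersetCard, hT, card_image_of_injOn fun a _ b _ h => hv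
        (erase_injOn T (hvT a) (hvT b) h)]
      simp
  rw [hpairs, sum_image fun a _ b _ h => hv (erase_injOn T (hvT a) (hvT b) h)]
  simp only [cvar_eq_dev]
  rw [sum_comm, sum_fib (keyT T) fun G => dev (keyT T) f G ^ 2,
    sum_fib (keyT T) fun G => ∑ l : Fin 3, dev (key (T.erase (v l))) f G ^ 2]
  refine sum_le_sum fun A _ => div_le_div_of_nonneg_right ?_ (Nat.cast_nonneg _)
  rw [sum_comm (s := fib (keyT T) A)]
  have hdeg : ∀ (G : Rz d) x, (G.1.neighborSet x).ncard = d x := fun G x =>
    (mem_filter.1 G.2).2 x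
  set c' : Option {z : Fin n // z ∉ T} → ℕ := fun o => ∑ j, (rowsOf v A.1 j o).toNat with hc
  set r' : Fin 3 → ℕ := fun j => #(univ.filter fun o => rowsOf (T := T) v A.1 j o = true) with hr
  have hb : ∀ b : Bool, (if b = true then 1 else 0) = b.toNat := by decide
  have hrows : ∀ a : Margins r' c', rowsOf v (graphOf v A.1 a.1) = a.1 := fun a => by
    funext j o
    rcases o with _ | z
    · simp only [rowsOf, graphOf_inner hv A.1 a.1 hvT j]
      cases a.1 j none <;> simp
    · simp only [rowsOf, graphOf_cross hv A.1 a.1 hvT j z]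
      cases a.1 j (some z) <;> simp
  have hcol : ∀ (a : Margins r' c') o, ∑ j, (a.1 j o).toNat = c' o := fun a o => by
    rw [← a.2.2 o, card_filter]
    exact sum_congr rfl fun j _ => (hb _).symm
  have hok : ∀ a : Margins r' c', graphOf v A.1 a.1 ∈ realisations d := fun a => by
    simp only [realisations, mem_filter, mem_univ, true_and]
    intro x
    by_cases hx : x ∈ T
    · obtain ⟨j, rfl⟩ := (hmem x).1 hx
      have h1 := deg_three hv hmem (graphOf v A.1 a.1) j
      have h2 := deg_three hv hmem A.1 j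
      rw [hrows a, hcol a none, a.2.1 j] at h1
      simp only [← hdeg A (v j), hc, hr] at h1 h2 ⊢
      omega
    · have h1 := deg_out hv hmem (graphOf v A.1 a.1) ⟨x, hx⟩
      have h2 := deg_out hv hmem A.1 ⟨x, hx⟩
      rw [hrows a, hcol a (some ⟨x, hx⟩)] at h1
      have e1 : (univ.filter fun y => y ∉ T ∧ (graphOf v A.1 a.1).Adj x y) =
          univ.filter fun y => y ∉ T ∧ A.1.Adj x y :=
        filter_congr fun y _ => and_congr_right fun hy => graphOf_out A.1 a.1 hvT hx hy
      simp only [e1, ← hdeg A x, hc] at h1 h2 ⊢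
      omega
  set ψ : Margins r' c' → Rz d := fun a => ⟨graphOf v A.1 a.1, hok a⟩ with hψdef
  have hψ : Function.Injective ψ := fun a b h => Subtype.ext <| by
    rw [← hrows a, ← hrows b]
    exact congrArg (fun G : Rz d => rowsOf v G.1) h
  have hone : ∀ a, keyT T (ψ a) = keyT T A := fun a =>
    keyT_eq_iff.2 fun x y hx hy => graphOf_out A.1 a.1 hvT hx hy
  have hrange : ∀ G, keyT T G = keyT T A ↔ ∃ a, ψ a = G := by
    intro G
    refine ⟨fun h => ?_, by rintro ⟨a, rfl⟩; exact hone a⟩
    have hout : ∀ z, ∑ j, (rowsOf v G.1 j (some z)).toNat = c' (some z) := fun z => by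
      have h1 := deg_out hv hmem G.1 z
      have h2 := deg_out hv hmem A.1 z
      have e1 : (univ.filter fun y => y ∉ T ∧ G.1.Adj z.1 y) =
          univ.filter fun y => y ∉ T ∧ A.1.Adj z.1 y :=
        filter_congr fun y _ => and_congr_right fun hy => keyT_eq_iff.1 h z.1 y z.2 hy
      simp only [e1, hdeg, hc] at h1 h2 ⊢
      omega
    have htot : ∀ M : Fin 3 → Option {z : Fin n // z ∉ T} → Bool,
        ∑ j, #(univ.filter fun o => M j o = true) =
          ∑ z, ∑ j, (M j (some z)).toNat + ∑ j, (M j none).toNat := fun M => by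
      simp only [card_filter, hb, Fintype.sum_option, sum_add_distrib]
      rw [sum_comm, add_comm]
    have hnone : ∑ j, (rowsOf (T := T) v G.1 j none).toNat = c' none := by
      have t1 := htot (rowsOf v G.1)
      have t2 := htot (rowsOf v A.1)
      rw [sum_congr rfl fun z _ => hout z] at t1
      have g0 := deg_three hv hmem G.1 0; have g1 := deg_three hv hmem G.1 1
      have g2 := deg_three hv hmem G.1 2
      have a0 := deg_three hv hmem A.1 0; have a1 := deg_three hv hmem A.1 1
      have a2 := deg_three hv hmem A.1 2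
      simp only [hdeg, hc, Fin.sum_univ_three] at t1 t2 g0 g1 g2 a0 a1 a2 ⊢
      omega
    have hrow : ∀ j, #(univ.filter fun o => rowsOf v G.1 j o = true) = r' j := fun j => by
      have h1 := deg_three hv hmem G.1 j
      have h2 := deg_three hv hmem A.1 j
      have e : c' none = ∑ i, (rowsOf (T := T) v A.1 i none).toNat := rfl
      rw [hdeg, hnone, e] at h1
      rw [hdeg] at h2
      simp only [hr]
      exact (Nat.add_right_cancel (h1.symm.trans h2) :)
    refine ⟨⟨rowsOf v G.1, hrow, fun o => ?_⟩, Subtype.ext (graph_ext hmem (keyT_eq_iff.1 ((hone _).trans h.symm)) (hrows _))⟩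
    rw [card_filter]
    simp only [hb]
    rcases o with _ | z
    · exact hnone
    · exact hout z
  calc ∑ G ∈ fib (keyT T) A, dev (keyT T) f G ^ 2 = tvar (f ∘ ψ) :=
        cvar_of_equiv (keyT T) A ψ hψ hrange (keyT T) (fun _ => ()) (fun _ _ h => h)
          (fun a b => iff_of_true ((hone a).trans (hone b).symm) rfl) f
    _ ≤ ∑ l : Fin 3, cvar (fun a : Margins r' c' => a.1 l) (f ∘ ψ) := three_row r' c' _
    _ = ∑ l : Fin 3, ∑ G ∈ fib (keyT T) A, dev (key (T.erase (v l))) f G ^ 2 := by
        refine sum_congr rfl fun l _ => ?_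
        refine (cvar_of_equiv (keyT T) A ψ hψ hrange (key (T.erase (v l)))
          (fun a : Margins r' c' => a.1 l) (fun _ _ h => keyT_of_key (erase_subset _ _) h)
          (fun a b => ?_) f).symm
        have hl : ∀ i, v i ∈ T.erase (v l) ↔ i ≠ l := fun i => by simp [hvT, hv.eq_iff]
        have hout : ∀ z : {z : Fin n // z ∉ T}, z.1 ∉ T.erase (v l) := fun z h =>
          z.2 (erase_subset _ _ h)
        rw [key_iff_adj]
        constructor
        · intro h
          funext o
          have ea := congrFun (congrFun (hrows a) l) o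
          have eb := congrFun (congrFun (hrows b) l) o
          rw [← ea, ← eb]
          rcases o with _ | z
          · have hne : ∀ k : Fin 3, k + 1 ≠ k ∧ k + 2 ≠ k := by decide
            simp only [rowsOf, ψ] at h ⊢
            rw [decide_eq_decide.2 (h (v (l + 1)) (v (l + 2))
              (iff_of_true ((hl _).2 (hne l).1) ((hl _).2 (hne l).2)))]
          · simp only [rowsOf, ψ] at h ⊢
            exact decide_eq_decide.2 (h (v l) z.1 (iff_of_false (fun h => (hl l).1 h rfl) (hout z)))
        · intro h x y hxy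
          by_cases hx : x ∈ T
          · obtain ⟨i, rfl⟩ := (hmem x).1 hx
            by_cases hy : y ∈ T
            · obtain ⟨k, rfl⟩ := (hmem y).1 hy
              rw [hl, hl] at hxy
              have key : ∀ i k l : Fin 3, (i ≠ l ↔ k ≠ l) → i ≠ k →
                  (i = l + 1 ∧ k = l + 2) ∨ (i = l + 2 ∧ k = l + 1) := by decide
              by_cases hik : i = k
              · subst hik; simp
              rcases key i k l hxy hik with ⟨rfl, rfl⟩ | ⟨rfl, rfl⟩
              · simp only [ψ, graphOf_inner hv A.1 _ hvT, h]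
              · rw [SimpleGraph.adj_comm, (ψ b).1.adj_comm]
                simp only [ψ, graphOf_inner hv A.1 _ hvT, h]
            · rw [hl] at hxy
              have : i = l := by
                by_contra hne
                exact hout ⟨y, hy⟩ (hxy.1 hne)
              subst this
              simp only [ψ, graphOf_cross hv A.1 _ hvT i ⟨y, hy⟩, h]
          · by_cases hy : y ∈ T
            · obtain ⟨k, rfl⟩ := (hmem y).1 hy
              rw [hl] at hxy
              have : k = l := by
                by_contra hne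
                exact hout ⟨x, hx⟩ (hxy.2 hne)
              subst this
              rw [SimpleGraph.adj_comm, (ψ b).1.adj_comm]
              simp only [ψ, graphOf_cross hv A.1 _ hvT k ⟨x, hx⟩, h]
            · simp only [ψ, graphOf_out A.1 _ hvT hx hy]

end Vale.Agent.P335
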