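import Vale.Agent.P335.CurveballCore
import Vale.Agent.P335.Overlap

/-!
# P335: the Poincaré inequality of resampling pairs of vertices, unconditionally
-/

open Finset
open scoped Classical

namespace Vale.Agent.P335

variable {n : ℕ} {d : Fin n → ℕ}

/-- Resampling pairs of vertices controls the variance, for every degree vector. -/
theorem curveball_poincare (f : Rz d → ℝ) :
    tvar f ≤ ∑ p ∈ (univ : Finset (Fin n)).powersetCard 2, cvar (key p) f :=
  pairs_poincare_of_triple keyT
    (fun T p _ hp u v h => keyT_of_key (mem_powersetCard.1 hp).1 h)
    (fun T hT g => overlap_triple hT g) f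

end Vale.Agent.P335
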