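import Vale.Agent.P335.Cond

/-!
# P335: from the squared inequality of a sum of deviations to a Poincaré inequality

`sq_of_poincare`: a Poincaré inequality below a common coarser key gives `⟨f, L f⟩ ≤ ‖L f‖²` for
`L` the sum of the deviations. `tvar_le_of_sq`: this inequality and connectivity give the Poincaré
inequality on the whole space.
-/

open Finset
open scoped Classical

namespace Vale.Agent.P335

variable {Ω K ι : Type*} [Fintype Ω]

/-- The sum of the deviations is self-adjoint. -/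
theorem sum_devSum_mul (P : Finset ι) (k : ι → Ω → K) (f h : Ω → ℝ) :
    ∑ ω, (∑ p ∈ P, dev (k p) f ω) * h ω = ∑ ω, f ω * ∑ p ∈ P, dev (k p) h ω := by
  simp only [sum_mul, mul_sum]
  rw [sum_comm]
  conv_rhs => rw [sum_comm]
  exact sum_congr rfl fun p _ => sum_dev_mul _ f h

/-- The quadratic form of the sum of the deviations. -/
theorem sum_mul_devSum (P : Finset ι) (k : ι → Ω → K) (f : Ω → ℝ) :
    ∑ ω, f ω * ∑ p ∈ P, dev (k p) f ω = ∑ p ∈ P, cvar (k p) f := by
  simp only [mul_sum]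
  rw [sum_comm]
  exact sum_congr rfl fun p _ => (cvar_eq_mul _ f).symm

theorem sum_cvar_nonneg (P : Finset ι) (k : ι → Ω → K) (f : Ω → ℝ) :
    0 ≤ ∑ p ∈ P, cvar (k p) f :=
  sum_nonneg fun _ _ => sum_nonneg fun _ _ => sq_nonneg _

/-- A Poincaré inequality below a key gives the squared inequality. -/
theorem sq_of_poincare {L : Type*} (P : Finset ι) (k : ι → Ω → K) (G : Ω → L)
    (hG : ∀ p ∈ P, ∀ u v, k p v = k p u → G v = G u)
    (hP : ∀ f, ∑ ω, dev G f ω ^ 2 ≤ ∑ p ∈ P, cvar (k p) f)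
    (f : Ω → ℝ) :
    ∑ p ∈ P, cvar (k p) f ≤ ∑ ω, (∑ p ∈ P, dev (k p) f ω) ^ 2 := by
  set D := ∑ p ∈ P, cvar (k p) f with hD
  have hzero : ∀ ω, ∑ p ∈ P, dev (k p) (cavg G f) ω = 0 := fun ω => sum_eq_zero fun p hp => by
    rw [dev, cavg_of_const _ fun u v h => cavg_congr G f (hG p hp u v h), sub_self, Pi.zero_apply]
  have e : D = ∑ ω, (∑ p ∈ P, dev (k p) f ω) * dev G f ω := by
    simp only [dev_apply G, mul_sub, sum_sub_distrib]
    rw [sum_devSum_mul P k f (cavg G f)]
    simp only [hzero, mul_zero, sum_const_zero, sub_zero]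
    rw [hD, ← sum_mul_devSum]
    exact sum_congr rfl fun ω _ => mul_comm _ _
  have h1 := sum_mul_sq_le_sq_mul_sq univ (fun ω => ∑ p ∈ P, dev (k p) f ω) (dev G f)
  rw [← e] at h1
  have h2 := hP f
  have h3 : 0 ≤ ∑ ω, (∑ p ∈ P, dev (k p) f ω) ^ 2 := sum_nonneg fun _ _ => sq_nonneg _
  have h4 : 0 ≤ D := sum_cvar_nonneg P k f
  nlinarith [mul_le_mul_of_nonneg_left h2 h3]

/-- The squared inequality and connectivity give the Poincaré inequality. -/
theorem tvar_le_of_sq (P : Finset ι) (k : ι → Ω → K)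
    (hsq : ∀ f, ∑ p ∈ P, cvar (k p) f ≤ ∑ ω, (∑ p ∈ P, dev (k p) f ω) ^ 2)
    (hconn : ∀ f : Ω → ℝ, (∀ p ∈ P, ∀ u v, k p u = k p v → f u = f v) → ∀ u v, f u = f v)
    (f : Ω → ℝ) : tvar f ≤ ∑ p ∈ P, cvar (k p) f := by
  set u : Ω → ℝ := dev (fun _ => ()) f with hu
  have hJ : ∀ v : Ω → ℝ, ∀ ω, cavg (fun _ => ()) v ω = (∑ x, v x) / Fintype.card Ω :=
    fun v ω => by simp [cavg, fib]
  let L : (Ω → ℝ) → Ω → ℝ := fun v ω => ∑ p ∈ P, dev (k p) v ω
  let M : (Ω → ℝ) →ₗ[ℝ] Ω → ℝ :=
    { toFun := fun v => L v + cavg (fun _ => ()) v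
      map_add' := fun v w => by
        funext ω
        simp [L, dev, cavg, sum_add_distrib, add_div, sum_sub_distrib]
        ring
      map_smul' := fun t v => by
        funext ω
        simp [L, dev, cavg, ← mul_sum, mul_div_assoc, sum_sub_distrib]
        ring }
  have hsum0 : ∀ v : Ω → ℝ, ∑ ω, L v ω = 0 := fun v => by
    have h1 := sum_devSum_mul P k v fun _ => 1
    have h2 : ∀ p, dev (k p) (fun _ : Ω => (1 : ℝ)) = 0 := fun p => by
      rw [dev, cavg_of_const _ fun _ _ _ => rfl, sub_self]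
    simpa [h2, L] using h1
  have hsumM : ∀ v, ∑ ω, M v ω = ∑ ω, v ω := fun v => by
    have h1 := sum_cavg_mul (fun _ : Ω => ()) v fun _ => 1
    rw [cavg_of_const _ (f := fun _ : Ω => (1 : ℝ)) fun _ _ _ => rfl] at h1
    have h2 : ∑ ω, M v ω = ∑ ω, L v ω + ∑ ω, cavg (fun _ => ()) v ω := sum_add_distrib
    rw [h2, hsum0, zero_add]
    simpa using h1
  have hinj : Function.Injective M := by
    rw [← LinearMap.ker_eq_bot, LinearMap.ker_eq_bot']
    intro v hv
    have h0 : ∑ ω, v ω = 0 := by rw [← hsumM v, hv]; simp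
    have hL : ∀ ω, L v ω = 0 := fun ω => by
      have := congrFun hv ω
      simpa [M, hJ, h0] using this
    have hz := sum_mul_devSum P k v
    simp only [L] at hL
    simp only [hL, mul_zero, sum_const_zero] at hz
    have hp0 := (sum_eq_zero_iff_of_nonneg fun p _ =>
      show (0 : ℝ) ≤ cvar (k p) v from sum_nonneg fun _ _ => sq_nonneg _).1 hz.symm
    have hinv : ∀ p ∈ P, ∀ x y : Ω, k p x = k p y → v x = v y := by
      intro p hp x y hxy
      have hd := hp0 p hp
      rw [cvar_eq_dev] at hd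
      have hd' : ∀ z, v z = cavg (k p) v z := fun z => by
        have := (sum_eq_zero_iff_of_nonneg fun _ _ => sq_nonneg _).1 hd z (mem_univ _)
        rw [sq_eq_zero_iff, dev_apply, sub_eq_zero] at this
        exact this
      rw [hd' x, hd' y, cavg_congr _ _ hxy]
    have hconst := hconn v hinv
    funext ω
    have : (Fintype.card Ω : ℝ) * v ω = 0 := by
      rw [← h0, sum_congr rfl fun x _ => hconst x ω, sum_const, card_univ, nsmul_eq_mul]
    rcases mul_eq_zero.1 this with h | h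
    · have : Nonempty Ω := ⟨ω⟩
      exact absurd (Nat.cast_eq_zero.1 h) Fintype.card_ne_zero
    · simpa using h
  obtain ⟨h, hh⟩ := LinearMap.injective_iff_surjective.1 hinj u
  have hu0 : ∑ ω, u ω = 0 := by
    rw [hu]
    have h1 := sum_dev_mul (fun _ : Ω => ()) f fun _ => 1
    rw [dev, dev, cavg_of_const _ (f := fun _ : Ω => (1 : ℝ)) fun _ _ _ => rfl] at h1
    simpa [dev] using h1
  have hh0 : ∑ ω, h ω = 0 := by rw [← hsumM h, hh, hu0]
  have hLh : L h = u := by
    funext ω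
    have := congrFun hh ω
    simpa [M, hJ, hh0] using this
  set U := tvar f with hU
  set D := ∑ p ∈ P, cvar (k p) f with hD
  set X := ∑ p ∈ P, cvar (k p) h
  have e1 : ∑ p ∈ P, ∑ ω, dev (k p) h ω * dev (k p) f ω = U := by
    calc _ = ∑ ω, h ω * L f ω := by
          simp only [sum_dev_mul_dev, L, mul_sum]
          rw [sum_comm]
      _ = ∑ ω, L h ω * f ω := (sum_devSum_mul P k h f).symm
      _ = ∑ ω, f ω * dev (fun _ => ()) f ω := by rw [hLh, hu]; simp [mul_comm]
      _ = U := (cvar_eq_mul _ f).symm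
  have hXU : X ≤ U := by
    refine (hsq h).trans_eq ?_
    rw [hU, tvar, cvar_eq_dev]
    exact sum_congr rfl fun ω _ => by
      have := congrFun hLh ω
      simp only [L] at this
      rw [this]
  have hcs := sum_mul_sq_le_sq_mul_sq (P ×ˢ (univ : Finset Ω))
    (fun x => dev (k x.1) h x.2) fun x => dev (k x.1) f x.2
  simp only [sum_product] at hcs
  rw [e1] at hcs
  simp only [← cvar_eq_dev] at hcs
  have hD0 : 0 ≤ D := sum_cvar_nonneg P k f
  have hUnn : 0 ≤ U := sum_nonneg fun _ _ => sq_nonneg _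
  nlinarith [mul_le_mul_of_nonneg_right hXU hD0]

end Vale.Agent.P335
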