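import Vale.Agent.P335.Graph

/-!
# P335: resampling the edges of pairs of vertices connects the realisations
-/

open Finset
open scoped Classical

namespace Vale.Agent.P335

variable {n : ℕ} {d : Fin n → ℕ}

/-- A switch keeps the data fixed by the pair of its first and last vertex. -/
theorem key_switchMap (τ : Fin 4 ↪ Fin n) (G : Rz d) :
    key {τ 0, τ 3} ⟨switchMap τ G.1, switchMap_mem τ G.2⟩ = key {τ 0, τ 3} G := by
  by_cases h : CanSwitch τ G.1
  swap
  · congr 1
    exact Subtype.ext (switchMap_of_not h)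
  have hne : ∀ i j : Fin 4, i ≠ j → τ i ≠ τ j := fun i j h => τ.injective.ne h
  have n01 := hne 0 1 (by decide)
  have n02 := hne 0 2 (by decide)
  have n03 := hne 0 3 (by decide)
  have n12 := hne 1 2 (by decide)
  have n13 := hne 1 3 (by decide)
  have n23 := hne 2 3 (by decide)
  obtain ⟨h01, h23, h02, h13⟩ := h
  have s01 := h01.symm
  have s23 := h23.symm
  have s02 : ¬G.1.Adj (τ 2) (τ 0) := fun h => h02 h.symm
  have s13 : ¬G.1.Adj (τ 3) (τ 1) := fun h => h13 h.symm
  rw [key_eq_iff]
  refine ⟨fun u v huv => ind_eq_iff.2 ?_, fun z => ?_⟩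
  · rw [switchMap_adj ⟨h01, h23, h02, h13⟩]
    simp only [mem_insert, mem_singleton] at huv
    simp only [ne_eq, Sym2.eq_iff]
    by_cases hu0 : u = τ 0 <;> by_cases hu3 : u = τ 3 <;> by_cases hv0 : v = τ 0 <;>
      by_cases hv3 : v = τ 3 <;> simp_all
  · rw [cnt_pair n03, cnt_pair n03]
    simp only [ind, switchMap_adj ⟨h01, h23, h02, h13⟩, ne_eq, Sym2.eq_iff]
    by_cases hz1 : z = τ 1
    · subst hz1; simp_all [n01.symm, n02.symm, n03.symm, n12.symm, n13.symm, n23.symm]
    by_cases hz2 : z = τ 2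
    · subst hz2; simp_all [n01.symm, n02.symm, n03.symm, n12.symm, n13.symm, n23.symm]
    · simp [hz1, hz2, n01, n02, n03, n01.symm, n02.symm, n03.symm, n12, n13, n23, n12.symm,
        n13.symm, n23.symm]

/-- A function constant on every fibre of every pair is constant. -/
theorem pairs_connected (f : Rz d → ℝ)
    (h : ∀ p ∈ (univ : Finset (Fin n)).powersetCard 2, ∀ u v, key p u = key p v → f u = f v) :
    ∀ u v, f u = f v := by
  suffices H : ∀ (G K : SimpleGraph (Fin n)), Switches G K →
      ∀ (hG : G ∈ realisations d) (hK : K ∈ realisations d), f ⟨G, hG⟩ = f ⟨K, hK⟩ from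
    fun u v => H u.1 v.1 (switches_of_mem u.2 v.2) u.2 v.2
  intro G K hs
  induction hs with
  | refl => exact fun _ _ => rfl
  | @tail b c hb hstep ih =>
    intro hG hK
    obtain ⟨τ, rfl⟩ := hstep
    have hbm := Switches.mem hb hG
    refine (ih hG hbm).trans (Eq.symm (h {τ 0, τ 3} ?_ _ _ ?_))
    · exact mem_powersetCard.2 ⟨subset_univ _, card_pair (τ.injective.ne (by decide))⟩
    · exact key_switchMap τ ⟨b, hbm⟩

end Vale.Agent.P335
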