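import Vale.Agent.P335.Disjoint
import Vale.Agent.P335.Gap
import Vale.Agent.P335.KeyConnect

/-!
# P335: the Poincaré inequality of resampling pairs of vertices

With `L` the sum over pairs of vertices of the deviation given the key of the pair,
`⟨f, L f⟩ ≤ ‖L f‖²`: the cross terms of two pairs sharing a vertex are controlled by a Poincaré
inequality inside the triple, those of two disjoint pairs add up to a nonnegative amount.
-/

open Finset
open scoped Classical

namespace Vale.Agent.P335

variable {n : ℕ} {d : Fin n → ℕ} {L : Type*}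

theorem pairs_poincare_of_triple (kT : Finset (Fin n) → Rz d → L)
    (hfine : ∀ T p : Finset (Fin n), #T = 3 → p ∈ T.powersetCard 2 →
      ∀ u v, key p v = key p u → kT T v = kT T u)
    (htri : ∀ T : Finset (Fin n), #T = 3 → ∀ g : Rz d → ℝ,
      ∑ G, dev (kT T) g G ^ 2 ≤ ∑ p ∈ T.powersetCard 2, cvar (key p) g)
    (f : Rz d → ℝ) :
    tvar f ≤ ∑ p ∈ (univ : Finset (Fin n)).powersetCard 2, cvar (key p) f := by
  set P := (univ : Finset (Fin n)).powersetCard 2 with hPdef
  refine tvar_le_of_sq P key (fun h => ?_) pairs_connected f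
  have hP2 : ∀ p ∈ P, #p = 2 := fun p hp => (mem_powersetCard.1 hp).2
  set a : Finset (Fin n) → Finset (Fin n) → ℝ :=
    fun p q => ∑ G, dev (key p) h G * dev (key q) h G with ha
  have hsplit : ∀ Q : Finset (Finset (Fin n)), ∑ G, (∑ p ∈ Q, dev (key p) h G) ^ 2 =
      ∑ pq ∈ Q ×ˢ Q, a pq.1 pq.2 := by
    intro Q
    simp only [pow_two, sum_mul_sum, sum_product, ha]
    rw [sum_comm]
    exact sum_congr rfl fun p _ => sum_comm
  have hdiag : ∀ Q : Finset (Finset (Fin n)),
      ∑ pq ∈ (Q ×ˢ Q).filter (fun pq => pq.1 = pq.2), a pq.1 pq.2 =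
        ∑ p ∈ Q, cvar (key p) h := by
    intro Q
    rw [sum_filter, sum_product]
    refine sum_congr rfl fun p hp => ?_
    simp only [sum_ite_eq, hp, if_true, ha, cvar_eq_dev, pow_two]
  rw [hsplit, ← sum_filter_add_sum_filter_not (P ×ˢ P) (fun pq => pq.1 = pq.2), hdiag P]
  refine le_add_of_nonneg_right ?_
  rw [← sum_filter_add_sum_filter_not _ (fun pq => #(pq.1 ∪ pq.2) = 3)]
  refine add_nonneg ?_ (le_of_le_of_eq (disjoint_sum_nonneg h) ?_)
  · rw [← sum_fiberwise_of_maps_to (t := (univ : Finset (Fin n)).powersetCard 3)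
      (g := fun pq : Finset (Fin n) × Finset (Fin n) => pq.1 ∪ pq.2)
      fun pq hpq => mem_powersetCard.2 ⟨subset_univ _, (mem_filter.1 hpq).2⟩]
    refine sum_nonneg fun T hT => ?_
    have hT3 := (mem_powersetCard.1 hT).2
    have hset : (((P ×ˢ P).filter fun pq => ¬pq.1 = pq.2).filter
        fun pq => #(pq.1 ∪ pq.2) = 3).filter (fun pq => pq.1 ∪ pq.2 = T) =
        (T.powersetCard 2 ×ˢ T.powersetCard 2).filter fun pq => ¬pq.1 = pq.2 := by
      ext ⟨p, q⟩
      simp only [mem_filter, mem_product, hPdef, mem_powersetCard, subset_univ, true_and]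
      constructor
      · rintro ⟨⟨⟨⟨hp, hq⟩, hne⟩, -⟩, rfl⟩
        exact ⟨⟨⟨subset_union_left, hp⟩, subset_union_right, hq⟩, hne⟩
      · rintro ⟨⟨⟨hpT, hp⟩, hqT, hq⟩, hne⟩
        have hlt : 2 < #(p ∪ q) := by
          by_contra hle
          exact hne ((eq_of_subset_of_card_le subset_union_left (by omega)).trans
            (eq_of_subset_of_card_le subset_union_right (by omega)).symm)
        have := eq_of_subset_of_card_le (union_subset hpT hqT) (by omega)
        exact ⟨⟨⟨⟨hp, hq⟩, hne⟩, by rw [this, hT3]⟩, this⟩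
    rw [hset]
    have hb := sq_of_poincare (T.powersetCard 2) key (kT T) (fun p hp => hfine T p hT3 hp)
      (htri T hT3) h
    rw [hsplit] at hb
    have h5 := sum_filter_add_sum_filter_not (T.powersetCard 2 ×ˢ T.powersetCard 2)
      (fun pq => pq.1 = pq.2) fun pq => a pq.1 pq.2
    rw [hdiag (T.powersetCard 2)] at h5
    linarith
  · refine (sum_finset_product' _ P (fun p => pᶜ.powersetCard 2) fun pq => ?_).symm
    obtain ⟨p, q⟩ := pq
    simp only [mem_filter, mem_product, hPdef, mem_powersetCard, subset_univ, true_and]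
    constructor
    · rintro ⟨⟨⟨hp, hq⟩, hne⟩, h3⟩
      refine ⟨hp, ?_, hq⟩
      have hd : Disjoint q p := by
        refine (card_union_eq_card_add_card.1 ?_).symm
        have h4 := card_union_le p q
        have hlt : 2 < #(p ∪ q) := by
          by_contra hle
          exact hne ((eq_of_subset_of_card_le subset_union_left (by omega)).trans
            (eq_of_subset_of_card_le subset_union_right (by omega)).symm)
        omega
      exact subset_compl_iff_disjoint_right.2 hd
    · rintro ⟨hp, hs, hq⟩
      have hd : Disjoint p q := (subset_compl_iff_disjoint_right.1 hs).symm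
      refine ⟨⟨⟨hp, hq⟩, fun e => ?_⟩, ?_⟩
      · subst e
        simp [disjoint_self] at hd
        simp [hd] at hp
      · rw [card_union_of_disjoint hd]; omega

end Vale.Agent.P335
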