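import Mathlib

/-!
# P335: the switch chain on graphs with prescribed degrees

Definitions used in the statement: the realisations of a degree vector, the switch chain of the
problem, the total variation distance to the uniform law, and split degree vectors.
-/

open Finset
open scoped Classical

namespace Vale.Agent.P335

variable {n : ℕ}

/-- The simple graphs on `Fin n` whose degree at every vertex `v` is `d v`. -/
noncomputable def realisations (d : Fin n → ℕ) : Finset (SimpleGraph (Fin n)) :=
  univ.filter fun G => ∀ v, (G.neighborSet v).ncard = d v

/-- The switch of four distinct vertices `a b c e` given in this order: if `ab`, `ce` are edges and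
`ac`, `be` are not, replace the former pair of edges by the latter; otherwise change nothing. -/
noncomputable def switchMap (τ : Fin 4 ↪ Fin n) (G : SimpleGraph (Fin n)) :
    SimpleGraph (Fin n) :=
  if G.Adj (τ 0) (τ 1) ∧ G.Adj (τ 2) (τ 3) ∧ ¬G.Adj (τ 0) (τ 2) ∧ ¬G.Adj (τ 1) (τ 3) then
    SimpleGraph.fromEdgeSet ((G.edgeSet \ {s(τ 0, τ 1), s(τ 2, τ 3)}) ∪
      {s(τ 0, τ 2), s(τ 1, τ 3)})
  else G

/-- The transition probabilities of the switch chain: stay put with probability `1/2`, otherwise
make the switch of a uniformly chosen ordered tuple of four distinct vertices (which is the same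
as a uniform four-element set and a uniform ordered pair of its perfect matchings). -/
noncomputable def switchChain (n : ℕ) :
    Matrix (SimpleGraph (Fin n)) (SimpleGraph (Fin n)) ℝ :=
  Matrix.of fun G H => (if G = H then 1 / 2 else 0) +
    1 / 2 * (#(univ.filter fun τ : Fin 4 ↪ Fin n => switchMap τ G = H) : ℝ) /
      (Fintype.card (Fin 4 ↪ Fin n) : ℝ)

/-- Total variation distance between the law of the chain after `t` steps from `G` and the
uniform law on the realisations of `d`. -/
noncomputable def tvToUniform (d : Fin n → ℕ) (G : SimpleGraph (Fin n)) (t : ℕ) : ℝ :=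
  1 / 2 * ∑ H ∈ realisations d, |(switchChain n ^ t) G H - 1 / (#(realisations d) : ℝ)|

/-- A split degree vector: one of its realisations has its vertices divided into a clique `K` and
an independent set (the complement of `K`). -/
def IsSplit (d : Fin n → ℕ) : Prop :=
  ∃ G ∈ realisations d, ∃ K : Finset (Fin n),
    (∀ a ∈ K, ∀ b ∈ K, a ≠ b → G.Adj a b) ∧ ∀ a, a ∉ K → ∀ b, b ∉ K → ¬G.Adj a b

end Vale.Agent.P335
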