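import Vale.Agent.P335.Graph

/-!
# P335: a fibre of a pair key is the family of subsets of the exclusive neighbours

In the fibre of `key {a, b}` through `G₀` a graph is determined by the set of those exclusive
neighbours of `a`, `b` that are adjacent to `a`; every subset of the right size occurs, and the
switches on `a`, `b` and two exclusive neighbours are the exchanges of two elements.
-/

open Finset
open scoped Classical

namespace Vale.Agent.P335

variable {n : ℕ} {d : Fin n → ℕ}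

/-- The vertices adjacent to exactly one of `a`, `b`, these two excepted. -/
noncomputable def excl (a b : Fin n) (G : SimpleGraph (Fin n)) : Finset (Fin n) :=
  univ.filter fun z => z ∉ ({a, b} : Finset (Fin n)) ∧ cnt {a, b} G z = 1

/-- The exclusive neighbours adjacent to `a`. -/
noncomputable def side (a b : Fin n) (G₀ : Rz d) (G : SimpleGraph (Fin n)) : Finset (Fin n) :=
  (excl a b G₀.1).filter fun z => G.Adj a z

/-- The entry at `u`, `v` after giving the exclusive neighbours in `s` to `a`, the others to `b`. -/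
def newAdj (a b : Fin n) (M s : Finset (Fin n)) (u v : Fin n) : Prop :=
  (u = a ∧ v ∈ M ∧ v ∈ s) ∨ (u = b ∧ v ∈ M ∧ v ∉ s)

/-- The graph of the fibre with side `s`. -/
noncomputable def mkGraph (a b : Fin n) (G₀ : Rz d) (s : Finset (Fin n)) : SimpleGraph (Fin n) :=
  SimpleGraph.fromRel fun u v => newAdj a b (excl a b G₀.1) s u v ∨ newAdj a b (excl a b G₀.1) s v u ∨
    (G₀.1.Adj u v ∧ ¬((u ∈ ({a, b} : Finset (Fin n)) ∧ v ∈ excl a b G₀.1) ∨
      (v ∈ ({a, b} : Finset (Fin n)) ∧ u ∈ excl a b G₀.1)))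

variable {a b : Fin n}

theorem mem_excl {G : SimpleGraph (Fin n)} {z : Fin n} :
    z ∈ excl a b G ↔ z ∉ ({a, b} : Finset (Fin n)) ∧ cnt {a, b} G z = 1 := by simp [excl]

theorem excl_not_pair {G : SimpleGraph (Fin n)} {z : Fin n} (hz : z ∈ excl a b G) :
    z ∉ ({a, b} : Finset (Fin n)) := (mem_excl.1 hz).1

theorem excl_one (hab : a ≠ b) {G₀ G : Rz d} (hG : key {a, b} G = key {a, b} G₀) {z : Fin n}
    (hz : z ∈ excl a b G₀.1) : ind G.1 a z + ind G.1 b z = 1 := by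
  rw [← cnt_pair hab, (key_eq_iff.1 hG).2 z]
  exact (mem_excl.1 hz).2

theorem mkGraph_symm_iff (G₀ : Rz d) (s : Finset (Fin n)) (u v : Fin n) :
    (mkGraph a b G₀ s).Adj u v ↔ u ≠ v ∧
      (newAdj a b (excl a b G₀.1) s u v ∨ newAdj a b (excl a b G₀.1) s v u ∨
        (G₀.1.Adj u v ∧ ¬((u ∈ ({a, b} : Finset (Fin n)) ∧ v ∈ excl a b G₀.1) ∨
          (v ∈ ({a, b} : Finset (Fin n)) ∧ u ∈ excl a b G₀.1)))) := by
  simp only [mkGraph, SimpleGraph.fromRel_adj, G₀.1.adj_comm v u]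
  tauto

theorem mk_adj_a (hab : a ≠ b) (G₀ : Rz d) (s : Finset (Fin n)) {z : Fin n}
    (hz : z ∈ excl a b G₀.1) : (mkGraph a b G₀ s).Adj a z ↔ z ∈ s := by
  have hn := excl_not_pair hz
  simp only [mem_insert, mem_singleton, not_or] at hn
  rw [mkGraph_symm_iff]
  constructor
  · rintro ⟨-, (⟨-, -, h⟩ | ⟨h, -⟩) | (⟨h, -⟩ | ⟨h, -⟩) | ⟨-, h⟩⟩
    · exact h
    · exact absurd h hab
    · exact absurd h hn.1
    · exact absurd h hn.2
    · exact absurd (Or.inl ⟨by simp, hz⟩) h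
  · exact fun h => ⟨Ne.symm hn.1, Or.inl (Or.inl ⟨rfl, hz, h⟩)⟩

theorem mk_adj_b (hab : a ≠ b) (G₀ : Rz d) (s : Finset (Fin n)) {z : Fin n}
    (hz : z ∈ excl a b G₀.1) : (mkGraph a b G₀ s).Adj b z ↔ z ∉ s := by
  have hn := excl_not_pair hz
  simp only [mem_insert, mem_singleton, not_or] at hn
  rw [mkGraph_symm_iff]
  constructor
  · rintro ⟨-, (⟨h, -⟩ | ⟨-, -, h⟩) | (⟨h, -⟩ | ⟨h, -⟩) | ⟨-, h⟩⟩
    · exact absurd h hab.symm
    · exact h
    · exact absurd h hn.1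
    · exact absurd h hn.2
    · exact absurd (Or.inl ⟨by simp, hz⟩) h
  · exact fun h => ⟨Ne.symm hn.2, Or.inl (Or.inr ⟨rfl, hz, h⟩)⟩

theorem mk_adj_off (G₀ : Rz d) (s : Finset (Fin n)) {u v : Fin n}
    (h : ¬((u ∈ ({a, b} : Finset (Fin n)) ∧ v ∈ excl a b G₀.1) ∨
      (v ∈ ({a, b} : Finset (Fin n)) ∧ u ∈ excl a b G₀.1))) :
    (mkGraph a b G₀ s).Adj u v ↔ G₀.1.Adj u v := by
  rw [mkGraph_symm_iff]
  constructor
  · rintro ⟨-, h1 | h1 | ⟨h1, -⟩⟩
    · rcases h1 with ⟨rfl, hv, -⟩ | ⟨rfl, hv, -⟩ <;> exact absurd (Or.inl ⟨by simp, hv⟩) h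
    · rcases h1 with ⟨rfl, hv, -⟩ | ⟨rfl, hv, -⟩ <;> exact absurd (Or.inr ⟨by simp, hv⟩) h
    · exact h1
  · exact fun h' => ⟨h'.ne, Or.inr (Or.inr ⟨h', h⟩)⟩

/-- A graph in the fibre agrees with `G₀` outside the slots at exclusive neighbours. -/
theorem ind_eq_off (hab : a ≠ b) {G₀ G : Rz d} (hG : key {a, b} G = key {a, b} G₀) {u v : Fin n}
    (h : ¬((u ∈ ({a, b} : Finset (Fin n)) ∧ v ∈ excl a b G₀.1) ∨
      (v ∈ ({a, b} : Finset (Fin n)) ∧ u ∈ excl a b G₀.1))) :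
    ind G.1 u v = ind G₀.1 u v := by
  obtain ⟨h1, h2⟩ := key_eq_iff.1 hG
  have core : ∀ u v, u ∈ ({a, b} : Finset (Fin n)) → v ∉ ({a, b} : Finset (Fin n)) →
      v ∉ excl a b G₀.1 → ind G.1 u v = ind G₀.1 u v := by
    intro u v hu hv hx
    have e0 := cnt_pair hab G₀.1 v
    have e1 := cnt_pair hab G.1 v
    have e2 := h2 v
    have hne : cnt {a, b} G₀.1 v ≠ 1 := fun e => hx (mem_excl.2 ⟨hv, e⟩)
    have := ind_le G.1 a v
    have := ind_le G.1 b v
    have := ind_le G₀.1 a v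
    have := ind_le G₀.1 b v
    simp only [mem_insert, mem_singleton] at hu
    rcases hu with rfl | rfl <;> omega
  by_cases huv : (u ∈ ({a, b} : Finset (Fin n)) ↔ v ∈ ({a, b} : Finset (Fin n)))
  · exact h1 u v huv
  by_cases hu : u ∈ ({a, b} : Finset (Fin n))
  · have hv : v ∉ ({a, b} : Finset (Fin n)) := fun hv => huv (iff_of_true hu hv)
    exact core u v hu hv fun hx => h (Or.inl ⟨hu, hx⟩)
  · have hv : v ∈ ({a, b} : Finset (Fin n)) := by
      by_contra hv
      exact huv (iff_of_false hu hv)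
    rw [ind_comm G.1, ind_comm G₀.1]
    exact core v u hv hu fun hx => h (Or.inr ⟨hv, hx⟩)

theorem adj_eq_off (hab : a ≠ b) {G₀ G : Rz d} (hG : key {a, b} G = key {a, b} G₀) {u v : Fin n}
    (h : ¬((u ∈ ({a, b} : Finset (Fin n)) ∧ v ∈ excl a b G₀.1) ∨
      (v ∈ ({a, b} : Finset (Fin n)) ∧ u ∈ excl a b G₀.1))) :
    G.1.Adj u v ↔ G₀.1.Adj u v :=
  ind_eq_iff.1 (ind_eq_off hab hG h)

theorem adj_b_iff (hab : a ≠ b) {G₀ G : Rz d} (hG : key {a, b} G = key {a, b} G₀) {z : Fin n}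
    (hz : z ∈ excl a b G₀.1) : G.1.Adj b z ↔ ¬G.1.Adj a z := by
  have := excl_one hab hG hz
  unfold ind at this
  split_ifs at this <;> simp_all

/-- A graph of the fibre is rebuilt from its side. -/
theorem eq_mkGraph (hab : a ≠ b) {G₀ G : Rz d} (hG : key {a, b} G = key {a, b} G₀) :
    mkGraph a b G₀ (side a b G₀ G.1) = G.1 := by
  ext u v
  by_cases h : (u ∈ ({a, b} : Finset (Fin n)) ∧ v ∈ excl a b G₀.1) ∨
      (v ∈ ({a, b} : Finset (Fin n)) ∧ u ∈ excl a b G₀.1)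
  · have core : ∀ u v, u ∈ ({a, b} : Finset (Fin n)) → v ∈ excl a b G₀.1 →
        ((mkGraph a b G₀ (side a b G₀ G.1)).Adj u v ↔ G.1.Adj u v) := by
      intro u v hu hv
      simp only [mem_insert, mem_singleton] at hu
      rcases hu with rfl | rfl
      · rw [mk_adj_a hab G₀ _ hv]; simp [side, hv]
      · rw [mk_adj_b hab G₀ _ hv, adj_b_iff hab hG hv]; simp [side, hv]
    rcases h with ⟨hu, hv⟩ | ⟨hv, hu⟩
    · exact core u v hu hv
    · rw [SimpleGraph.adj_comm, G.1.adj_comm]; exact core v u hv hu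
  · rw [mk_adj_off G₀ _ h, adj_eq_off hab hG h]

theorem sum_side (G : SimpleGraph (Fin n)) (G₀ : Rz d) :
    #(side a b G₀ G) = ∑ z ∈ excl a b G₀.1, ind G a z := by
  rw [side, card_filter]; rfl

theorem card_side (hab : a ≠ b) {G₀ G : Rz d} (hG : key {a, b} G = key {a, b} G₀) :
    #(side a b G₀ G.1) = #(side a b G₀ G₀.1) := by
  have h1 := sum_ind G a
  have h2 := sum_ind G₀ a
  rw [← sum_add_sum_compl (excl a b G₀.1)] at h1 h2
  have h3 : ∑ z ∈ (excl a b G₀.1)ᶜ, ind G.1 a z = ∑ z ∈ (excl a b G₀.1)ᶜ, ind G₀.1 a z :=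
    sum_congr rfl fun z hz => ind_eq_off hab hG fun h => by
      rcases h with ⟨-, h⟩ | ⟨-, h⟩
      · exact mem_compl.1 hz h
      · exact absurd (by simp) (excl_not_pair h)
  rw [sum_side, sum_side]
  omega

theorem mkGraph_mem (hab : a ≠ b) (G₀ : Rz d) {s : Finset (Fin n)} (hs : s ⊆ excl a b G₀.1)
    (hc : #s = #(side a b G₀ G₀.1)) : mkGraph a b G₀ s ∈ realisations d := by
  set M := excl a b G₀.1 with hM
  have hoff : ∀ v : Fin n, v ∉ ({a, b} : Finset (Fin n)) → ∀ z, z ∉ ({a, b} : Finset (Fin n)) →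
      ind (mkGraph a b G₀ s) v z = ind G₀.1 v z := fun v hv z hz =>
    ind_eq_iff.2 (mk_adj_off G₀ s fun h => by
      rcases h with ⟨h, -⟩ | ⟨h, -⟩ <;> contradiction)
  have hcompl : ∀ v ∈ ({a, b} : Finset (Fin n)),
      ∑ z ∈ Mᶜ, ind (mkGraph a b G₀ s) v z = ∑ z ∈ Mᶜ, ind G₀.1 v z := fun v hv =>
    sum_congr rfl fun z hz => ind_eq_iff.2 (mk_adj_off G₀ s fun h => by
      rcases h with ⟨-, h⟩ | ⟨-, h⟩
      · exact mem_compl.1 hz h
      · exact excl_not_pair h hv)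
  have hA : ∑ z ∈ M, ind (mkGraph a b G₀ s) a z = #s := by
    have e : M.filter (fun z => z ∈ s) = s := ext fun z => by
      simp only [mem_filter]; exact ⟨fun h => h.2, fun h => ⟨hs h, h⟩⟩
    conv_rhs => rw [← e, card_filter]
    refine sum_congr rfl fun z hz => ?_
    rw [ind]
    by_cases h : z ∈ s <;> simp [mk_adj_a hab G₀ s hz, h]
  have hB : ∑ z ∈ M, ind (mkGraph a b G₀ s) b z + #s = #M := by
    rw [← hA, ← sum_add_distrib, card_eq_sum_ones]
    refine sum_congr rfl fun z hz => ?_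
    rw [ind, ind]
    by_cases h : z ∈ s <;> simp [mk_adj_a hab G₀ s hz, mk_adj_b hab G₀ s hz, h]
  have hB0 : ∑ z ∈ M, ind G₀.1 b z + #(side a b G₀ G₀.1) = #M := by
    rw [sum_side, ← sum_add_distrib, card_eq_sum_ones]
    exact sum_congr rfl fun z hz => by rw [add_comm]; exact excl_one hab rfl hz
  refine mem_of_sum_ind fun v => ?_
  rw [← sum_ind G₀ v]
  by_cases hv : v ∈ ({a, b} : Finset (Fin n))
  · rw [← sum_add_sum_compl M, ← sum_add_sum_compl M (fun z => ind G₀.1 v z), hcompl v hv]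
    simp only [mem_insert, mem_singleton] at hv
    rcases hv with rfl | rfl
    · rw [hA, hc, sum_side]
    · omega
  · rw [← sum_add_sum_compl ({a, b} : Finset (Fin n)),
      ← sum_add_sum_compl ({a, b} : Finset (Fin n)) (fun z => ind G₀.1 v z),
      sum_congr rfl fun z hz => hoff v hv z (mem_compl.1 hz), sum_pair hab, sum_pair hab]
    congr 1
    by_cases hvM : v ∈ M
    · have h0 := excl_one hab (rfl : key {a, b} G₀ = key {a, b} G₀) hvM
      rw [ind_comm G₀.1 v a, ind_comm G₀.1 v b, h0, ind_comm _ v a, ind_comm _ v b, ind, ind]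
      by_cases h : v ∈ s <;> simp [mk_adj_a hab G₀ s hvM, mk_adj_b hab G₀ s hvM, h]
    · have e : ∀ z ∈ ({a, b} : Finset (Fin n)),
          ind (mkGraph a b G₀ s) v z = ind G₀.1 v z := fun z hz =>
        ind_eq_iff.2 (mk_adj_off G₀ s fun h => by
          rcases h with ⟨h, -⟩ | ⟨-, h⟩
          · exact hv h
          · exact hvM h)
      rw [e a (by simp), e b (by simp)]

/-- The graph of the fibre with side `s`, as a realisation. -/
noncomputable def mk (a b : Fin n) (G₀ : Rz d) (s : Finset (Fin n)) : Rz d :=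
  if h : mkGraph a b G₀ s ∈ realisations d then ⟨mkGraph a b G₀ s, h⟩ else G₀

/-- The possible sides. -/
noncomputable def sides (a b : Fin n) (G₀ : Rz d) : Finset (Finset (Fin n)) :=
  (excl a b G₀.1).powersetCard #(side a b G₀ G₀.1)

theorem mk_val (hab : a ≠ b) {G₀ : Rz d} {s : Finset (Fin n)} (hs : s ∈ sides a b G₀) :
    (mk a b G₀ s).1 = mkGraph a b G₀ s := by
  obtain ⟨h1, h2⟩ := mem_powersetCard.1 hs
  have h := mkGraph_mem hab G₀ h1 h2
  rw [show mk a b G₀ s = ⟨_, h⟩ from dif_pos h]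

theorem key_mk (hab : a ≠ b) {G₀ : Rz d} {s : Finset (Fin n)} (hs : s ∈ sides a b G₀) :
    key {a, b} (mk a b G₀ s) = key {a, b} G₀ := by
  refine key_eq_iff.2 ⟨fun u v huv => ?_, fun z => ?_⟩
  · rw [mk_val hab hs]
    refine ind_eq_iff.2 (mk_adj_off G₀ s fun h => ?_)
    rcases h with ⟨h1, h2⟩ | ⟨h1, h2⟩
    · exact excl_not_pair h2 (huv.1 h1)
    · exact excl_not_pair h2 (huv.2 h1)
  · rw [mk_val hab hs, cnt_pair hab]
    by_cases hz : z ∈ excl a b G₀.1
    · rw [(mem_excl.1 hz).2, ind, ind]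
      by_cases h : z ∈ s <;> simp [mk_adj_a hab G₀ s hz, mk_adj_b hab G₀ s hz, h]
    · have e : ∀ u ∈ ({a, b} : Finset (Fin n)),
          ind (mkGraph a b G₀ s) u z = ind G₀.1 u z := fun u hu =>
        ind_eq_iff.2 (mk_adj_off G₀ s fun h => by
          rcases h with ⟨-, h⟩ | ⟨-, h⟩
          · exact hz h
          · exact excl_not_pair h hu)
      rw [e a (by simp), e b (by simp), cnt_pair hab]

theorem side_mk (hab : a ≠ b) {G₀ : Rz d} {s : Finset (Fin n)} (hs : s ∈ sides a b G₀) :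
    side a b G₀ (mk a b G₀ s).1 = s := by
  rw [mk_val hab hs]
  ext z
  simp only [side, mem_filter]
  exact ⟨fun h => (mk_adj_a hab G₀ s h.1).1 h.2,
    fun h => ⟨(mem_powersetCard.1 hs).1 h, (mk_adj_a hab G₀ s ((mem_powersetCard.1 hs).1 h)).2 h⟩⟩

theorem side_mem (hab : a ≠ b) {G₀ G : Rz d} (hG : key {a, b} G = key {a, b} G₀) :
    side a b G₀ G.1 ∈ sides a b G₀ :=
  mem_powersetCard.2 ⟨filter_subset _ _, card_side hab hG⟩

theorem mk_side (hab : a ≠ b) {G₀ G : Rz d} (hG : key {a, b} G = key {a, b} G₀) :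
    mk a b G₀ (side a b G₀ G.1) = G :=
  Subtype.ext ((mk_val hab (side_mem hab hG)).trans (eq_mkGraph hab hG))

/-- The fibre is the family of sides. -/
theorem sum_fibre (hab : a ≠ b) (G₀ : Rz d) (u : Rz d → ℝ) :
    ∑ G ∈ fib (key {a, b}) G₀, u G = ∑ s ∈ sides a b G₀, u (mk a b G₀ s) := by
  refine sum_nbij' (fun G => side a b G₀ G.1) (mk a b G₀) (fun G hG => ?_) (fun s hs => ?_)
    (fun G hG => ?_) (fun s hs => side_mk hab hs) fun G hG => ?_
  · exact side_mem hab (by simpa [fib] using hG)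
  · simpa [fib] using key_mk hab hs
  · exact mk_side hab (by simpa [fib] using hG)
  · rw [mk_side hab (by simpa [fib] using hG)]

theorem card_fibre (hab : a ≠ b) (G₀ : Rz d) :
    (#(fib (key {a, b}) G₀) : ℝ) = #(sides a b G₀) := by
  simpa using sum_fibre hab G₀ fun _ => (1 : ℝ)

theorem cavg_fibre (hab : a ≠ b) {G₀ G : Rz d} (hG : key {a, b} G = key {a, b} G₀)
    (f : Rz d → ℝ) : cavg (key {a, b}) f G =
      (∑ s ∈ sides a b G₀, f (mk a b G₀ s)) / #(sides a b G₀) := by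
  rw [cavg_congr _ f hG, cavg, sum_fibre hab, card_fibre hab]

theorem isD_iff (hab : a ≠ b) {G₀ G : Rz d} (hG : key {a, b} G = key {a, b} G₀)
    {q : Finset (Fin n)} (hq : q ⊆ ({a, b} : Finset (Fin n))ᶜ) (hq2 : #q = 2) :
    IsD {a, b} q G ↔ q ⊆ excl a b G₀.1 ∧ #(side a b G₀ G.1 ∩ q) = 1 := by
  have hcz : ∀ z, cnt {a, b} G.1 z = cnt {a, b} G₀.1 z := (key_eq_iff.1 hG).2
  have hsub : (∀ z ∈ q, cnt {a, b} G.1 z = 1) ↔ q ⊆ excl a b G₀.1 :=
    ⟨fun h z hz => mem_excl.2 ⟨mem_compl.1 (hq hz), (hcz z).symm.trans (h z hz)⟩,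
      fun h z hz => (hcz z).trans (mem_excl.1 (h hz)).2⟩
  rw [IsD, hsub]
  refine and_congr_right fun hqM => ?_
  have ha : cnt q G.1 a = #(side a b G₀ G.1 ∩ q) := by
    rw [cnt]; congr 1; ext z
    simp only [mem_filter, side, mem_inter, G.1.adj_comm z a]
    exact ⟨fun h => ⟨⟨hqM h.1, h.2⟩, h.1⟩, fun h => ⟨h.2, h.1.2⟩⟩
  have hb : cnt q G.1 b + #(side a b G₀ G.1 ∩ q) = 2 := by
    rw [← ha, cnt, cnt, card_filter, card_filter, ← sum_add_distrib, ← hq2, card_eq_sum_ones]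
    refine sum_congr rfl fun z hz => ?_
    rw [G.1.adj_comm z b, G.1.adj_comm z a]
    by_cases h : G.1.Adj a z <;> simp [adj_b_iff hab hG (hqM hz), h]
  simp only [mem_insert, mem_singleton, forall_eq_or_imp, forall_eq, ha]
  omega

theorem swapQ_mk (hab : a ≠ b) {G₀ : Rz d} {s q : Finset (Fin n)} (hs : s ∈ sides a b G₀)
    (hqM : q ⊆ excl a b G₀.1) (hq2 : #q = 2) (hc : #(s ∩ q) = 1) :
    symmDiff s q ∈ sides a b G₀ ∧ swapQ {a, b} q (mk a b G₀ s) = mk a b G₀ (symmDiff s q) := by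
  obtain ⟨hsM, hsc⟩ := mem_powersetCard.1 hs
  have hS : symmDiff s q ∈ sides a b G₀ := by
    refine mem_powersetCard.2 ⟨fun z hz => ?_, ?_⟩
    · rcases mem_symmDiff.1 hz with ⟨h, -⟩ | ⟨h, -⟩
      exacts [hsM h, hqM h]
    · have h1 := card_sdiff_add_card_inter s q
      have h2 := card_sdiff_add_card_inter q s
      rw [inter_comm q s] at h2
      have h3 : #(symmDiff s q) = #(s \ q) + #(q \ s) := by
        rw [symmDiff_def, sup_eq_union, card_union_of_disjoint disjoint_sdiff_sdiff]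
      omega
  refine ⟨hS, ?_⟩
  have hqc : q ⊆ ({a, b} : Finset (Fin n))ᶜ := fun z hz => mem_compl.2 (excl_not_pair (hqM hz))
  have hD : IsD {a, b} q (mk a b G₀ s) :=
    (isD_iff hab (key_mk hab hs) hqc hq2).2 ⟨hqM, by rwa [side_mk hab hs]⟩
  have hflip : flipGraph {a, b} q (mk a b G₀ s).1 = (mk a b G₀ (symmDiff s q)).1 := by
    rw [mk_val hab hs, mk_val hab hS]
    ext u v
    rw [flipGraph_adj]
    by_cases h : (u ∈ ({a, b} : Finset (Fin n)) ∧ v ∈ excl a b G₀.1) ∨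
        (v ∈ ({a, b} : Finset (Fin n)) ∧ u ∈ excl a b G₀.1)
    · have core : ∀ u v, u ∈ ({a, b} : Finset (Fin n)) → v ∈ excl a b G₀.1 →
          ((u ≠ v ∧ ¬((mkGraph a b G₀ s).Adj u v ↔
            (u ∈ ({a, b} : Finset (Fin n)) ∧ v ∈ q) ∨ (v ∈ ({a, b} : Finset (Fin n)) ∧ u ∈ q))) ↔
            (mkGraph a b G₀ (symmDiff s q)).Adj u v) := by
        intro u v hu hv
        have hvp := excl_not_pair hv
        have hne : u ≠ v := fun e => hvp (e ▸ hu)
        simp only [hne, ne_eq, not_false_eq_true, true_and, hu, hvp, false_and, or_false]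
        simp only [mem_insert, mem_singleton] at hu
        rcases hu with rfl | rfl
        · rw [mk_adj_a hab G₀ _ hv, mk_adj_a hab G₀ _ hv, mem_symmDiff]; tauto
        · rw [mk_adj_b hab G₀ _ hv, mk_adj_b hab G₀ _ hv, mem_symmDiff]; tauto
      rcases h with ⟨hu, hv⟩ | ⟨hv, hu⟩
      · exact core u v hu hv
      · have := core v u hv hu
        simp only [(mkGraph a b G₀ s).adj_comm u v, (mkGraph a b G₀ (symmDiff s q)).adj_comm u v,
          ne_comm (a := u)]
        rw [or_comm]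
        exact this
    · rw [mk_adj_off G₀ _ h, mk_adj_off G₀ _ h]
      have h' : ¬((u ∈ ({a, b} : Finset (Fin n)) ∧ v ∈ q) ∨
          (v ∈ ({a, b} : Finset (Fin n)) ∧ u ∈ q)) := by
        rintro (⟨h1, h2⟩ | ⟨h1, h2⟩)
        exacts [h (Or.inl ⟨h1, hqM h2⟩), h (Or.inr ⟨h1, hqM h2⟩)]
      simp only [h', iff_false, not_not]
      exact ⟨fun h => h.2, fun h => ⟨h.ne, h⟩⟩
  have hm : IsD {a, b} q (mk a b G₀ s) ∧
      flipGraph {a, b} q (mk a b G₀ s).1 ∈ realisations d :=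
    ⟨hD, hflip ▸ (mk a b G₀ (symmDiff s q)).2⟩
  rw [show swapQ {a, b} q (mk a b G₀ s) = ⟨_, hm.2⟩ from dif_pos hm]
  exact Subtype.ext hflip

/-- The exchanges in a fibre, as exchanges of sides. -/
theorem sum_exchange (hab : a ≠ b) (G₀ : Rz d) (u : Rz d → Rz d → ℝ) (hu : ∀ G, u G G = 0) :
    ∑ q ∈ (({a, b} : Finset (Fin n))ᶜ).powersetCard 2,
        ∑ G ∈ fib (key {a, b}) G₀, u G (swapQ {a, b} q G) =
      ∑ q ∈ (excl a b G₀.1).powersetCard 2,
        ∑ s ∈ (sides a b G₀).filter (fun s => #(s ∩ q) = 1),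
          u (mk a b G₀ s) (mk a b G₀ (symmDiff s q)) := by
  rw [← sum_subset (powersetCard_mono (s := excl a b G₀.1)
    fun z hz => mem_compl.2 (excl_not_pair hz))]
  · refine sum_congr rfl fun q hq => ?_
    obtain ⟨hqM, hq2⟩ := mem_powersetCard.1 hq
    rw [sum_fibre hab, sum_filter]
    refine sum_congr rfl fun s hs => ?_
    split_ifs with hc
    · rw [(swapQ_mk hab hs hqM hq2 hc).2]
    · rw [swapQ_of_not, hu]
      intro h
      have := (isD_iff hab (key_mk hab hs)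
        (fun z hz => mem_compl.2 (excl_not_pair (hqM hz))) hq2).1 h
      rw [side_mk hab hs] at this
      exact hc this.2
  · intro q hq hq'
    obtain ⟨hqc, hq2⟩ := mem_powersetCard.1 hq
    refine sum_eq_zero fun G hG => ?_
    rw [swapQ_of_not, hu]
    intro h
    exact hq' (mem_powersetCard.2
      ⟨((isD_iff hab (by simpa [fib] using hG) hqc hq2).1 h).1, hq2⟩)

/-- The variance inside the fibres of a pair is at most the exchanges. -/
theorem pair_cvar_le
    (hA : ∀ (M : Finset (Fin n)) (j : ℕ) (F : Finset (Fin n) → ℝ),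
      ∑ s ∈ M.powersetCard j,
          (F s - (∑ s' ∈ M.powersetCard j, F s') / #(M.powersetCard j)) ^ 2 ≤
        1 / 2 * ∑ q ∈ M.powersetCard 2, ∑ s ∈ (M.powersetCard j).filter (fun s => #(s ∩ q) = 1),
          (F (symmDiff s q) - F s) ^ 2)
    {p : Finset (Fin n)} (hp : #p = 2) (f : Rz d → ℝ) :
    cvar (key p) f ≤ 1 / 2 * ∑ q ∈ pᶜ.powersetCard 2, ∑ G, (f (swapQ p q G) - f G) ^ 2 := by
  obtain ⟨a, b, hab, rfl⟩ := card_eq_two.1 hp
  rw [cvar_eq_dev, sum_comm, sum_fib (key {a, b}) fun G => dev (key {a, b}) f G ^ 2,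
    sum_fib (key {a, b}) fun G => ∑ q ∈ ({a, b} : Finset (Fin n))ᶜ.powersetCard 2,
      (f (swapQ {a, b} q G) - f G) ^ 2, mul_sum]
  refine sum_le_sum fun G₀ _ => ?_
  rw [mul_div_assoc']
  refine div_le_div_of_nonneg_right ?_ (Nat.cast_nonneg _)
  rw [sum_comm (s := fib (key {a, b}) G₀),
    sum_exchange hab G₀ (fun G H => (f H - f G) ^ 2) (fun G => by simp), sum_fibre hab]
  refine le_of_eq_of_le (sum_congr rfl fun s hs => ?_)
    (hA (excl a b G₀.1) #(side a b G₀ G₀.1) fun s => f (mk a b G₀ s))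
  rw [dev_apply, cavg_fibre hab (key_mk hab hs)]
  rfl

/-- The defect of the diagonal states is at most the exchanges. -/
theorem pair_defect_le
    (hB : ∀ (M : Finset (Fin n)) (j : ℕ) (F : Finset (Fin n) → ℝ),
      ∑ q ∈ M.powersetCard 2, ∑ _s ∈ (M.powersetCard j).filter (fun s => #(s ∩ q) = 1),
          ((∑ s' ∈ (M.powersetCard j).filter (fun s => #(s ∩ q) = 1), F s') /
              #((M.powersetCard j).filter fun s => #(s ∩ q) = 1) -
            (∑ s' ∈ M.powersetCard j, F s') / #(M.powersetCard j)) ^ 2 ≤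
        ∑ q ∈ M.powersetCard 2, ∑ s ∈ (M.powersetCard j).filter (fun s => #(s ∩ q) = 1),
          ((F s - F (symmDiff s q)) / 2) ^ 2)
    {p : Finset (Fin n)} (hp : #p = 2) (f : Rz d → ℝ) :
    ∑ q ∈ pᶜ.powersetCard 2, ∑ G ∈ univ.filter (IsD p q),
        (cavg (fun u => (key p u, IsD p q u)) f G - cavg (key p) f G) ^ 2 ≤
      ∑ q ∈ pᶜ.powersetCard 2, ∑ G, ((f G - f (swapQ p q G)) / 2) ^ 2 := by
  obtain ⟨a, b, hab, rfl⟩ := card_eq_two.1 hp
  simp only [sum_filter]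
  rw [sum_comm, sum_comm (s := ({a, b} : Finset (Fin n))ᶜ.powersetCard 2),
    sum_fib (key {a, b}) (fun G => ∑ q ∈ ({a, b} : Finset (Fin n))ᶜ.powersetCard 2,
      if IsD {a, b} q G then
        (cavg (fun u => (key {a, b} u, IsD {a, b} q u)) f G - cavg (key {a, b}) f G) ^ 2 else 0),
    sum_fib (key {a, b}) fun G => ∑ q ∈ ({a, b} : Finset (Fin n))ᶜ.powersetCard 2,
      ((f G - f (swapQ {a, b} q G)) / 2) ^ 2]
  refine sum_le_sum fun G₀ _ => div_le_div_of_nonneg_right ?_ (Nat.cast_nonneg _)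
  rw [sum_comm, sum_comm (s := fib (key {a, b}) G₀),
    sum_exchange hab G₀ (fun G H => ((f G - f H) / 2) ^ 2) (fun G => by simp)]
  refine le_of_eq_of_le ?_ (hB (excl a b G₀.1) #(side a b G₀ G₀.1) fun s => f (mk a b G₀ s))
  rw [← sum_subset (powersetCard_mono (s := excl a b G₀.1)
    fun z hz => mem_compl.2 (excl_not_pair hz))]
  · refine sum_congr rfl fun q hq => ?_
    obtain ⟨hqM, hq2⟩ := mem_powersetCard.1 hq
    have hqc : q ⊆ ({a, b} : Finset (Fin n))ᶜ :=
      fun z hz => mem_compl.2 (excl_not_pair (hqM hz))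
    have hiff : ∀ s ∈ sides a b G₀, IsD {a, b} q (mk a b G₀ s) ↔ #(s ∩ q) = 1 := fun s hs => by
      rw [isD_iff hab (key_mk hab hs) hqc hq2, side_mk hab hs, and_iff_right hqM]
    rw [sum_fibre hab, sum_filter]
    refine sum_congr rfl fun s hs => ?_
    by_cases hc : #(s ∩ q) = 1
    · rw [if_pos ((hiff s hs).2 hc), if_pos hc, cavg_fibre hab (key_mk hab hs)]
      have hfib : fib (fun u => (key {a, b} u, IsD {a, b} q u)) (mk a b G₀ s) =
          (fib (key {a, b}) G₀).filter (IsD {a, b} q) := by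
        ext u
        simp only [fib, mem_filter, mem_univ, true_and, Prod.mk.injEq, key_mk hab hs,
          eq_iff_iff, iff_true_intro ((hiff s hs).2 hc), iff_true]
      have hsum : ∀ w : Rz d → ℝ, ∑ u ∈ (fib (key {a, b}) G₀).filter (IsD {a, b} q), w u =
          ∑ t ∈ (sides a b G₀).filter (fun t => #(t ∩ q) = 1), w (mk a b G₀ t) := fun w => by
        rw [sum_filter, sum_fibre hab, sum_filter]
        exact sum_congr rfl fun t ht => if_congr (hiff t ht) rfl rfl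
      have hnum := hsum f
      have hden : (#((fib (key {a, b}) G₀).filter (IsD {a, b} q)) : ℝ) =
          #((sides a b G₀).filter fun t => #(t ∩ q) = 1) := by simpa using hsum fun _ => (1 : ℝ)
      simp only [cavg, hfib]
      rw [hnum, hden]
      rfl
    · rw [if_neg fun h => hc ((hiff s hs).1 h), if_neg hc]
  · intro q hq hq'
    obtain ⟨hqc, hq2⟩ := mem_powersetCard.1 hq
    refine sum_eq_zero fun G hG => if_neg fun h => ?_
    exact hq' (mem_powersetCard.2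
      ⟨((isD_iff hab (by simpa [fib] using hG) hqc hq2).1 h).1, hq2⟩)

end Vale.Agent.P335
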