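import Vale.Agent.P335.Cond

/-!
# P335: two disjoint pairs of resampled vertices

`cavg_rect`: two keys whose classes meet exactly once inside each class of a coarser key have
commuting averages, with product the coarser average.

`quad_ineq`: the lower bound for the correlation of the deviations from two averages `g1`, `g2`
in terms of an involution of the diagonal states `D`.
-/

open Finset
open scoped Classical

namespace Vale.Agent.P335

variable {Ω K K' L : Type*} [Fintype Ω]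

/-- Two keys forming a rectangle inside each class of `G`: averaging by both averages by `G`. -/
theorem cavg_rect (g : Ω → K) (g' : Ω → K') (G : Ω → L)
    (h1 : ∀ u v, g u = g v → G u = G v) (h2 : ∀ u v, g' u = g' v → G u = G v)
    (hex : ∀ u v, G u = G v → ∃ w, g w = g u ∧ g' w = g' v)
    (hinj : ∀ u v, g u = g v → g' u = g' v → u = v) (f : Ω → ℝ) :
    cavg g (cavg g' f) = cavg G f := by
  funext ω
  have hle : ∀ u v, G u = G v → #(fib g' u) ≤ #(fib g' v) := by
    intro u v huv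
    have hw : ∀ x ∈ fib g' u, ∃ w, g w = g x ∧ g' w = g' v := fun x hx =>
      hex x v ((h2 _ _ (by simpa [fib] using hx)).trans huv)
    choose φ hφ1 hφ2 using hw
    refine Finset.card_le_card_of_injOn (fun x => if hx : x ∈ fib g' u then φ x hx else x)
      (fun x hx => ?_) (fun x hx y hy e => ?_)
    · simp only [Finset.mem_coe] at hx ⊢
      simp only [dif_pos hx]
      exact mem_filter.2 ⟨mem_univ _, hφ2 x hx⟩
    · simp only [Finset.mem_coe] at hx hy
      simp only [dif_pos hx, dif_pos hy] at e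
      refine hinj x y (by rw [← hφ1 x hx, ← hφ1 y hy, e]) ?_
      have ex : g' x = g' u := by simpa [fib] using hx
      have ey : g' y = g' u := by simpa [fib] using hy
      rw [ex, ey]
  have hG : ∀ u ∈ fib g ω, G u = G ω := fun u hu => h1 _ _ (by simpa [fib] using hu)
  have hcard : ∀ u ∈ fib g ω, #(fib g' u) = #(fib g' ω) := fun u hu =>
    le_antisymm (hle u ω (hG u hu)) (hle ω u (hG u hu).symm)
  have hun : fib G ω = (fib g ω).biUnion fun u => fib g' u := by
    ext v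
    simp only [fib, mem_biUnion, mem_filter, mem_univ, true_and]
    constructor
    · intro hv
      obtain ⟨w, hw1, hw2⟩ := hex ω v hv.symm
      exact ⟨w, hw1, hw2.symm⟩
    · rintro ⟨u, hu, hv⟩
      exact (h2 _ _ hv).trans (h1 _ _ hu)
  have hdisj : (fib g ω : Set Ω).PairwiseDisjoint fun u => fib g' u := by
    intro u hu v hv huv
    refine disjoint_left.2 fun x hxu hxv => huv ?_
    simp only [fib, Finset.mem_coe, mem_filter, mem_univ, true_and] at hu hv hxu hxv
    exact hinj u v (hu.trans hv.symm) (hxu.symm.trans hxv)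
  have hsum : ∑ u ∈ fib g ω, cavg g' f u =
      (∑ v ∈ fib G ω, f v) / (#(fib g' ω) : ℝ) := by
    rw [hun, sum_biUnion hdisj, sum_div]
    exact sum_congr rfl fun u hu => by rw [cavg, hcard u hu]
  have hc : #(fib G ω) = #(fib g ω) * #(fib g' ω) := by
    rw [hun, card_biUnion hdisj, sum_congr rfl hcard, sum_const, smul_eq_mul]
  show (∑ u ∈ fib g ω, cavg g' f u) / (#(fib g ω) : ℝ) = (∑ v ∈ fib G ω, f v) / (#(fib G ω) : ℝ)
  rw [hsum, hc, div_div, Nat.cast_mul, mul_comm (#(fib g' ω) : ℝ)]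

/-- The averages of a rectangle commute. -/
theorem cavg_comm_of_rect (g : Ω → K) (g' : Ω → K') (G : Ω → L)
    (h1 : ∀ u v, g u = g v → G u = G v) (h2 : ∀ u v, g' u = g' v → G u = G v)
    (hex : ∀ u v, G u = G v → ∃ w, g w = g u ∧ g' w = g' v)
    (hinj : ∀ u v, g u = g v → g' u = g' v → u = v) (f : Ω → ℝ) :
    cavg g (cavg g' f) = cavg g' (cavg g f) := by
  rw [cavg_rect g g' G h1 h2 hex hinj, cavg_rect g' g G h2 h1
    (fun u v huv => let ⟨w, a, b⟩ := hex v u huv.symm; ⟨w, b, a⟩)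
    (fun u v a b => hinj u v b a)]

/-- Averaging by a finer key first changes nothing. -/
theorem cavg_of_refine (g : Ω → K) (k : Ω → K') (hk : ∀ u v, k u = k v → g u = g v) (f : Ω → ℝ) :
    cavg g (cavg k f) = cavg g f := by
  funext ω
  have e : ∀ u : Ω → ℝ, ∑ x ∈ fib g ω, u x = ∑ x, u x * (if g x = g ω then 1 else 0) := fun u => by
    simp [fib, sum_filter]
  have hc : cavg k (fun x => if g x = g ω then (1 : ℝ) else 0) =
      fun x => if g x = g ω then 1 else 0 :=
    cavg_of_const k fun u v huv => by simp [hk v u huv]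
  have hs : ∑ x ∈ fib g ω, cavg k f x = ∑ x ∈ fib g ω, f x := by
    rw [e, e, sum_cavg_mul, hc]
  show (∑ x ∈ fib g ω, cavg k f x) / (#(fib g ω) : ℝ) = (∑ x ∈ fib g ω, f x) / (#(fib g ω) : ℝ)
  rw [hs]

/-- A key invariant under an involution does not see the involution. -/
theorem cavg_comp_invol (g : Ω → K) (τ : Ω → Ω) (hτ : Function.Involutive τ)
    (hg : ∀ ω, g (τ ω) = g ω) (f : Ω → ℝ) : cavg g (f ∘ τ) = cavg g f := by
  funext ω
  unfold cavg
  congr 1
  refine sum_nbij' τ τ (fun x hx => ?_) (fun x hx => ?_) (fun x _ => hτ x) (fun x _ => hτ x)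
    fun x _ => rfl
  all_goals simpa [fib, hg] using hx

/-- An invariant function has invariant averages if the involution respects the classes. -/
theorem cavg_invol (k : Ω → K) (τ : Ω → Ω) (hτ : Function.Involutive τ)
    (hk : ∀ u v, k u = k v → k (τ u) = k (τ v)) (h : Ω → ℝ) (hh : ∀ ω, h (τ ω) = h ω) (ω : Ω) :
    cavg k h (τ ω) = cavg k h ω := by
  have hf : fib k (τ ω) = (fib k ω).image τ := by
    ext x
    simp only [fib, mem_image, mem_filter, mem_univ, true_and]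
    constructor
    · intro hx
      exact ⟨τ x, by have := hk _ _ hx; rwa [hτ ω] at this, hτ x⟩
    · rintro ⟨y, hy, rfl⟩
      exact hk _ _ hy
  simp only [cavg, hf, card_image_of_injective _ hτ.injective, sum_image hτ.injective.injOn, hh]

/-- A key invariant under an involution sees only the invariant part. -/
theorem cavg_sym_part (g : Ω → K) (τ : Ω → Ω) (hτ : Function.Involutive τ)
    (hg : ∀ ω, g (τ ω) = g ω) (f : Ω → ℝ) (ω : Ω) :
    cavg g f ω = cavg g (fun x => (f x + f (τ x)) / 2) ω := by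
  have e := congrFun (cavg_comp_invol g τ hτ hg f) ω
  simp only [cavg, Function.comp_apply] at e ⊢
  rw [← sum_div, sum_add_distrib, div_right_comm _ (2 : ℝ), add_div, e]
  ring

/-- Where two nested keys have the same class they have the same average. -/
theorem cavg_eq_of_coarse (g : Ω → K) (k : Ω → K') (hr : ∀ u v, k u = k v → g u = g v)
    (h : Ω → ℝ) (u : Ω) (hu : ∀ v, g v = g u → k v = k u) : cavg k h u = cavg g h u := by
  have e : fib k u = fib g u := by
    ext v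
    simp only [fib, mem_filter, mem_univ, true_and]
    exact ⟨hr v u, hu v⟩
  simp only [cavg, e]

section quad

variable {K1 K2 KA KX : Type*}

/-- With commuting averages, the part above `kA` correlates with the part between `g2` and `kX`. -/
theorem sum_dev_mul_diff_nonneg (g2 : Ω → K2) (kA : Ω → KA) (kX : Ω → KX)
    (hrX : ∀ u v, kX u = kX v → g2 u = g2 v)
    (hcX : ∀ h, cavg kA (cavg kX h) = cavg kX (cavg kA h))
    (hc2 : ∀ h, cavg kA (cavg g2 h) = cavg g2 (cavg kA h)) (f : Ω → ℝ) :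
    0 ≤ ∑ ω, dev kA f ω * (cavg kX f ω - cavg g2 f ω) := by
  set R : (Ω → ℝ) → Ω → ℝ := fun u => cavg kX u - cavg g2 u with hR
  have h2X : ∀ u : Ω → ℝ, cavg kX (cavg g2 u) = cavg g2 u := fun u =>
    cavg_of_const kX fun a b hab => cavg_congr g2 u (hrX b a hab)
  have hRR : R (R f) = R f := by
    simp only [hR, cavg_sub, cavg_idem, h2X, cavg_of_refine g2 kX hrX]
    abel
  have hadj : ∀ a b : Ω → ℝ, ∑ ω, a ω * R b ω = ∑ ω, R a ω * b ω := fun a b => by
    simp only [hR, Pi.sub_apply, mul_sub, sub_mul, sum_sub_distrib, sum_cavg_mul]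
  have hd : R (dev kA f) = dev kA (R f) := by
    simp only [hR, dev, cavg_sub, hcX, hc2]
    abel
  have e : ∑ ω, dev kA f ω * R f ω = cvar kA (R f) := by
    conv_lhs => rw [← hRR]
    rw [hadj, hd, sum_dev_mul, ← cvar_eq_mul]
  calc (0 : ℝ) ≤ cvar kA (R f) := sum_nonneg fun _ _ => sq_nonneg _
    _ = ∑ ω, dev kA f ω * R f ω := e.symm
    _ = _ := rfl

/-- Jensen, summed over a set which is a union of classes. -/
theorem sum_sq_cavg_le (k : Ω → K) (D : Ω → Prop) (hD : ∀ u v, k u = k v → (D u ↔ D v))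
    (u : Ω → ℝ) :
    ∑ ω ∈ univ.filter D, cavg k u ω ^ 2 ≤ ∑ ω ∈ univ.filter D, u ω ^ 2 := by
  have hj : ∀ ω, cavg k u ω ^ 2 ≤ cavg k (fun x => u x ^ 2) ω := fun ω => by
    have hc : (0 : ℝ) < #(fib k ω) := by exact_mod_cast card_fib_pos k ω
    simp only [cavg, div_pow]
    rw [div_le_div_iff₀ (by positivity) hc]
    calc (∑ x ∈ fib k ω, u x) ^ 2 * (#(fib k ω) : ℝ)
        ≤ ((#(fib k ω) : ℝ) * ∑ x ∈ fib k ω, u x ^ 2) * #(fib k ω) :=
          mul_le_mul_of_nonneg_right sq_sum_le_card_mul_sum_sq hc.le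
      _ = _ := by ring
  have hc : cavg k (fun x => if D x then (1 : ℝ) else 0) = fun x => if D x then 1 else 0 :=
    cavg_of_const k fun a b hab => by simp [hD b a hab]
  calc ∑ ω ∈ univ.filter D, cavg k u ω ^ 2
      ≤ ∑ ω ∈ univ.filter D, cavg k (fun x => u x ^ 2) ω := sum_le_sum fun ω _ => hj ω
    _ = ∑ ω, cavg k (fun x => u x ^ 2) ω * (if D ω then 1 else 0) := by simp [sum_filter]
    _ = _ := by rw [sum_cavg_mul, hc]; simp [sum_filter]

/-- On `D` the average given `kA` of an invariant function is the average given `(g1, D)`. -/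
theorem cavg_diag_eq (g1 : Ω → K1) (kA : Ω → KA) (D : Ω → Prop) (τ : Ω → Ω)
    (hτ : Function.Involutive τ) (hkA : ∀ u v, kA u = kA v → kA (τ u) = kA (τ v))
    (hrA : ∀ u v, kA u = kA v → g1 u = g1 v) (hDA : ∀ u v, kA u = kA v → (D u ↔ D v))
    (hd1 : ∀ ω, D ω → ∀ v, (g1 v = g1 ω ∧ D v) ↔ (kA v = kA ω ∨ kA v = kA (τ ω)))
    (h : Ω → ℝ) (hh : ∀ ω, h (τ ω) = h ω) {ω : Ω} (hω : D ω) :
    cavg (fun u => (g1 u, D u)) h ω = cavg kA h ω := by
  rw [← cavg_of_refine (fun u => (g1 u, D u)) kA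
    (fun u v huv => Prod.ext (hrA u v huv) (propext (hDA u v huv))) h]
  have hconst : ∀ x ∈ fib (fun u => (g1 u, D u)) ω, cavg kA h x = cavg kA h ω := by
    intro x hx
    simp only [fib, mem_filter, mem_univ, true_and, Prod.mk.injEq] at hx
    rcases (hd1 ω hω x).1 ⟨hx.1, hx.2.symm ▸ hω⟩ with e | e
    · exact cavg_congr kA h e
    · rw [cavg_congr kA h e, cavg_invol kA τ hτ hkA h hh]
  have hne : (#(fib (fun u => (g1 u, D u)) ω) : ℝ) ≠ 0 := by
    exact_mod_cast (card_fib_pos (fun u => (g1 u, D u)) ω).ne'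
  show (∑ x ∈ fib (fun u => (g1 u, D u)) ω, cavg kA h x) /
      (#(fib (fun u => (g1 u, D u)) ω) : ℝ) = cavg kA h ω
  rw [sum_congr rfl hconst, sum_const, nsmul_eq_mul, mul_div_cancel_left₀ _ hne]

/-- The disjoint-pair inequality. -/
theorem quad_ineq (g1 : Ω → K1) (g2 : Ω → K2) (kA : Ω → KA) (kX : Ω → KX) (τ : Ω → Ω)
    (D : Ω → Prop) (hτ : Function.Involutive τ)
    (hg1 : ∀ ω, g1 (τ ω) = g1 ω) (hg2 : ∀ ω, g2 (τ ω) = g2 ω)
    (hkA : ∀ u v, kA u = kA v → kA (τ u) = kA (τ v))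
    (hkX : ∀ u v, kX u = kX v → kX (τ u) = kX (τ v))
    (hDτ : ∀ ω, D (τ ω) ↔ D ω)
    (hDA : ∀ u v, kA u = kA v → (D u ↔ D v)) (hDX : ∀ u v, kX u = kX v → (D u ↔ D v))
    (hrA : ∀ u v, kA u = kA v → g1 u = g1 v) (hrX : ∀ u v, kX u = kX v → g2 u = g2 v)
    (hcAX : ∀ h, cavg kA (cavg kX h) = cavg kX (cavg kA h))
    (hcA2 : ∀ h, cavg kA (cavg g2 h) = cavg g2 (cavg kA h))
    (hc1X : ∀ h, cavg g1 (cavg kX h) = cavg kX (cavg g1 h))
    (hnd : ∀ ω, ¬D ω → (∀ u, kX u = kX ω → ∀ v, g1 v = g1 u → kA v = kA u) ∨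
      (∀ u, kA u = kA ω → ∀ v, g2 v = g2 u → kX v = kX u))
    (hd1 : ∀ ω, D ω → ∀ v, (g1 v = g1 ω ∧ D v) ↔ (kA v = kA ω ∨ kA v = kA (τ ω)))
    (hd2 : ∀ ω, D ω → ∀ v, (g2 v = g2 ω ∧ D v) ↔ (kX v = kX ω ∨ kX v = kX (τ ω)))
    (f : Ω → ℝ) :
    (∑ ω, ((f ω - f (τ ω)) / 2) ^ 2 -
        ∑ ω ∈ univ.filter D, (cavg (fun u => (g1 u, D u)) f ω - cavg g1 f ω) ^ 2) +
      (∑ ω, ((f ω - f (τ ω)) / 2) ^ 2 -
        ∑ ω ∈ univ.filter D, (cavg (fun u => (g2 u, D u)) f ω - cavg g2 f ω) ^ 2) ≤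
      2 * ∑ ω, dev g1 f ω * dev g2 f ω := by
  set h : Ω → ℝ := fun ω => (f ω + f (τ ω)) / 2 with hdef
  set anti : Ω → ℝ := fun ω => (f ω - f (τ ω)) / 2 with hanti
  have hh : ∀ ω, h (τ ω) = h ω := fun ω => by simp only [hdef, hτ ω, add_comm]
  have hsplit : f = anti + h := by funext ω; simp only [hdef, hanti, Pi.add_apply]; ring
  -- the averages do not see the antisymmetric part
  have havg1 : ∀ ω, cavg g1 f ω = cavg g1 h ω := cavg_sym_part g1 τ hτ hg1 f
  have havg2 : ∀ ω, cavg g2 f ω = cavg g2 h ω := cavg_sym_part g2 τ hτ hg2 f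
  have horth : ∀ u : Ω → ℝ, (∀ ω, u (τ ω) = u ω) → ∑ ω, anti ω * u ω = 0 := by
    intro u hu
    have e : ∑ ω, anti ω * u ω = ∑ ω, anti (τ ω) * u (τ ω) :=
      (Fintype.sum_equiv (hτ.toPerm τ) _ _ fun _ => rfl).symm
    have e2 : ∑ ω, anti (τ ω) * u (τ ω) = -∑ ω, anti ω * u ω := by
      rw [← sum_neg_distrib]
      refine sum_congr rfl fun ω _ => ?_
      simp only [hanti, hτ ω, hu ω]
      ring
    linarith
  have hv1 : ∀ ω, cavg g1 h (τ ω) = cavg g1 h ω := fun ω => cavg_congr g1 h (hg1 ω)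
  have hv2 : ∀ ω, cavg g2 h (τ ω) = cavg g2 h ω := fun ω => cavg_congr g2 h (hg2 ω)
  have hmain : ∑ ω, dev g1 f ω * dev g2 f ω =
      ∑ ω, anti ω ^ 2 + ∑ ω, dev g1 h ω * dev g2 h ω := by
    have e1 := horth (fun ω => h ω - cavg g1 h ω) fun ω => by rw [hh, hv1]
    have e2 := horth (fun ω => h ω - cavg g2 h ω) fun ω => by rw [hh, hv2]
    have e : ∀ ω, dev g1 f ω * dev g2 f ω = anti ω ^ 2 + anti ω * (h ω - cavg g1 h ω) +
        anti ω * (h ω - cavg g2 h ω) + dev g1 h ω * dev g2 h ω := fun ω => by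
      simp only [dev_apply]
      rw [havg1, havg2, congrFun hsplit ω, Pi.add_apply]
      ring
    simp only [e, sum_add_distrib, e1, e2, add_zero]
  -- the three nonnegative terms
  set a : Ω → ℝ := fun ω => cavg kA h ω - cavg g1 h ω with ha
  set b : Ω → ℝ := fun ω => cavg kX h ω - cavg g2 h ω with hb
  have n1 := sum_dev_mul_dev_nonneg kA kX h hcAX
  have n2 : 0 ≤ ∑ ω, dev kA h ω * b ω := sum_dev_mul_diff_nonneg g2 kA kX hrX hcAX hcA2 h
  have n3 : 0 ≤ ∑ ω, dev kX h ω * a ω :=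
    sum_dev_mul_diff_nonneg g1 kX kA hrA (fun u => (hcAX u).symm) (fun u => (hc1X u).symm) h
  have hexp : ∑ ω, dev g1 h ω * dev g2 h ω = ∑ ω, dev kA h ω * dev kX h ω +
      ∑ ω, dev kA h ω * b ω + ∑ ω, dev kX h ω * a ω + ∑ ω, a ω * b ω := by
    simp only [← sum_add_distrib]
    refine sum_congr rfl fun ω _ => ?_
    simp only [dev_apply, ha, hb]
    ring
  -- the four-slot term
  have haA : cavg kA a = a := cavg_of_const kA fun u v huv => by
    simp only [ha]
    rw [cavg_congr kA h huv, cavg_congr g1 h (hrA v u huv)]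
  have hbX : cavg kX b = b := cavg_of_const kX fun u v huv => by
    simp only [hb]
    rw [cavg_congr kX h huv, cavg_congr g2 h (hrX v u huv)]
  set a' := cavg kX a with ha'
  set b' := cavg kA b with hb'
  have hab : ∑ ω, a ω * b ω = ∑ ω, a' ω * b' ω := by
    calc ∑ ω, a ω * b ω = ∑ ω, cavg kA a ω * b ω := by rw [haA]
      _ = ∑ ω, a ω * cavg kA b ω := sum_cavg_mul _ _ _
      _ = ∑ ω, a ω * cavg kX (cavg kA b) ω := by
          conv_lhs => rw [← hbX, hcAX]
      _ = _ := (sum_cavg_mul _ _ _).symm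
  have hzero : ∀ ω, ¬D ω → a' ω = 0 ∨ b' ω = 0 := by
    intro ω hω
    rcases hnd ω hω with hA | hX
    · left
      have hz : ∀ u ∈ fib kX ω, a u = 0 := fun u hu => by
        simp only [ha]
        rw [cavg_eq_of_coarse g1 kA hrA h u (hA u (by simpa [fib] using hu)), sub_self]
      simp only [ha', cavg]
      rw [sum_eq_zero hz, zero_div]
    · right
      have hz : ∀ u ∈ fib kA ω, b u = 0 := fun u hu => by
        simp only [hb]
        rw [cavg_eq_of_coarse g2 kX hrX h u (hX u (by simpa [fib] using hu)), sub_self]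
      simp only [hb', cavg]
      rw [sum_eq_zero hz, zero_div]
  have hlow : -(∑ ω ∈ univ.filter D, a' ω ^ 2 + ∑ ω ∈ univ.filter D, b' ω ^ 2) ≤
      2 * ∑ ω, a' ω * b' ω := by
    rw [sum_filter, sum_filter, ← sum_add_distrib, mul_sum, ← sum_neg_distrib]
    refine sum_le_sum fun ω _ => ?_
    by_cases hω : D ω
    · rw [if_pos hω, if_pos hω]
      nlinarith [sq_nonneg (a' ω + b' ω)]
    · rw [if_neg hω, if_neg hω]
      rcases hzero ω hω with e | e <;> simp [e]
  have hsq1 : ∑ ω ∈ univ.filter D, a' ω ^ 2 ≤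
      ∑ ω ∈ univ.filter D, (cavg (fun u => (g1 u, D u)) f ω - cavg g1 f ω) ^ 2 := by
    refine (sum_sq_cavg_le kX D hDX a).trans (le_of_eq (sum_congr rfl fun ω hω => ?_))
    simp only [ha]
    rw [havg1, cavg_sym_part (fun u => (g1 u, D u)) τ hτ
      (fun u => Prod.ext (hg1 u) (propext (hDτ u))) f,
      cavg_diag_eq g1 kA D τ hτ hkA hrA hDA hd1 h hh (mem_filter.1 hω).2]
  have hsq2 : ∑ ω ∈ univ.filter D, b' ω ^ 2 ≤
      ∑ ω ∈ univ.filter D, (cavg (fun u => (g2 u, D u)) f ω - cavg g2 f ω) ^ 2 := by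
    refine (sum_sq_cavg_le kA D hDA b).trans (le_of_eq (sum_congr rfl fun ω hω => ?_))
    simp only [hb]
    rw [havg2, cavg_sym_part (fun u => (g2 u, D u)) τ hτ
      (fun u => Prod.ext (hg2 u) (propext (hDτ u))) f,
      cavg_diag_eq g2 kX D τ hτ hkX hrX hDX hd2 h hh (mem_filter.1 hω).2]
  change (∑ ω, anti ω ^ 2 - _) + (∑ ω, anti ω ^ 2 - _) ≤ _
  rw [hmain, hexp, hab]
  linarith

end quad

end Vale.Agent.P335
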