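import Mathlib

/-!
# P335: the inequality on a slice

For `F` on the `j`-subsets of an `m`-set `M` and a pair `x, y`, let `D` be the subsets containing
exactly one of `x, y`. Half the squared differences under the exchanges `x ↔ y`, minus the
squared deviations of the means over the sets `D`, dominate the variance of `F`.
The proof splits off the linear part `σ ↦ ∑ z ∈ σ, a z`; on the rest it uses the Poincaré
inequality of the slice, proved by induction along the down operator.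
-/

open Finset

namespace Vale.Agent.P335.Slice

variable {β : Type*} [DecidableEq β]

lemma sum_flip (M : Finset β) (i : ℕ) (G : Finset β → β → ℝ) :
    ∑ τ ∈ M.powersetCard i, ∑ z ∈ M \ τ, G τ z =
      ∑ σ ∈ M.powersetCard (i + 1), ∑ z ∈ σ, G (σ.erase z) z := by
  rw [sum_sigma', sum_sigma']
  refine sum_nbij' (fun p => ⟨insert p.2 p.1, p.2⟩) (fun p => ⟨p.1.erase p.2, p.2⟩) ?_ ?_ ?_ ?_ ?_
  · rintro ⟨τ, z⟩ h
    simp only [mem_sigma, mem_powersetCard, mem_sdiff] at h ⊢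
    exact ⟨⟨insert_subset h.2.1 h.1.1, by rw [card_insert_of_notMem h.2.2, h.1.2]⟩,
      mem_insert_self _ _⟩
  · rintro ⟨σ, z⟩ h
    simp only [mem_sigma, mem_powersetCard, mem_sdiff] at h ⊢
    exact ⟨⟨(erase_subset _ _).trans h.1.1, by rw [card_erase_of_mem h.2, h.1.2]; omega⟩,
      h.1.1 h.2, notMem_erase _ _⟩
  · rintro ⟨τ, z⟩ h
    simp only [mem_sigma, mem_sdiff] at h
    simp [erase_insert h.2.2]
  · rintro ⟨σ, z⟩ h
    simp only [mem_sigma] at h
    simp [insert_erase h.2]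
  · rintro ⟨τ, z⟩ h
    simp only [mem_sigma, mem_sdiff] at h
    simp [erase_insert h.2.2]

/-- The down operator. -/
def dn (M : Finset β) (f : Finset β → ℝ) (τ : Finset β) : ℝ := ∑ z ∈ M \ τ, f (insert z τ)

/-- The up operator. -/
def up (g : Finset β → ℝ) (σ : Finset β) : ℝ := ∑ x ∈ σ, g (σ.erase x)

lemma adj (M : Finset β) (i : ℕ) (f g : Finset β → ℝ) :
    ∑ τ ∈ M.powersetCard i, g τ * dn M f τ = ∑ σ ∈ M.powersetCard (i + 1), f σ * up g σ := by
  simp only [dn, up, mul_sum]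
  rw [sum_flip]
  exact sum_congr rfl fun σ _ => sum_congr rfl fun z hz => by rw [insert_erase hz, mul_comm]

lemma sum_dn (M : Finset β) (i : ℕ) (f : Finset β → ℝ) :
    ∑ τ ∈ M.powersetCard i, dn M f τ = (i + 1 : ℝ) * ∑ σ ∈ M.powersetCard (i + 1), f σ := by
  have h := adj M i f fun _ => 1
  simp only [one_mul] at h
  rw [h, mul_sum]
  refine sum_congr rfl fun σ hσ => ?_
  simp [up, (mem_powersetCard.1 hσ).2, mul_comm]

lemma card_sdiff_real {M τ : Finset β} {i : ℕ} (h : τ ∈ M.powersetCard i) :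
    (#(M \ τ) : ℝ) = #M - i := by
  obtain ⟨hs, rfl⟩ := mem_powersetCard.1 h
  rw [card_sdiff_of_subset hs, Nat.cast_sub (card_le_card hs)]

lemma comm (M : Finset β) (i : ℕ) (g : Finset β → ℝ) :
    ∑ σ ∈ M.powersetCard (i + 2), up g σ ^ 2 = ∑ τ ∈ M.powersetCard i, dn M g τ ^ 2 +
      ((#M : ℝ) - 2 * (i + 1)) * ∑ τ ∈ M.powersetCard (i + 1), g τ ^ 2 := by
  simp only [pow_two]
  rw [← adj M (i + 1) (up g) g, adj M i g (dn M g), mul_sum, ← sum_add_distrib]
  refine sum_congr rfl fun τ hτ => ?_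
  have h1 : dn M (up g) τ = (#(M \ τ) : ℝ) * g τ +
      ∑ z ∈ M \ τ, ∑ x ∈ τ, g ((insert z τ).erase x) := by
    rw [← nsmul_eq_mul, ← sum_const, ← sum_add_distrib]
    refine sum_congr rfl fun z hz => ?_
    obtain ⟨-, hz⟩ := mem_sdiff.1 hz
    simp [up, sum_insert hz, erase_insert hz]
  have h2 : up (dn M g) τ = (#τ : ℝ) * g τ +
      ∑ x ∈ τ, ∑ z ∈ M \ τ, g (insert z (τ.erase x)) := by
    rw [← nsmul_eq_mul, ← sum_const, ← sum_add_distrib]
    refine sum_congr rfl fun x hx => ?_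
    simp [dn, sdiff_erase ((mem_powersetCard.1 hτ).1 hx), sum_insert (show x ∉ M \ τ by simp [hx]),
      insert_erase hx]
  have h3 : ∑ z ∈ M \ τ, ∑ x ∈ τ, g ((insert z τ).erase x) =
      ∑ x ∈ τ, ∑ z ∈ M \ τ, g (insert z (τ.erase x)) := by
    rw [sum_comm]
    refine sum_congr rfl fun x hx => sum_congr rfl fun z hz => ?_
    rw [erase_insert_of_ne fun e => (mem_sdiff.1 hz).2 (by rwa [e])]
  rw [h1, h2, h3, card_sdiff_real hτ, (mem_powersetCard.1 hτ).2]
  push_cast
  ring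

/-- The Poincaré inequality of the slice. -/
lemma poincare (M : Finset β) : ∀ (i : ℕ) (f : Finset β → ℝ),
    ∑ σ ∈ M.powersetCard (i + 1), f σ = 0 →
      ∑ τ ∈ M.powersetCard i, dn M f τ ^ 2 ≤
        (i : ℝ) * ((#M : ℝ) - i - 1) * ∑ σ ∈ M.powersetCard (i + 1), f σ ^ 2
  | 0, f, hf => by
    have h := sum_dn M 0 f
    simp only [powersetCard_zero, sum_singleton, hf, mul_zero] at h
    simp [h]
  | i + 1, f, hf => by
    set g := dn M f with hg
    set A := ∑ τ ∈ M.powersetCard (i + 1), g τ ^ 2 with hA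
    set Q := ∑ σ ∈ M.powersetCard (i + 1 + 1), f σ ^ 2 with hQ
    set B := ∑ σ ∈ M.powersetCard (i + 2), up g σ ^ 2 with hB
    have hQ0 : 0 ≤ Q := sum_nonneg fun _ _ => sq_nonneg _
    have hA0 : 0 ≤ A := sum_nonneg fun _ _ => sq_nonneg _
    have hAeq : A = ∑ σ ∈ M.powersetCard (i + 1 + 1), f σ * up g σ := by
      rw [hA, ← adj]
      simp only [pow_two]
      rfl
    push_cast
    by_cases him : i + 2 ≤ #M
    · have hm : ((i : ℝ) + 2) ≤ #M := by exact_mod_cast him
      have hg0 : ∑ τ ∈ M.powersetCard (i + 1), g τ = 0 := by rw [hg, sum_dn, hf, mul_zero]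
      have ih := poincare M i g hg0
      have hcm := comm M i g
      have hBle : B ≤ ((i : ℝ) + 1) * ((#M : ℝ) - (i + 1) - 1) * A := by
        have e : ((i : ℝ) + 1) * ((#M : ℝ) - (i + 1) - 1) * A =
            (i : ℝ) * ((#M : ℝ) - i - 1) * A + ((#M : ℝ) - 2 * (i + 1)) * A := by ring
        linarith [e, ih, hcm]
      have hcs : A ^ 2 ≤ Q * B := by
        rw [hAeq]
        exact sum_mul_sq_le_sq_mul_sq _ _ _
      rcases hA0.eq_or_lt with h0 | h0
      · rw [← h0]
        have : (0 : ℝ) ≤ (#M : ℝ) - (i + 1) - 1 := by linarith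
        positivity
      · refine le_of_mul_le_mul_left ?_ h0
        calc A * A = A ^ 2 := (pow_two A).symm
          _ ≤ Q * B := hcs
          _ ≤ Q * (((i : ℝ) + 1) * ((#M : ℝ) - (i + 1) - 1) * A) :=
            mul_le_mul_of_nonneg_left hBle hQ0
          _ = _ := by ring
    · have he : M.powersetCard (i + 1 + 1) = ∅ := powersetCard_eq_empty.2 (by omega)
      rw [hAeq, hQ, he]
      simp

lemma map_swap {σ : Finset β} {x y : β} (hx : x ∈ σ) (hy : y ∉ σ) :
    σ.map (Equiv.swap x y).toEmbedding = insert y (σ.erase x) := by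
  ext z
  rw [mem_map_equiv, Equiv.symm_swap, mem_insert, mem_erase]
  by_cases h1 : z = x
  · subst h1
    simp [Equiv.swap_apply_left, hy]
    intro e; exact hy (e ▸ hx)
  by_cases h2 : z = y
  · subst h2; simp [Equiv.swap_apply_right, hx]
  simp [Equiv.swap_apply_of_ne_of_ne h1 h2, h1, h2]

/-- The `j`-subsets of `M` containing exactly one of `x`, `y`. -/
def diffs (M : Finset β) (j : ℕ) (x y : β) : Finset (Finset β) :=
  (M.powersetCard j).filter fun s => ¬(x ∈ s ↔ y ∈ s)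

/-- The squared differences under the exchanges, through the down operator. -/
lemma dir_eq (M : Finset β) (i : ℕ) (f : Finset β → ℝ) :
    ∑ x ∈ M, ∑ y ∈ M, ∑ s ∈ diffs M (i + 1) x y,
        ((f s - f (s.map (Equiv.swap x y).toEmbedding)) / 2) ^ 2 =
      ((#M : ℝ) - i) * (i + 1) * ∑ σ ∈ M.powersetCard (i + 1), f σ ^ 2 -
        ∑ τ ∈ M.powersetCard i, dn M f τ ^ 2 := by
  set P := M.powersetCard (i + 1) with hP
  set G : Finset β → β → β → ℝ := fun s x y =>
    ((f s - f (s.map (Equiv.swap x y).toEmbedding)) / 2) ^ 2 with hG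
  have hsymm : ∀ s x y, G s x y = G s y x := fun s x y => by simp only [hG, Equiv.swap_comm x y]
  have h1 : ∑ x ∈ M, ∑ y ∈ M, ∑ s ∈ diffs M (i + 1) x y, G s x y =
      2 * ∑ s ∈ P, ∑ x ∈ s, ∑ y ∈ M \ s, G s x y := by
    simp only [diffs, sum_filter]
    rw [sum_congr rfl fun x _ => sum_comm, sum_comm, mul_sum]
    refine sum_congr rfl fun s hs => ?_
    have hsM := (mem_powersetCard.1 hs).1
    rw [← sum_sdiff hsM]
    have a : ∀ x ∈ M \ s, (∑ y ∈ M, if ¬(x ∈ s ↔ y ∈ s) then G s x y else 0) =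
        ∑ y ∈ s, G s x y := fun x hx => by
      have hx' := (mem_sdiff.1 hx).2
      simp [hx', sum_ite_mem, inter_eq_right.2 hsM]
    have b : ∀ x ∈ s, (∑ y ∈ M, if ¬(x ∈ s ↔ y ∈ s) then G s x y else 0) =
        ∑ y ∈ M \ s, G s x y := fun x hx => by
      rw [← sum_filter]
      refine sum_congr ?_ fun _ _ => rfl
      ext y; simp [hx]
    rw [sum_congr rfl a, sum_congr rfl b, sum_comm (s := M \ s),
      sum_congr rfl fun (x : β) (_ : x ∈ s) =>
        sum_congr rfl fun (y : β) (_ : y ∈ M \ s) => hsymm s y x]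
    ring
  have h2 : ∑ s ∈ P, ∑ x ∈ s, ∑ y ∈ M \ s, G s x y = ∑ τ ∈ M.powersetCard i,
      ∑ x ∈ M \ τ, ∑ y ∈ M \ τ, ((f (insert x τ) - f (insert y τ)) / 2) ^ 2 := by
    rw [sum_flip]
    refine sum_congr rfl fun s _ => sum_congr rfl fun x hx => ?_
    have hxs : M \ s = (M \ s.erase x).erase x := by
      rw [← sdiff_insert, insert_erase hx]
    calc _ = ∑ y ∈ (M \ s.erase x).erase x, ((f s - f (insert y (s.erase x))) / 2) ^ 2 := by
          rw [← hxs]
          exact sum_congr rfl fun y hy => by simp only [hG, map_swap hx (mem_sdiff.1 hy).2]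
      _ = _ := by
          rw [sum_erase _ (by simp [insert_erase hx]), insert_erase hx]
  have h3 : ∀ τ ∈ M.powersetCard i,
      ∑ x ∈ M \ τ, ∑ y ∈ M \ τ, ((f (insert x τ) - f (insert y τ)) / 2) ^ 2 =
        ((#M : ℝ) - i) / 2 * ∑ x ∈ M \ τ, f (insert x τ) ^ 2 - dn M f τ ^ 2 / 2 := by
    intro τ hτ
    have e : ∀ x y : β, ((f (insert x τ) - f (insert y τ)) / 2) ^ 2 =
        f (insert x τ) ^ 2 / 4 + f (insert y τ) ^ 2 / 4 -
          f (insert x τ) * f (insert y τ) / 2 := fun x y => by ring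
    simp only [e, sum_add_distrib, sum_sub_distrib, sum_const, nsmul_eq_mul,
      card_sdiff_real hτ, ← sum_div, ← mul_sum, ← sum_mul, dn]
    ring
  have h4 : ∑ τ ∈ M.powersetCard i, ∑ x ∈ M \ τ, f (insert x τ) ^ 2 =
      (i + 1 : ℝ) * ∑ σ ∈ P, f σ ^ 2 := by
    rw [sum_flip, mul_sum]
    refine sum_congr rfl fun σ hσ => ?_
    rw [sum_congr rfl fun z hz => by rw [insert_erase hz], sum_const, (mem_powersetCard.1 hσ).2,
      nsmul_eq_mul]
    push_cast
    ring
  change ∑ x ∈ M, ∑ y ∈ M, ∑ s ∈ diffs M (i + 1) x y, G s x y = _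
  rw [h1, h2, sum_congr rfl h3, sum_sub_distrib, ← mul_sum, h4, ← sum_div]
  ring

/-- The number of `j`-subsets of an `m`-set containing a given `i`-set. -/
def q (m j i : ℕ) : ℝ := if i ≤ j then ((m - i).choose (j - i) : ℝ) else 0

lemma q_nonneg (m j i : ℕ) : 0 ≤ q m j i := by
  unfold q; split_ifs
  · exact Nat.cast_nonneg _
  · exact le_rfl

lemma q_succ {m j i : ℕ} (hi : i < m) :
    ((m : ℝ) - i) * q m j (i + 1) = ((j : ℝ) - i) * q m j i := by
  rcases lt_trichotomy i j with h | rfl | h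
  · rw [q, q, if_pos (by omega), if_pos h.le]
    have e := Nat.add_one_mul_choose_eq (m - (i + 1)) (j - (i + 1))
    rw [show m - (i + 1) + 1 = m - i by omega, show j - (i + 1) + 1 = j - i by omega] at e
    have e' := congrArg (fun k : ℕ => (k : ℝ)) e
    simp only [Nat.cast_mul, Nat.cast_sub hi.le, Nat.cast_sub h.le] at e'
    linarith
  · simp [q]
  · simp [q, show ¬ i + 1 ≤ j by omega, show ¬ i ≤ j by omega]

lemma card_sup {M T : Finset β} (j : ℕ) (hT : T ⊆ M) :
    (#((M.powersetCard j).filter (T ⊆ ·)) : ℝ) = q #M j #T := by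
  unfold q; split_ifs with h
  · rw [card_filter_powersetCard_subset T M j hT h]
  · simp only [Nat.cast_eq_zero, card_eq_zero, filter_eq_empty_iff, mem_powersetCard]
    intro s hs hTs
    exact h (hs.2 ▸ card_le_card hTs)

/-- The sum of `f` over the `j`-subsets containing `T`. -/
def ev (M : Finset β) (j : ℕ) (f : Finset β → ℝ) (T : Finset β) : ℝ :=
  ∑ σ ∈ (M.powersetCard j).filter (T ⊆ ·), f σ

/-- The linear function with coefficients `a`. -/
def lin (a : β → ℝ) (σ : Finset β) : ℝ := ∑ z ∈ σ, a z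

lemma sum_over {M : Finset β} {S : Finset (Finset β)} (hS : ∀ σ ∈ S, σ ⊆ M)
    (G : Finset β → β → ℝ) :
    ∑ σ ∈ S, ∑ z ∈ σ, G σ z = ∑ z ∈ M, ∑ σ ∈ S.filter (z ∈ ·), G σ z := by
  simp only [sum_filter]
  rw [sum_comm]
  refine sum_congr rfl fun σ hσ => ?_
  rw [sum_ite_mem, inter_eq_right.2 (hS σ hσ)]

lemma ev_filter (M : Finset β) (j : ℕ) (f : Finset β → ℝ) (T : Finset β) (z : β) :
    ∑ σ ∈ ((M.powersetCard j).filter (T ⊆ ·)).filter (z ∈ ·), f σ = ev M j f (insert z T) := by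
  rw [ev, filter_filter]
  refine sum_congr (filter_congr fun s _ => ?_) fun _ _ => rfl
  rw [insert_subset_iff, and_comm]

lemma ev_lin {M T : Finset β} (j : ℕ) (a : β → ℝ) (hT : T ⊆ M) :
    ev M j (lin a) T = ∑ z ∈ M, a z * q #M j #(insert z T) := by
  simp only [ev, lin]
  rw [sum_over (fun σ hσ => (mem_powersetCard.1 (mem_filter.1 hσ).1).1)]
  refine sum_congr rfl fun z hz => ?_
  rw [ev_filter M j (fun _ => a z) T z, ev, sum_const, nsmul_eq_mul,
    card_sup j (insert_subset hz hT), mul_comm]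

lemma sum_mul_lin (M : Finset β) (j : ℕ) (f : Finset β → ℝ) (a : β → ℝ) :
    ∑ σ ∈ M.powersetCard j, f σ * lin a σ = ∑ z ∈ M, a z * ev M j f {z} := by
  simp only [lin, mul_sum]
  rw [sum_over (M := M) (fun σ hσ => (mem_powersetCard.1 hσ).1)]
  refine sum_congr rfl fun z _ => ?_
  rw [ev, mul_sum]
  refine sum_congr (filter_congr fun s _ => by simp) fun σ _ => mul_comm _ _

/-- The quadratic function with coefficients `b`. -/
def quad (b : β → β → ℝ) (σ : Finset β) : ℝ := ∑ x ∈ σ, ∑ y ∈ σ, b x y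

lemma sum_mul_quad (M : Finset β) (j : ℕ) (f : Finset β → ℝ) (b : β → β → ℝ) :
    ∑ σ ∈ M.powersetCard j, f σ * quad b σ = ∑ x ∈ M, ∑ y ∈ M, b x y * ev M j f {x, y} := by
  simp only [quad, mul_sum]
  rw [sum_over (M := M) (fun σ hσ => (mem_powersetCard.1 hσ).1)]
  refine sum_congr rfl fun x _ => ?_
  rw [sum_over (M := M) (fun σ hσ => (mem_powersetCard.1 (mem_filter.1 hσ).1).1)]
  refine sum_congr rfl fun y _ => ?_
  rw [ev, mul_sum, filter_filter]
  refine sum_congr (filter_congr fun s _ => by simp [insert_subset_iff]) fun σ _ => mul_comm _ _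

lemma ev_quad {M T : Finset β} (j : ℕ) (b : β → β → ℝ) (hT : T ⊆ M) :
    ev M j (quad b) T =
      ∑ z ∈ M, ∑ w ∈ M, b z w * q #M j #(insert w (insert z T)) := by
  simp only [ev, quad]
  rw [sum_over (fun σ hσ => (mem_powersetCard.1 (mem_filter.1 hσ).1).1)]
  refine sum_congr rfl fun z hz => ?_
  rw [ev_filter M j (fun σ => ∑ w ∈ σ, b z w) T z, ev,
    sum_over (fun σ hσ => (mem_powersetCard.1 (mem_filter.1 hσ).1).1)]
  refine sum_congr rfl fun w hw => ?_
  rw [ev_filter M j (fun _ => b z w) (insert z T) w, ev, sum_const, nsmul_eq_mul,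
    card_sup j (insert_subset hw (insert_subset hz hT)), mul_comm]

lemma ev_lin_one {M : Finset β} (j : ℕ) (a : β → ℝ) (ha : ∑ z ∈ M, a z = 0) {x : β} (hx : x ∈ M) :
    ev M j (lin a) {x} = (q #M j 1 - q #M j 2) * a x := by
  have e : ∀ z, a z * q #M j #(insert z ({x} : Finset β)) =
      q #M j 2 * a z + if z = x then (q #M j 1 - q #M j 2) * a z else 0 := fun z => by
    by_cases h : z = x
    · subst h; rw [if_pos rfl]; simp; ring
    · rw [if_neg h, card_pair h]; ring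
  rw [ev_lin j a (singleton_subset_iff.2 hx)]
  simp only [e, sum_add_distrib, ← mul_sum, ha]
  simp [hx]

lemma ev_lin_two {M : Finset β} (j : ℕ) (a : β → ℝ) (ha : ∑ z ∈ M, a z = 0) {x y : β}
    (hx : x ∈ M) (hy : y ∈ M) (hxy : x ≠ y) :
    ev M j (lin a) {x, y} = (q #M j 2 - q #M j 3) * (a x + a y) := by
  have e : ∀ z, a z * q #M j #(insert z ({x, y} : Finset β)) =
      q #M j 3 * a z + ((if z = x then (q #M j 2 - q #M j 3) * a z else 0) +
        if z = y then (q #M j 2 - q #M j 3) * a z else 0) := fun z => by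
    by_cases h : z = x
    · subst h; rw [if_pos rfl, if_neg hxy]; simp [card_pair hxy]; ring
    by_cases h' : z = y
    · subst h'; rw [if_pos rfl, if_neg h]; simp [card_pair hxy]; ring
    · rw [if_neg h, if_neg h']
      simp [card_insert_of_notMem, h, h', card_pair hxy]; ring
  rw [ev_lin j a (insert_subset hx (singleton_subset_iff.2 hy))]
  simp only [e, sum_add_distrib, ← mul_sum, ha]
  simp [hx, hy]; ring

lemma ev_quad_two {M : Finset β} (j : ℕ) (b : β → β → ℝ) (hsymm : ∀ z w, b z w = b w z)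
    (hdiag : ∀ z ∈ M, b z z = 0) (hrow : ∀ z ∈ M, ∑ w ∈ M, b z w = 0) {x y : β}
    (hx : x ∈ M) (hy : y ∈ M) (hxy : x ≠ y) :
    ev M j (quad b) {x, y} =
      2 * (q #M j 2 - 2 * q #M j 3 + q #M j 4) * b x y := by
  set e : β → ℝ := fun z => (if z = x then 1 else 0) + if z = y then 1 else 0 with he
  set d := q #M j 2 - 2 * q #M j 3 + q #M j 4
  set u := q #M j 3 - q #M j 4
  have h : ∀ z ∈ M, ∀ w ∈ M, b z w * q #M j #(insert w (insert z ({x, y} : Finset β))) =
      q #M j 4 * b z w + u * (e z * b z w) + u * (e w * b z w) +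
        d * (e z * (e w * b z w)) := by
    intro z hz w hw
    by_cases hzw : z = w
    · subst hzw; simp [hdiag z hz]
    have hwz : w ≠ z := Ne.symm hzw
    have key : q #M j #(insert w (insert z ({x, y} : Finset β))) =
        q #M j 4 + u * e z + u * e w + d * (e z * e w) := by
      by_cases hzx : z = x <;> by_cases hzy : z = y <;> by_cases hwx : w = x <;>
        by_cases hwy : w = y <;> (try subst_vars) <;>
        simp_all [card_insert_of_notMem, card_pair, u, d, he] <;> ring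
    rw [key]; ring
  rw [ev_quad j b (insert_subset hx (singleton_subset_iff.2 hy)),
    sum_congr rfl fun z hz => sum_congr rfl fun w hw => h z hz w hw]
  have he1 : ∀ G : β → ℝ, ∑ z ∈ M, e z * G z = G x + G y := fun G => by
    simp [he, add_mul, sum_add_distrib, hx, hy]
  have t1 : ∑ z ∈ M, ∑ w ∈ M, b z w = 0 := sum_eq_zero hrow
  have t2 : ∑ z ∈ M, e z * ∑ w ∈ M, b z w = 0 := by
    rw [he1, hrow x hx, hrow y hy, add_zero]
  have t3 : ∑ z ∈ M, ∑ w ∈ M, e w * b z w = 0 := by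
    rw [sum_comm, ← t2]
    refine sum_congr rfl fun w _ => ?_
    rw [mul_sum]
    exact sum_congr rfl fun z _ => by rw [hsymm]
  simp only [sum_add_distrib, ← mul_sum]
  rw [t1, t2, t3, he1, he1, he1, hdiag x hx, hdiag y hy, hsymm y x]
  ring

lemma rest_eq_zero {M : Finset β} {i : ℕ} (f : Finset β → ℝ) (hi : i = 0 ∨ i + 2 = #M)
    (hf : ∑ σ ∈ M.powersetCard (i + 1), f σ = 0) (hev : ∀ z ∈ M, ev M (i + 1) f {z} = 0) :
    ∑ σ ∈ M.powersetCard (i + 1), f σ ^ 2 = 0 := by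
  refine sum_eq_zero fun σ hσ => ?_
  obtain ⟨hs, hc⟩ := mem_powersetCard.1 hσ
  rcases hi with rfl | hi
  · obtain ⟨z, rfl⟩ := card_eq_one.1 hc
    have h := hev z (singleton_subset_iff.1 hs)
    rw [ev, sum_eq_single_of_mem {z} (mem_filter.2 ⟨hσ, Finset.Subset.refl _⟩) fun s hsm hne => ?_] at h
    · simp [h]
    · obtain ⟨h1, h2⟩ := mem_filter.1 hsm
      exact absurd (eq_of_subset_of_card_le h2 (by simp [(mem_powersetCard.1 h1).2])).symm hne
  · have hc' : #(M \ σ) = 1 := by rw [card_sdiff_of_subset hs]; omega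
    obtain ⟨z, hz⟩ := card_eq_one.1 hc'
    have hzm : z ∈ M ∧ z ∉ σ := mem_sdiff.1 (by rw [hz]; exact mem_singleton_self z)
    have h := hev z hzm.1
    have hout : ∑ s ∈ (M.powersetCard (i + 1)).filter (fun s => ¬ {z} ⊆ s), f s = f σ :=
      sum_eq_single_of_mem σ (mem_filter.2 ⟨hσ, by simpa using hzm.2⟩) fun s hsm hne => by
        obtain ⟨h1, h2⟩ := mem_filter.1 hsm
        refine absurd ?_ hne
        refine eq_of_subset_of_card_le (fun w hw => ?_) (by rw [(mem_powersetCard.1 h1).2, hc])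
        by_contra hw'
        have : w ∈ M \ σ := mem_sdiff.2 ⟨(mem_powersetCard.1 h1).1 hw, hw'⟩
        rw [hz, mem_singleton] at this
        exact h2 (singleton_subset_iff.2 (this ▸ hw))
    rw [← sum_filter_add_sum_filter_not (M.powersetCard (i + 1)) (fun s => {z} ⊆ s), hout] at hf
    have h' : f σ = 0 := by rw [ev] at h; linarith
    simp [h']

lemma sum_diffs {M : Finset β} (j : ℕ) (f : Finset β → ℝ) (x y : β) :
    ∑ s ∈ diffs M j x y, f s = ev M j f {x} + ev M j f {y} - 2 * ev M j f {x, y} := by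
  simp only [diffs, ev, sum_filter, ← sum_add_distrib, mul_sum, ← sum_sub_distrib,
    insert_subset_iff, singleton_subset_iff]
  refine sum_congr rfl fun s _ => ?_
  by_cases hx : x ∈ s <;> by_cases hy : y ∈ s <;> simp [hx, hy] <;> ring

lemma row_zero (M : Finset β) (j : ℕ) (R : Finset β → ℝ) {x : β}
    (hev : ev M j R {x} = 0) : ∑ y ∈ M, ev M j R {x, y} = 0 := by
  have h : ∑ σ ∈ (M.powersetCard j).filter ({x} ⊆ ·), ∑ _y ∈ σ, R σ =
      ∑ y ∈ M, ev M j R {x, y} := by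
    rw [sum_over (M := M) fun σ hσ => (mem_powersetCard.1 (mem_filter.1 hσ).1).1]
    refine sum_congr rfl fun y _ => ?_
    rw [ev_filter M j R {x} y]
    simp only [pair_comm]
  rw [← h, sum_congr rfl fun σ hσ => by
    rw [sum_const, nsmul_eq_mul, (mem_powersetCard.1 (mem_filter.1 hσ).1).2], ← mul_sum]
  rw [ev] at hev
  rw [hev, mul_zero]

/-- The number `#{σ ∋ x, σ ∌ y}`. -/
def cross (m j : ℕ) : ℝ := q m j 1 - q m j 2

lemma cross_rel {m i : ℕ} (hi : i + 1 < m) :
    ((m : ℝ) - 1) * q m (i + 1) 2 = (i : ℝ) * q m (i + 1) 1 ∧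
      (i : ℝ) * cross m (i + 1) = q m (i + 1) 2 * ((m : ℝ) - 1 - i) ∧ 0 < cross m (i + 1) := by
  have r1 : ((m : ℝ) - 1) * q m (i + 1) 2 = (i : ℝ) * q m (i + 1) 1 := by
    have := q_succ (m := m) (j := i + 1) (i := 1) (by omega)
    push_cast at this; linarith
  refine ⟨r1, by rw [cross]; linear_combination -r1, ?_⟩
  have hq : 0 < q m (i + 1) 1 := by
    rw [q, if_pos (by omega)]
    exact_mod_cast Nat.choose_pos (by omega)
  have h : ((m : ℝ) - 1) * cross m (i + 1) = ((m : ℝ) - 1 - i) * q m (i + 1) 1 := by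
    rw [cross]; linear_combination -r1
  have hm : ((i : ℝ) + 2) ≤ m := by exact_mod_cast hi
  have i0 : (0 : ℝ) ≤ i := Nat.cast_nonneg i
  have h' : 0 < ((m : ℝ) - 1 - i) * q m (i + 1) 1 := mul_pos (by linarith) hq
  exact pos_of_mul_pos_right (h ▸ h') (by linarith)

/-- The linear part is orthogonal to the rest, also after the down operator. -/
lemma split_sums (M : Finset β) (i : ℕ) (f R : Finset β → ℝ) (a : β → ℝ)
    (ha : ∑ z ∈ M, a z = 0) (hev : ∀ z ∈ M, ev M (i + 1) R {z} = 0)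
    (hfR : ∀ σ, f σ = lin a σ + R σ) :
    ∑ σ ∈ M.powersetCard (i + 1), f σ ^ 2 = cross #M (i + 1) * ∑ z ∈ M, a z ^ 2 +
        ∑ σ ∈ M.powersetCard (i + 1), R σ ^ 2 ∧
      ∑ τ ∈ M.powersetCard i, dn M f τ ^ 2 =
        ((#M : ℝ) - i - 1) * i * (cross #M (i + 1) * ∑ z ∈ M, a z ^ 2) +
          ∑ τ ∈ M.powersetCard i, dn M R τ ^ 2 := by
  set P := M.powersetCard (i + 1)
  have horth : ∑ σ ∈ P, R σ * lin a σ = 0 := by
    rw [sum_mul_lin]; exact sum_eq_zero fun z hz => by rw [hev z hz, mul_zero]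
  have hLL : ∑ σ ∈ P, lin a σ * lin a σ = cross #M (i + 1) * ∑ z ∈ M, a z ^ 2 := by
    rw [sum_mul_lin, mul_sum]
    exact sum_congr rfl fun z hz => by rw [ev_lin_one _ a ha hz, cross]; ring
  refine ⟨?_, ?_⟩
  · have e : ∀ σ, f σ ^ 2 = lin a σ * lin a σ + R σ ^ 2 + 2 * (R σ * lin a σ) := fun σ => by
      rw [hfR]; ring
    simp only [e, sum_add_distrib, ← mul_sum, horth, hLL]; ring
  have hdl : ∀ τ ∈ M.powersetCard i, dn M (lin a) τ = ((#M : ℝ) - i - 1) * lin a τ := by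
    intro τ hτ
    have e : ∀ z ∈ M \ τ, lin a (insert z τ) = a z + lin a τ := fun z hz => by
      simp [lin, sum_insert (mem_sdiff.1 hz).2]
    rw [dn, sum_congr rfl e, sum_add_distrib, sum_const, nsmul_eq_mul, card_sdiff_real hτ]
    have h := sum_sdiff (f := a) (mem_powersetCard.1 hτ).1
    rw [ha] at h
    have h' : lin a τ = ∑ z ∈ τ, a z := rfl
    linear_combination h + h'
  have hupl : ∀ σ ∈ P, up (lin a) σ = (i : ℝ) * lin a σ := by
    intro σ hσ
    have e : ∀ x ∈ σ, lin a (σ.erase x) = lin a σ - a x := fun x hx => by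
      simp [lin, sum_erase_eq_sub hx]
    rw [up, sum_congr rfl e, sum_sub_distrib, sum_const, nsmul_eq_mul, (mem_powersetCard.1 hσ).2]
    simp only [lin]; push_cast; ring
  have hadjl : ∀ F : Finset β → ℝ, ∑ τ ∈ M.powersetCard i, lin a τ * dn M F τ =
      (i : ℝ) * ∑ σ ∈ P, F σ * lin a σ := fun F => by
    rw [adj, mul_sum]
    exact sum_congr rfl fun σ hσ => by rw [hupl σ hσ]; ring
  have e : ∀ τ ∈ M.powersetCard i, dn M f τ ^ 2 =
      ((#M : ℝ) - i - 1) * (lin a τ * dn M (lin a) τ) +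
        2 * ((#M : ℝ) - i - 1) * (lin a τ * dn M R τ) + dn M R τ ^ 2 := by
    intro τ hτ
    have : dn M f τ = dn M (lin a) τ + dn M R τ := by simp only [dn, ← sum_add_distrib, ← hfR]
    rw [this, hdl τ hτ]; ring
  rw [sum_congr rfl e, sum_add_distrib, sum_add_distrib, ← mul_sum, ← mul_sum, hadjl, hadjl,
    horth, hLL]
  ring

/-- The second sum in terms of the linear and the quadratic coefficients. -/
lemma means_sum (M : Finset β) (i : ℕ) (f R : Finset β → ℝ) (a : β → ℝ)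
    (ha : ∑ z ∈ M, a z = 0) (hev : ∀ z ∈ M, ev M (i + 1) R {z} = 0)
    (hfR : ∀ σ, f σ = lin a σ + R σ) :
    ∑ x ∈ M, ∑ y ∈ M,
      (∑ s ∈ diffs M (i + 1) x y, f s) ^ 2 / #(diffs M (i + 1) x y) =
      ((cross #M (i + 1) - 2 * (q #M (i + 1) 2 - q #M (i + 1) 3)) ^ 2 *
          (2 * ((#M : ℝ) - 2) * ∑ z ∈ M, a z ^ 2) +
        4 * ∑ x ∈ M, ∑ y ∈ M, ev M (i + 1) R {x, y} ^ 2) / (2 * cross #M (i + 1)) := by
  set c := cross #M (i + 1) with hc
  set k := c - 2 * (q #M (i + 1) 2 - q #M (i + 1) 3) with hk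
  set b : β → β → ℝ := fun x y => ev M (i + 1) R {x, y} with hb
  have hbs : ∀ x y, b x y = b y x := fun x y => by simp only [hb, pair_comm]
  have hbd : ∀ x ∈ M, b x x = 0 := fun x hx => by simp [hb, hev x hx]
  have hbr : ∀ x ∈ M, ∑ y ∈ M, b x y = 0 := fun x hx => row_zero M (i + 1) R (hev x hx)
  have hpair : ∀ x ∈ M, ∀ y ∈ M,
      (∑ s ∈ diffs M (i + 1) x y, f s) ^ 2 / #(diffs M (i + 1) x y) =
        if x = y then 0 else (k * (a x + a y) - 2 * b x y) ^ 2 / (2 * c) := by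
    intro x hx y hy
    split_ifs with hxy
    · subst hxy; simp [diffs]
    have hN : (#(diffs M (i + 1) x y) : ℝ) = 2 * c := by
      have h := sum_diffs (M := M) (i + 1) (fun _ => (1 : ℝ)) x y
      simp only [ev, sum_const, nsmul_eq_mul, mul_one] at h
      rw [h, card_sup _ (singleton_subset_iff.2 hx), card_sup _ (singleton_subset_iff.2 hy),
        card_sup _ (insert_subset hx (singleton_subset_iff.2 hy)), card_pair hxy]
      simp only [card_singleton, hc, cross]; ring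
    have e : ∀ T, ev M (i + 1) f T = ev M (i + 1) (lin a) T + ev M (i + 1) R T := fun T => by
      simp only [ev, ← sum_add_distrib, ← hfR]
    rw [hN, sum_diffs, e, e, e, ev_lin_one _ a ha hx, ev_lin_one _ a ha hy,
      ev_lin_two _ a ha hx hy hxy, hev x hx, hev y hy]
    simp only [hk, hc, cross, hb]
    ring
  have e : ∀ x ∈ M, ∀ y ∈ M,
      (if x = y then 0 else (k * (a x + a y) - 2 * b x y) ^ 2 / (2 * c)) =
      (k ^ 2 * a x ^ 2 + k ^ 2 * a y ^ 2 + 2 * k ^ 2 * (a x * a y) + 4 * b x y ^ 2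
        - 4 * k * (a x * b x y) - 4 * k * (a y * b y x)
        - if x = y then 4 * k ^ 2 * a x ^ 2 else 0) / (2 * c) := by
    intro x hx y hy
    split_ifs with hxy
    · subst hxy; simp [hbd x hx]; ring
    · rw [hbs y x]; ring
  rw [sum_congr rfl fun x hx => sum_congr rfl fun y hy => (hpair x hx y hy).trans (e x hx y hy)]
  have z1 : ∑ x ∈ M, a x * ∑ y ∈ M, b x y = 0 :=
    sum_eq_zero fun x hx => by rw [hbr x hx, mul_zero]
  have z2 : ∑ x ∈ M, ∑ y ∈ M, a y * b y x = 0 := by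
    rw [sum_comm]; simp only [← mul_sum]; exact z1
  have z3 : ∑ x ∈ M, ∑ y ∈ M, (if x = y then 4 * k ^ 2 * a x ^ 2 else 0) =
      4 * k ^ 2 * ∑ z ∈ M, a z ^ 2 := by
    rw [mul_sum]
    exact sum_congr rfl fun x hx => by simp [hx]
  simp only [← sum_div, sum_sub_distrib, sum_add_distrib, ← mul_sum, sum_const, nsmul_eq_mul,
    ← sum_mul, z1, z2, z3, ha]
  ring

lemma sq_coeff_le {m i : ℕ} (hi : i + 1 < m) :
    (cross m (i + 1) - 2 * (q m (i + 1) 2 - q m (i + 1) 3)) ^ 2 * ((m : ℝ) - 2) ≤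
      ((m : ℝ) - 2) * cross m (i + 1) ^ 2 := by
  set c := cross m (i + 1) with hc
  set k := c - 2 * (q m (i + 1) 2 - q m (i + 1) 3) with hk
  by_cases h2 : m ≤ 2
  · obtain rfl : m = 2 := by omega
    norm_num
  have r1 := (cross_rel hi).1
  have r2 : ((m : ℝ) - 2) * q m (i + 1) 3 = ((i : ℝ) - 1) * q m (i + 1) 2 := by
    have := q_succ (m := m) (j := i + 1) (i := 2) (by omega)
    push_cast at this; linarith
  have hm3 : (3 : ℝ) ≤ m := by exact_mod_cast (by omega : 3 ≤ m)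
  have hi' : ((i : ℝ) + 2) ≤ m := by exact_mod_cast hi
  have i0 : (0 : ℝ) ≤ i := Nat.cast_nonneg i
  have hk' : ((m : ℝ) - 2) * k = c * ((m : ℝ) - 2 * (i + 1)) := by
    simp only [hk, hc, cross]; linear_combination 2 * r2 - 2 * r1
  have hsq : (((m : ℝ) - 2) * k) ^ 2 ≤ (((m : ℝ) - 2) * c) ^ 2 := by
    rw [hk', mul_pow, mul_pow, mul_comm (c ^ 2)]
    refine mul_le_mul_of_nonneg_right (sq_le_sq' ?_ ?_) (sq_nonneg c) <;> linarith
  have h2' : ((m : ℝ) - 2) * (k ^ 2 * ((m : ℝ) - 2)) ≤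
      ((m : ℝ) - 2) * (((m : ℝ) - 2) * c ^ 2) := by linarith
  exact le_of_mul_le_mul_left h2' (by linarith)

lemma four_d_le {m i : ℕ} (h1 : 1 ≤ i) (h3 : i + 3 ≤ m) :
    4 * (q m (i + 1) 2 - 2 * q m (i + 1) 3 + q m (i + 1) 4) ≤
      ((m : ℝ) - 2) * cross m (i + 1) := by
  obtain ⟨-, hc', -⟩ := cross_rel (m := m) (i := i) (by omega)
  set q2 := q m (i + 1) 2 with hq2
  set q3 := q m (i + 1) 3
  set q4 := q m (i + 1) 4
  set c := cross m (i + 1)
  have r2 : ((m : ℝ) - 2) * q3 = ((i : ℝ) - 1) * q2 := by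
    have := q_succ (m := m) (j := i + 1) (i := 2) (by omega)
    push_cast at this; linarith
  have r3 : ((m : ℝ) - 3) * q4 = ((i : ℝ) - 2) * q3 := by
    have := q_succ (m := m) (j := i + 1) (i := 3) (by omega)
    push_cast at this; linarith
  have hi1 : (1 : ℝ) ≤ i := by exact_mod_cast h1
  have him : (i : ℝ) + 3 ≤ m := by exact_mod_cast h3
  refine le_of_mul_le_mul_left ?_
    (show (0 : ℝ) < i * (((m : ℝ) - 2) * ((m : ℝ) - 3)) from
      mul_pos (by linarith) (mul_pos (by linarith) (by linarith)))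
  have e1 : (i : ℝ) * (((m : ℝ) - 2) * ((m : ℝ) - 3)) * (4 * (q2 - 2 * q3 + q4)) =
      q2 * ((m : ℝ) - i - 1) * (4 * (i * ((m : ℝ) - i - 2))) := by
    linear_combination 4 * (i : ℝ) * ((m : ℝ) - 2) * r3 +
      4 * (i : ℝ) * ((i : ℝ) - 2 - 2 * ((m : ℝ) - 3)) * r2
  have e2 : (i : ℝ) * (((m : ℝ) - 2) * ((m : ℝ) - 3)) * (((m : ℝ) - 2) * c) =
      q2 * ((m : ℝ) - i - 1) * (((m : ℝ) - 2) ^ 2 * ((m : ℝ) - 3)) := by
    linear_combination ((m : ℝ) - 2) ^ 2 * ((m : ℝ) - 3) * hc'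
  rw [e1, e2]
  refine mul_le_mul_of_nonneg_left ?_
    (mul_nonneg (hq2 ▸ q_nonneg _ _ _) (by linarith))
  calc 4 * ((i : ℝ) * ((m : ℝ) - i - 2)) ≤ ((m : ℝ) - 2) ^ 2 := by
        nlinarith [sq_nonneg (2 * (i : ℝ) - ((m : ℝ) - 2))]
    _ ≤ ((m : ℝ) - 2) ^ 2 * ((m : ℝ) - 3) := le_mul_of_one_le_right (sq_nonneg _) (by linarith)

/-- The quadratic coefficients of the rest are dominated by its variance. -/
lemma rest_bound (M : Finset β) (i : ℕ) (hi : i + 1 < #M) (R : Finset β → ℝ)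
    (hR0 : ∑ σ ∈ M.powersetCard (i + 1), R σ = 0)
    (hev : ∀ z ∈ M, ev M (i + 1) R {z} = 0) :
    4 * ∑ x ∈ M, ∑ y ∈ M, ev M (i + 1) R {x, y} ^ 2 ≤
      2 * ((#M : ℝ) - 2) * cross #M (i + 1) * ∑ σ ∈ M.powersetCard (i + 1), R σ ^ 2 := by
  set b : β → β → ℝ := fun x y => ev M (i + 1) R {x, y} with hb
  set B := ∑ x ∈ M, ∑ y ∈ M, ev M (i + 1) R {x, y} ^ 2 with hB
  set QR := ∑ σ ∈ M.powersetCard (i + 1), R σ ^ 2 with hQR
  set d := q #M (i + 1) 2 - 2 * q #M (i + 1) 3 + q #M (i + 1) 4 with hd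
  have hQR0 : 0 ≤ QR := sum_nonneg fun _ _ => sq_nonneg _
  have hbs : ∀ x y, b x y = b y x := fun x y => by simp only [hb, pair_comm]
  have hbd : ∀ x ∈ M, b x x = 0 := fun x hx => by simp [hb, hev x hx]
  have hbr : ∀ x ∈ M, ∑ y ∈ M, b x y = 0 := fun x hx => row_zero M (i + 1) R (hev x hx)
  have hb1 : ∑ σ ∈ M.powersetCard (i + 1), R σ * quad b σ = B := by
    rw [sum_mul_quad, hB]; simp only [hb, pow_two]
  have hb2 : ∑ σ ∈ M.powersetCard (i + 1), quad b σ ^ 2 = 2 * d * B := by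
    simp only [pow_two]
    rw [sum_mul_quad, hB, mul_sum]
    refine sum_congr rfl fun x hx => ?_
    rw [mul_sum]
    refine sum_congr rfl fun y hy => ?_
    by_cases hxy : x = y
    · subst hxy; simp [hb, hev x hx]
    rw [ev_quad_two _ b hbs hbd hbr hx hy hxy, hd]; ring
  have hB0 : 0 ≤ B := sum_nonneg fun _ _ => sum_nonneg fun _ _ => sq_nonneg _
  have hcs : B ^ 2 ≤ QR * (2 * d * B) := by
    rw [← hb2, ← hb1]; exact sum_mul_sq_le_sq_mul_sq _ _ _
  have hm : ((i : ℝ) + 2) ≤ #M := by exact_mod_cast hi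
  have i0 : (0 : ℝ) ≤ i := Nat.cast_nonneg i
  have hrhs : 0 ≤ 2 * ((#M : ℝ) - 2) * cross #M (i + 1) * QR :=
    mul_nonneg (mul_nonneg (by linarith) (cross_rel hi).2.2.le) hQR0
  rcases hB0.eq_or_lt with h0 | h0
  · linarith
  by_cases hedge : i = 0 ∨ i + 2 = #M
  · have hz : QR = 0 := rest_eq_zero R hedge hR0 hev
    rw [hz, zero_mul] at hcs
    linarith [pow_pos h0 2]
  obtain ⟨hi0, him⟩ := not_or.1 hedge
  have hB' : B ≤ QR * (2 * d) := le_of_mul_le_mul_right (by linarith) h0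
  have hfour := four_d_le (m := #M) (i := i) (by omega) (by omega)
  have h5 : QR * (4 * d) ≤ QR * (((#M : ℝ) - 2) * cross #M (i + 1)) :=
    mul_le_mul_of_nonneg_left hfour hQR0
  linarith

/-- The inequality for mean zero on a proper slice. -/
lemma core (M : Finset β) (i : ℕ) (hi : i + 1 < #M) (f : Finset β → ℝ)
    (hf : ∑ σ ∈ M.powersetCard (i + 1), f σ = 0) :
    ∑ σ ∈ M.powersetCard (i + 1), f σ ^ 2 + 1 / 2 * ∑ x ∈ M, ∑ y ∈ M,
        (∑ s ∈ diffs M (i + 1) x y, f s) ^ 2 / #(diffs M (i + 1) x y) ≤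
      1 / 2 * ∑ x ∈ M, ∑ y ∈ M, ∑ s ∈ diffs M (i + 1) x y,
        ((f s - f (s.map (Equiv.swap x y).toEmbedding)) / 2) ^ 2 := by
  obtain ⟨-, -, hcpos⟩ := cross_rel hi
  set a : β → ℝ := fun z => ev M (i + 1) f {z} / cross #M (i + 1) with ha'
  have ha : ∑ z ∈ M, a z = 0 := by
    have h := sum_mul_lin M (i + 1) f fun _ => 1
    simp only [one_mul, lin, sum_const, nsmul_eq_mul, mul_one] at h
    rw [sum_congr rfl fun σ hσ => by rw [(mem_powersetCard.1 hσ).2], ← sum_mul, hf, zero_mul] at h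
    rw [ha', ← sum_div, ← h, zero_div]
  set R : Finset β → ℝ := fun σ => f σ - lin a σ with hR
  have hev : ∀ z ∈ M, ev M (i + 1) R {z} = 0 := by
    intro z hz
    have e : ev M (i + 1) R {z} = ev M (i + 1) f {z} - ev M (i + 1) (lin a) {z} := by
      simp only [ev, hR, sum_sub_distrib]
    rw [e, ev_lin_one _ a ha hz, ← cross]
    simp only [ha']
    rw [mul_div_cancel₀ _ hcpos.ne', sub_self]
  have hR0 : ∑ σ ∈ M.powersetCard (i + 1), R σ = 0 := by
    have h := sum_mul_lin M (i + 1) R fun _ => 1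
    simp only [lin, sum_const, nsmul_eq_mul, mul_one] at h
    rw [sum_eq_zero (f := fun z => (1 : ℝ) * ev M (i + 1) R {z})
      (fun z hz => by rw [hev z hz, mul_zero]),
      sum_congr rfl fun σ hσ => by rw [(mem_powersetCard.1 hσ).2], ← sum_mul] at h
    exact (mul_eq_zero.1 h).resolve_right (Nat.cast_ne_zero.2 (by omega))
  have hfR : ∀ σ, f σ = lin a σ + R σ := fun σ => by simp only [hR]; ring
  obtain ⟨hQ, hDf⟩ := split_sums M i f R a ha hev hfR
  have hp := poincare M i R hR0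
  have hrest := rest_bound M i hi R hR0 hev
  have hlin := mul_le_mul_of_nonneg_right (sq_coeff_le hi)
    (sum_nonneg fun z (_ : z ∈ M) => sq_nonneg (a z))
  rw [dir_eq, means_sum M i f R a ha hev hfR, hQ, hDf]
  clear_value R
  clear ha' hR hfR hev hR0 hQ hDf
  clear_value a
  generalize cross #M (i + 1) = c at *
  generalize ∑ z ∈ M, a z ^ 2 = A at *
  generalize ∑ σ ∈ M.powersetCard (i + 1), R σ ^ 2 = QR at *
  generalize ∑ τ ∈ M.powersetCard i, dn M R τ ^ 2 = DR at *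
  generalize ∑ x ∈ M, ∑ y ∈ M, ev M (i + 1) R {x, y} ^ 2 = B at *
  generalize (c - 2 * (q #M (i + 1) 2 - q #M (i + 1) 3)) = k at *
  generalize (#M : ℝ) = m at *
  have hfrac : (k ^ 2 * (2 * (m - 2) * A) + 4 * B) / (2 * c) ≤ (m - 2) * (c * A + QR) := by
    rw [div_le_iff₀ (by linarith)]
    linarith
  have key : m * (c * A + QR) ≤
      (m - i) * (i + 1) * (c * A + QR) - ((m - i - 1) * i * (c * A) + DR) := by linarith
  linarith

/-- Step (5): for a function on a slice, half the squared differences under exchanges exceed the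
squared deviations of the means over the exchanged sets by at least the variance. -/
theorem slice_phi (M : Finset β) (j : ℕ) (F : Finset β → ℝ) :
    let μ := (∑ s ∈ M.powersetCard j, F s) / #(M.powersetCard j)
    ∑ s ∈ M.powersetCard j, (F s - μ) ^ 2 + 1 / 2 * ∑ x ∈ M, ∑ y ∈ M,
        (#(diffs M j x y) : ℝ) * ((∑ s ∈ diffs M j x y, F s) / #(diffs M j x y) - μ) ^ 2 ≤
      1 / 2 * ∑ x ∈ M, ∑ y ∈ M, ∑ s ∈ diffs M j x y,
        ((F s - F (s.map (Equiv.swap x y).toEmbedding)) / 2) ^ 2 := by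
  intro μ
  set f : Finset β → ℝ := fun s => F s - μ with hf'
  have hf : ∑ s ∈ M.powersetCard j, f s = 0 := by
    simp only [hf', sum_sub_distrib, sum_const, nsmul_eq_mul, μ]
    rcases eq_or_ne (M.powersetCard j) ∅ with h | h
    · simp [h]
    · rw [mul_div_cancel₀, sub_self]
      exact_mod_cast (card_pos.2 (nonempty_iff_ne_empty.2 h)).ne'
  have hmean : ∀ x y, (#(diffs M j x y) : ℝ) *
      ((∑ s ∈ diffs M j x y, F s) / #(diffs M j x y) - μ) ^ 2 =
      (∑ s ∈ diffs M j x y, f s) ^ 2 / #(diffs M j x y) := fun x y => by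
    simp only [hf', sum_sub_distrib, sum_const, nsmul_eq_mul]
    rcases eq_or_ne (#(diffs M j x y) : ℝ) 0 with h | h
    · simp [h]
    · field_simp
  simp only [hmean]
  have hdiff : ∀ s t, F s - F t = f s - f t := fun s t => by simp only [hf']; ring
  simp only [hdiff]
  change ∑ s ∈ M.powersetCard j, f s ^ 2 + _ ≤ _
  by_cases hj : 0 < j ∧ j < #M
  · obtain ⟨i, rfl⟩ : ∃ i, j = i + 1 := ⟨j - 1, by omega⟩
    exact core M i hj.2 f hf
  · have hD : ∀ x ∈ M, ∀ y ∈ M, diffs M j x y = ∅ := by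
      intro x hx y hy
      rw [diffs, filter_eq_empty_iff]
      intro s hs
      obtain ⟨h1, h2⟩ := mem_powersetCard.1 hs
      rw [not_not]
      rcases Nat.eq_zero_or_pos j with rfl | hj0
      · simp [card_eq_zero.1 h2]
      · have := card_le_card h1
        have : s = M := eq_of_subset_of_card_le h1 (by omega)
        simp [this, hx, hy]
    have hP : ∀ s ∈ M.powersetCard j, f s = 0 := by
      intro s hs
      rw [sum_eq_single_of_mem s hs fun t ht hne => absurd ?_ hne] at hf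
      · exact hf
      · obtain ⟨h1, h2⟩ := mem_powersetCard.1 hs
        obtain ⟨h3, h4⟩ := mem_powersetCard.1 ht
        rcases Nat.eq_zero_or_pos j with rfl | hj0
        · rw [card_eq_zero.1 h2, card_eq_zero.1 h4]
        · have := card_le_card h1
          rw [eq_of_subset_of_card_le h1 (by omega), eq_of_subset_of_card_le h3 (by omega)]
    rw [sum_eq_zero fun s hs => by rw [hP s hs, zero_pow two_ne_zero],
      sum_eq_zero fun x hx => sum_eq_zero fun y hy => by simp [hD x hx y hy],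
      sum_eq_zero fun x hx => sum_eq_zero fun y hy => by simp [hD x hx y hy]]
    simp

/-- The `j`-subsets meeting the pair `q` in one point. -/
def Sq (M : Finset β) (j : ℕ) (q : Finset β) : Finset (Finset β) :=
  (M.powersetCard j).filter fun σ => #(σ ∩ q) = 1

lemma Sq_pair (M : Finset β) (j : ℕ) {x y : β} (hxy : x ≠ y) :
    Sq M j {x, y} = diffs M j x y := by
  refine filter_congr fun s _ => ?_
  by_cases hx : x ∈ s <;> by_cases hy : y ∈ s <;>
    simp [hx, hy, hxy, inter_insert_of_mem, inter_insert_of_notMem]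

lemma symmDiff_pair {M : Finset β} {j : ℕ} {x y : β} {s : Finset β} (h : s ∈ diffs M j x y) :
    symmDiff s {x, y} = s.map (Equiv.swap x y).toEmbedding := by
  have h' := (mem_filter.1 h).2
  ext z
  rw [mem_map_equiv, Equiv.symm_swap, mem_symmDiff, mem_insert, mem_singleton]
  by_cases h1 : z = x
  · subst h1; rw [Equiv.swap_apply_left]; tauto
  by_cases h2 : z = y
  · subst h2; rw [Equiv.swap_apply_right]; tauto
  · rw [Equiv.swap_apply_of_ne_of_ne h1 h2]; tauto

lemma sum_pairs (M : Finset β) (G : Finset β → ℝ) (G' : β → β → ℝ)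
    (h0 : ∀ x ∈ M, G' x x = 0) (hG : ∀ x ∈ M, ∀ y ∈ M, x ≠ y → G' x y = G {x, y}) :
    ∑ q ∈ M.powersetCard 2, G q = 1 / 2 * ∑ x ∈ M, ∑ y ∈ M, G' x y := by
  have hmap : ∀ p ∈ M.offDiag, ({p.1, p.2} : Finset β) ∈ M.powersetCard 2 := fun p hp => by
    obtain ⟨h1, h2, h3⟩ := mem_offDiag.1 hp
    exact mem_powersetCard.2 ⟨insert_subset h1 (singleton_subset_iff.2 h2), card_pair h3⟩
  have e1 : ∑ x ∈ M, ∑ y ∈ M, G' x y = ∑ p ∈ M.offDiag, G {p.1, p.2} := by
    rw [← sum_product', ← diag_union_offDiag M, sum_union (disjoint_diag_offDiag M),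
      sum_eq_zero (s := M.diag) fun p hp => by
        obtain ⟨h1, h2⟩ := mem_diag.1 hp; rw [← h2]; exact h0 _ h1, zero_add]
    exact sum_congr rfl fun p hp => by
      obtain ⟨h1, h2, h3⟩ := mem_offDiag.1 hp; exact hG _ h1 _ h2 h3
  rw [e1, ← sum_fiberwise_of_maps_to hmap (fun p => G {p.1, p.2}), mul_sum]
  refine sum_congr rfl fun q hq => ?_
  obtain ⟨u, v, huv, rfl⟩ := card_eq_two.1 (mem_powersetCard.1 hq).2
  have hu := (mem_powersetCard.1 hq).1 (mem_insert_self u {v})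
  have hv := (mem_powersetCard.1 hq).1 (mem_insert_of_mem (mem_singleton_self v))
  have e : M.offDiag.filter (fun p : β × β => ({p.1, p.2} : Finset β) = {u, v}) =
      {(u, v), (v, u)} := by
    ext ⟨a, b⟩
    simp only [mem_filter, mem_offDiag, mem_insert, mem_singleton, Prod.mk.injEq]
    constructor
    · rintro ⟨⟨-, -, hab⟩, h⟩
      have ha : a ∈ ({u, v} : Finset β) := h ▸ mem_insert_self a {b}
      have hb : b ∈ ({u, v} : Finset β) := h ▸ mem_insert_of_mem (mem_singleton_self b)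
      simp only [mem_insert, mem_singleton] at ha hb
      rcases ha with rfl | rfl <;> rcases hb with rfl | rfl <;> simp_all
    · rintro (⟨rfl, rfl⟩ | ⟨rfl, rfl⟩)
      · exact ⟨⟨hu, hv, huv⟩, rfl⟩
      · exact ⟨⟨hv, hu, huv.symm⟩, pair_comm _ _⟩
  rw [e, sum_pair (by simp [huv]), pair_comm v u]
  ring

lemma phi_pairs (M : Finset β) (j : ℕ) (F : Finset β → ℝ) :
    let μ := (∑ s ∈ M.powersetCard j, F s) / #(M.powersetCard j)
    ∑ s ∈ M.powersetCard j, (F s - μ) ^ 2 + ∑ q ∈ M.powersetCard 2,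
        (#(Sq M j q) : ℝ) * ((∑ s ∈ Sq M j q, F s) / #(Sq M j q) - μ) ^ 2 ≤
      ∑ q ∈ M.powersetCard 2, ∑ s ∈ Sq M j q, ((F s - F (symmDiff s q)) / 2) ^ 2 := by
  intro μ
  rw [sum_pairs M _ (fun x y => (#(diffs M j x y) : ℝ) *
      ((∑ s ∈ diffs M j x y, F s) / #(diffs M j x y) - μ) ^ 2)
      (fun x _ => by simp [diffs]) (fun x _ y _ h => by rw [Sq_pair M j h]),
    sum_pairs M _ (fun x y => ∑ s ∈ diffs M j x y,
      ((F s - F (s.map (Equiv.swap x y).toEmbedding)) / 2) ^ 2)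
      (fun x _ => by simp [diffs]) (fun x _ y _ h => by
        rw [Sq_pair M j h]
        exact sum_congr rfl fun s hs => by rw [symmDiff_pair hs])]
  exact slice_phi M j F

/-- (A): flips control the variance on the slice. -/
theorem slice_var_le (M : Finset β) (j : ℕ) (F : Finset β → ℝ) :
    let μ := (∑ s ∈ M.powersetCard j, F s) / #(M.powersetCard j)
    ∑ s ∈ M.powersetCard j, (F s - μ) ^ 2 ≤
      1 / 2 * ∑ q ∈ M.powersetCard 2, ∑ s ∈ Sq M j q, (F (symmDiff s q) - F s) ^ 2 := by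
  intro μ
  refine le_trans (le_trans (le_add_of_nonneg_right ?_) (phi_pairs M j F)) ?_
  · exact sum_nonneg fun _ _ => mul_nonneg (Nat.cast_nonneg _) (sq_nonneg _)
  · rw [mul_sum]
    refine sum_le_sum fun q _ => ?_
    rw [mul_sum]
    refine sum_le_sum fun s _ => ?_
    linarith [sq_nonneg (F (symmDiff s q) - F s),
      show ((F s - F (symmDiff s q)) / 2) ^ 2 = 1 / 4 * (F (symmDiff s q) - F s) ^ 2 by ring]

/-- (B): the deviations of the means are below the squared antisymmetric parts. -/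
theorem slice_means_le (M : Finset β) (j : ℕ) (F : Finset β → ℝ) :
    let μ := (∑ s ∈ M.powersetCard j, F s) / #(M.powersetCard j)
    ∑ q ∈ M.powersetCard 2, ∑ _s ∈ Sq M j q,
        ((∑ t ∈ Sq M j q, F t) / #(Sq M j q) - μ) ^ 2 ≤
      ∑ q ∈ M.powersetCard 2, ∑ s ∈ Sq M j q, ((F s - F (symmDiff s q)) / 2) ^ 2 := by
  intro μ
  simp only [sum_const, nsmul_eq_mul]
  exact le_trans (le_add_of_nonneg_left (sum_nonneg fun _ _ => sq_nonneg _)) (phi_pairs M j F)

end Vale.Agent.P335.Slice
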