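import Vale.Agent.P335.DisjointKeys
import Vale.Agent.P335.Quad
import Vale.Agent.P335.Fibre
import Vale.Agent.P335.Slice

/-!
# P335: disjoint pairs have nonnegative total correlation
-/

open Finset
open scoped Classical

namespace Vale.Agent.P335

variable {n : ℕ} {d : Fin n → ℕ}

/-- The share of one pair in the correlation of two disjoint pairs. -/
noncomputable def pairShare (p q : Finset (Fin n)) (f : Rz d → ℝ) : ℝ :=
  ∑ G, ((f G - f (swapQ p q G)) / 2) ^ 2 -
    ∑ G ∈ univ.filter (IsD p q),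
      (cavg (fun u => (key p u, IsD p q u)) f G - cavg (key p) f G) ^ 2

theorem quad_graph {a b x y : Fin n} (h : Four a b x y) (f : Rz d → ℝ) :
    pairShare {a, b} {x, y} f + pairShare {x, y} {a, b} f ≤
      2 * ∑ G, dev (key {a, b}) f G * dev (key {x, y}) f G := by
  have hD' : (IsD {x, y} {a, b} : Rz d → Prop) = IsD {a, b} {x, y} :=
    funext fun G => propext (isD_symm _ _ G)
  have hcA : ∀ u v : Rz d, keyA a b x y u = keyA a b x y v →
      ctx a b x y u = ctx a b x y v := fun u v e => (key_ab h (Prod.ext_iff.1 e).1).1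
  have hcX : ∀ u v : Rz d, keyX a b x y u = keyX a b x y v →
      ctx a b x y u = ctx a b x y v := fun u v e => (key_xy h (Prod.ext_iff.1 e).1).1
  have hq := quad_ineq (key {a, b}) (key {x, y}) (keyA a b x y) (keyX a b x y)
    (swapQ {a, b} {x, y}) (IsD {a, b} {x, y}) (swapQ_invol h)
    (fun G => (key_swapQ h G).1) (fun G => (key_swapQ h G).2)
    (fun u v e => Prod.ext
      ((key_swapQ h u).1.trans ((Prod.ext_iff.1 e).1.trans (key_swapQ h v).1.symm))
      (blk2_swapQ h (blkT_eq (hcA u v e)) (Prod.ext_iff.1 e).2))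
    (fun u v e => Prod.ext
      ((key_swapQ h u).2.trans ((Prod.ext_iff.1 e).1.trans (key_swapQ h v).2.symm))
      (blk2_swapQ h (blkT_eq (hcX u v e)) (Prod.ext_iff.1 e).2))
    (isD_swapQ h)
    (fun u v e => ⟨isD_of_blk2 h (blkT_eq (hcA u v e)).symm (Prod.ext_iff.1 e).2.symm,
      isD_of_blk2 h (blkT_eq (hcA u v e)) (Prod.ext_iff.1 e).2⟩)
    (fun u v e => ⟨isD_of_blk2 h (blkT_eq (hcX u v e)).symm (Prod.ext_iff.1 e).2.symm,
      isD_of_blk2 h (blkT_eq (hcX u v e)) (Prod.ext_iff.1 e).2⟩)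
    (fun u v e => (Prod.ext_iff.1 e).1) (fun u v e => (Prod.ext_iff.1 e).1)
    (cavg_comm_of_rect _ _ (fun G => (ctx a b x y G, blk2 a b x y G))
      (fun u v e => Prod.ext (hcA u v e) (Prod.ext_iff.1 e).2)
      (fun u v e => Prod.ext (hcX u v e) (Prod.ext_iff.1 e).2)
      (exists_keyA_keyX h)
      (fun u v e e' => ext_keys2 h (Prod.ext_iff.1 e).1 (Prod.ext_iff.1 e').1 (Prod.ext_iff.1 e).2))
    (cavg_comm_of_rect _ _ (fun G => (ctx a b x y G, rowS2 a b x y G))
      (fun u v e => by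
        refine Prod.ext (hcA u v e) ?_
        have hT := blkT_eq (hcA u v e)
        simp only [rowS2, hT]
        split_ifs with c
        · have := blk_of_blk2 hT c (Prod.ext_iff.1 e).2
          simp only [blk, rowS, Prod.mk.injEq] at this ⊢
          omega
        · rfl)
      (fun u v e => by
        obtain ⟨hc, hr, -⟩ := key_xy h e
        exact Prod.ext hc (by simp only [rowS2, blkT_eq hc, hr]))
      (exists_keyA_key h)
      (fun u v e e' => ext_keys2 h (Prod.ext_iff.1 e).1 e' (Prod.ext_iff.1 e).2))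
    (cavg_comm_of_rect _ _ (fun G => (ctx a b x y G, colS2 a b x y G))
      (fun u v e => by
        obtain ⟨hc, hs, -⟩ := key_ab h e
        exact Prod.ext hc (by simp only [colS2, blkT_eq hc, hs]))
      (fun u v e => by
        refine Prod.ext (hcX u v e) ?_
        have hT := blkT_eq (hcX u v e)
        simp only [colS2, hT]
        split_ifs with c
        · have := blk_of_blk2 hT c (Prod.ext_iff.1 e).2
          simp only [blk, colS, Prod.mk.injEq] at this ⊢
          omega
        · rfl)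
      (exists_key_keyX h)
      (fun u v e e' => ext_keys2 h e (Prod.ext_iff.1 e').1 (Prod.ext_iff.1 e').2))
    (block_determined h) (diag_fibre_ab h) (diag_fibre_xy h) f
  simp only [pairShare, swapQ_symm {a, b} {x, y}, hD']
  exact hq

theorem pair_share_le (p q : Finset (Fin n)) (hp : #p = 2) (hq : q ∈ pᶜ.powersetCard 2)
    (f : Rz d → ℝ) :
    pairShare p q f + pairShare q p f ≤ 2 * ∑ G, dev (key p) f G * dev (key q) f G := by
  obtain ⟨hsub, hq2⟩ := mem_powersetCard.1 hq
  obtain ⟨a, b, hab, rfl⟩ := card_eq_two.1 hp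
  obtain ⟨x, y, hxy, rfl⟩ := card_eq_two.1 hq2
  have hx := hsub (show x ∈ ({x, y} : Finset (Fin n)) by simp)
  have hy := hsub (show y ∈ ({x, y} : Finset (Fin n)) by simp)
  simp only [mem_compl, mem_insert, mem_singleton, not_or] at hx hy
  exact quad_graph ⟨hab, Ne.symm hx.1, Ne.symm hy.1, Ne.symm hx.2, Ne.symm hy.2, hxy⟩ f

theorem pairShare_sum_nonneg {p : Finset (Fin n)} (hp : #p = 2) (f : Rz d → ℝ) :
    0 ≤ ∑ q ∈ pᶜ.powersetCard 2, pairShare p q f := by
  simp only [pairShare, sum_sub_distrib, sub_nonneg]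
  exact pair_defect_le (fun M j F => Slice.slice_means_le M j F) hp f

/-- The disjoint pairs contribute a nonnegative amount. -/
theorem disjoint_sum_nonneg (f : Rz d → ℝ) :
    0 ≤ ∑ p ∈ (univ : Finset (Fin n)).powersetCard 2, ∑ q ∈ pᶜ.powersetCard 2,
      ∑ G, dev (key p) f G * dev (key q) f G := by
  set P := (univ : Finset (Fin n)).powersetCard 2
  have hsymm : ∑ p ∈ P, ∑ q ∈ pᶜ.powersetCard 2, pairShare q p f =
      ∑ p ∈ P, ∑ q ∈ pᶜ.powersetCard 2, pairShare p q f := by
    refine sum_comm' fun p q => ?_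
    simp only [P, mem_powersetCard, subset_univ, true_and]
    constructor
    · rintro ⟨hp, hq, hq2⟩
      exact ⟨⟨subset_compl_comm.1 hq, hp⟩, hq2⟩
    · rintro ⟨⟨hp, hp2⟩, hq⟩
      exact ⟨hp2, subset_compl_comm.1 hp, hq⟩
  have h2 : 2 * ∑ p ∈ P, ∑ q ∈ pᶜ.powersetCard 2, pairShare p q f ≤
      2 * ∑ p ∈ P, ∑ q ∈ pᶜ.powersetCard 2, ∑ G, dev (key p) f G * dev (key q) f G := by
    calc 2 * ∑ p ∈ P, ∑ q ∈ pᶜ.powersetCard 2, pairShare p q f
        = ∑ p ∈ P, ∑ q ∈ pᶜ.powersetCard 2, (pairShare p q f + pairShare q p f) := by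
          simp only [sum_add_distrib, hsymm]
          ring
      _ ≤ ∑ p ∈ P, ∑ q ∈ pᶜ.powersetCard 2, 2 * ∑ G, dev (key p) f G * dev (key q) f G :=
          sum_le_sum fun p hp => sum_le_sum fun q hq =>
            pair_share_le p q (mem_powersetCard.1 hp).2 hq f
      _ = _ := by simp only [mul_sum]
  have h0 : 0 ≤ ∑ p ∈ P, ∑ q ∈ pᶜ.powersetCard 2, pairShare p q f :=
    sum_nonneg fun p hp => pairShare_sum_nonneg (mem_powersetCard.1 hp).2 f
  linarith

end Vale.Agent.P335
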