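import Vale.Agent.P335.Graph

/-!
# P335: the states of two disjoint pairs

For distinct `a b x y` the states over a fixed context are the edges from `{a, b}` to the other
vertices, those from `{x, y}` to the other vertices, and the block between the two pairs. Two
states with a common context merge as soon as a block with the required sums exists.
-/

open Finset
open scoped Classical

namespace Vale.Agent.P335

variable {n : ℕ} {d : Fin n → ℕ}

/-- Four distinct vertices. -/
structure Four (a b x y : Fin n) : Prop where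
  ab : a ≠ b
  ax : a ≠ x
  ay : a ≠ y
  bx : b ≠ x
  b_y : b ≠ y
  xy : x ≠ y

/-- The other vertices. -/
def Oth (a b x y z : Fin n) : Prop := z ≠ a ∧ z ≠ b ∧ z ≠ x ∧ z ≠ y

/-- The block between the pairs. -/
noncomputable def blk (a b x y : Fin n) (G : Rz d) : ℕ × ℕ × ℕ × ℕ :=
  (ind G.1 a x, ind G.1 a y, ind G.1 b x, ind G.1 b y)

/-- Its number of edges. -/
noncomputable def blkT (a b x y : Fin n) (G : Rz d) : ℕ :=
  ind G.1 a x + ind G.1 a y + ind G.1 b x + ind G.1 b y

/-- Its row sums. -/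
noncomputable def rowS (a b x y : Fin n) (G : Rz d) : ℕ × ℕ :=
  (ind G.1 a x + ind G.1 a y, ind G.1 b x + ind G.1 b y)

/-- Its column sums. -/
noncomputable def colS (a b x y : Fin n) (G : Rz d) : ℕ × ℕ :=
  (ind G.1 a x + ind G.1 b x, ind G.1 a y + ind G.1 b y)

/-- The data common to the resampling of either pair. -/
noncomputable def ctx (a b x y : Fin n) (G : Rz d) :
    (Fin n → Fin n → ℕ) × (Fin n → ℕ) × (Fin n → ℕ) × ℕ × ℕ × ℕ :=
  (fun u v => if Oth a b x y u ∧ Oth a b x y v then ind G.1 u v else 0,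
    fun z => if Oth a b x y z then ind G.1 a z + ind G.1 b z else 0,
    fun z => if Oth a b x y z then ind G.1 x z + ind G.1 y z else 0,
    ind G.1 a b, ind G.1 x y, blkT a b x y G)

variable {a b x y : Fin n}

theorem ctx_eq_iff {G H : Rz d} : ctx a b x y G = ctx a b x y H ↔
    (∀ u v, Oth a b x y u → Oth a b x y v → ind G.1 u v = ind H.1 u v) ∧
    (∀ z, Oth a b x y z → ind G.1 a z + ind G.1 b z = ind H.1 a z + ind H.1 b z) ∧
    (∀ z, Oth a b x y z → ind G.1 x z + ind G.1 y z = ind H.1 x z + ind H.1 y z) ∧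
    ind G.1 a b = ind H.1 a b ∧ ind G.1 x y = ind H.1 x y ∧
    blkT a b x y G = blkT a b x y H := by
  simp only [ctx, Prod.mk.injEq, funext_iff]
  refine and_congr ⟨fun h u v hu hv => by simpa [hu, hv] using h u v, fun h u v => ?_⟩
    (and_congr ⟨fun h z hz => by simpa [hz] using h z, fun h z => ?_⟩
      (and_congr_left' ⟨fun h z hz => by simpa [hz] using h z, fun h z => ?_⟩))
  · split_ifs with c
    · exact h u v c.1 c.2
    · rfl
  · split_ifs with c
    · exact h z c
    · rfl
  · split_ifs with c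
    · exact h z c
    · rfl

theorem cases_vertex (a b x y z : Fin n) : z = a ∨ z = b ∨ z = x ∨ z = y ∨ Oth a b x y z := by
  unfold Oth; tauto

theorem sum_four (h : Four a b x y) (F : Fin n → ℕ) :
    ∑ z, F z = F a + F b + F x + F y + ∑ z ∈ univ.filter (Oth a b x y), F z := by
  rw [← sum_filter_add_sum_filter_not univ (Oth a b x y) F, add_comm]
  congr 1
  have e : univ.filter (fun z => ¬Oth a b x y z) = {a, b, x, y} := by
    ext z; simp [Oth]; tauto
  rw [e, sum_insert (by simp [h.ab, h.ax, h.ay]), sum_insert (by simp [h.bx, h.b_y]),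
    sum_pair h.xy]
  ring

theorem key_ab (h : Four a b x y) {G H : Rz d} (e : key {a, b} G = key {a, b} H) :
    ctx a b x y G = ctx a b x y H ∧ colS a b x y G = colS a b x y H ∧
      (∀ u v, u ≠ a → u ≠ b → v ≠ a → v ≠ b → ind G.1 u v = ind H.1 u v) := by
  obtain ⟨h1, h2⟩ := key_eq_iff.1 e
  simp only [cnt_pair h.ab] at h2
  have hout : ∀ u v, u ≠ a → u ≠ b → v ≠ a → v ≠ b → ind G.1 u v = ind H.1 u v :=
    fun u v e1 e2 e3 e4 => h1 u v (by simp [e1, e2, e3, e4])
  have hab := h1 a b (by simp)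
  have cx := h2 x
  have cy := h2 y
  refine ⟨ctx_eq_iff.2 ⟨fun u v hu hv => hout u v hu.1 hu.2.1 hv.1 hv.2.1, fun z _ => h2 z,
    fun z hz => ?_, hab, hout x y h.ax.symm h.bx.symm h.ay.symm h.b_y.symm, ?_⟩, ?_, hout⟩
  · rw [hout x z h.ax.symm h.bx.symm hz.1 hz.2.1, hout y z h.ay.symm h.b_y.symm hz.1 hz.2.1]
  · simp only [blkT]; omega
  · simp only [colS, Prod.mk.injEq]; omega

theorem key_xy (h : Four a b x y) {G H : Rz d} (e : key {x, y} G = key {x, y} H) :
    ctx a b x y G = ctx a b x y H ∧ rowS a b x y G = rowS a b x y H ∧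
      (∀ u v, u ≠ x → u ≠ y → v ≠ x → v ≠ y → ind G.1 u v = ind H.1 u v) := by
  have h' : Four x y a b :=
    ⟨h.xy, h.ax.symm, h.bx.symm, h.ay.symm, h.b_y.symm, h.ab⟩
  obtain ⟨h1, h2, h3⟩ := key_ab h' e
  obtain ⟨c1, c2, c3, c4, c5, c6⟩ := ctx_eq_iff.1 h1
  have ho : ∀ z, Oth a b x y z → Oth x y a b z := fun z hz => ⟨hz.2.2.1, hz.2.2.2, hz.1, hz.2.1⟩
  refine ⟨ctx_eq_iff.2 ⟨fun u v hu hv => c1 u v (ho u hu) (ho v hv), fun z hz => c3 z (ho z hz),
    fun z hz => c2 z (ho z hz), c5, c4, ?_⟩, ?_, h3⟩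
  · simp only [blkT] at c6 ⊢
    simp only [ind_comm _ a x, ind_comm _ a y, ind_comm _ b x, ind_comm _ b y]
    omega
  · simp only [colS, rowS, Prod.mk.injEq] at h2 ⊢
    simp only [ind_comm _ a x, ind_comm _ a y, ind_comm _ b x, ind_comm _ b y]
    exact h2

/-- A state is determined by the two keys and the block. -/
theorem ext_keys (h : Four a b x y) {G H : Rz d} (e1 : key {a, b} G = key {a, b} H)
    (e2 : key {x, y} G = key {x, y} H) (e3 : blk a b x y G = blk a b x y H) : G = H := by
  obtain ⟨c, -, h1⟩ := key_ab h e1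
  obtain ⟨-, -, h2⟩ := key_xy h e2
  obtain ⟨-, -, -, cab, -, -⟩ := ctx_eq_iff.1 c
  simp only [blk, Prod.mk.injEq] at e3
  refine rz_ext fun u v => ?_
  by_cases hu : u = a ∨ u = b <;> by_cases hv : v = a ∨ v = b
  · rcases hu with rfl | rfl <;> rcases hv with rfl | rfl
    · simp [ind_self]
    · exact cab
    · rw [ind_comm, cab, ind_comm]
    · simp [ind_self]
  · by_cases hv' : v = x ∨ v = y
    · rcases hu with rfl | rfl <;> rcases hv' with rfl | rfl <;> tauto
    · simp only [not_or] at hv hv'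
      rcases hu with rfl | rfl
      · exact h2 _ _ h.ax h.ay hv'.1 hv'.2
      · exact h2 _ _ h.bx h.b_y hv'.1 hv'.2
  · by_cases hu' : u = x ∨ u = y
    · rw [ind_comm G.1, ind_comm H.1]
      rcases hv with rfl | rfl <;> rcases hu' with rfl | rfl <;> tauto
    · simp only [not_or] at hu hu'
      rcases hv with rfl | rfl
      · exact h2 _ _ hu'.1 hu'.2 h.ax h.ay
      · exact h2 _ _ hu'.1 hu'.2 h.bx h.b_y
  · simp only [not_or] at hu hv
    exact h1 u v hu.1 hu.2 hv.1 hv.2

/-- Two states of one context merge along a block with the required sums. -/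
theorem exists_merge (h : Four a b x y) (u v : Rz d) (hc : ctx a b x y u = ctx a b x y v)
    (β₁ β₂ β₃ β₄ : ℕ) (l1 : β₁ ≤ 1) (l2 : β₂ ≤ 1) (l3 : β₃ ≤ 1) (l4 : β₄ ≤ 1)
    (hs : (β₁ + β₃, β₂ + β₄) = colS a b x y u) (hr : (β₁ + β₂, β₃ + β₄) = rowS a b x y v) :
    ∃ w : Rz d, key {a, b} w = key {a, b} u ∧ key {x, y} w = key {x, y} v ∧
      blk a b x y w = (β₁, β₂, β₃, β₄) := by
  obtain ⟨cO, cp, cq, cab, cxy, ct⟩ := ctx_eq_iff.1 hc
  simp only [colS, rowS, Prod.mk.injEq] at hs hr
  have nba := h.ab.symm; have nxa := h.ax.symm; have nya := h.ay.symm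
  have nxb := h.bx.symm; have nyb := h.b_y.symm; have nyx := h.xy.symm
  obtain ⟨hab, hax, hay, hbx, hby, hxy⟩ := h
  let R : Fin n → Fin n → Prop := fun s t =>
    if s = a then (if t = x then β₁ = 1 else if t = y then β₂ = 1 else v.1.Adj s t)
    else if s = b then (if t = x then β₃ = 1 else if t = y then β₄ = 1 else v.1.Adj s t)
    else if t = a ∨ t = b then False else u.1.Adj s t
  let W := SimpleGraph.fromRel R
  have hone : ∀ β, β ≤ 1 → (if β = 1 then 1 else 0) = β := fun β hβ => by
    split_ifs <;> omega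
  have wax : ind W a x = β₁ := by
    rw [← hone β₁ l1]; simp [ind, W, R, hax, nxa, nxb, hab]
  have way : ind W a y = β₂ := by
    rw [← hone β₂ l2]; simp [ind, W, R, hay, nya, nyb, hab, nyx]
  have wbx : ind W b x = β₃ := by
    rw [← hone β₃ l3]; simp [ind, W, R, hbx, nxa, nxb, nba]
  have wby : ind W b y = β₄ := by
    rw [← hone β₄ l4]; simp [ind, W, R, hby, nya, nyb, nba, nyx]
  have wab : ind W a b = ind v.1 a b := by
    simp [ind, W, R, hab, nba, hax, hay, hbx, hby, v.1.adj_comm b a]
  have wxy : ind W x y = ind u.1 x y := by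
    simp [ind, W, R, hxy, nxa, nxb, nya, nyb, u.1.adj_comm y x]
  have wp : ∀ z, Oth a b x y z → ind W a z = ind v.1 a z ∧ ind W b z = ind v.1 b z := by
    rintro z ⟨za, zb, zx, zy⟩
    constructor <;> simp [ind, W, R, za, zb, zx, zy, za.symm, zb.symm, hab, nba]
  have wq : ∀ z, Oth a b x y z → ind W x z = ind u.1 x z ∧ ind W y z = ind u.1 y z := by
    rintro z ⟨za, zb, zx, zy⟩
    constructor <;>
      simp [ind, W, R, za, zb, zx.symm, zy.symm, nxa, nxb, nya, nyb, u.1.adj_comm z]
  have wO : ∀ s t, Oth a b x y s → Oth a b x y t → ind W s t = ind u.1 s t := by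
    rintro s t ⟨sa, sb, -, -⟩ ⟨ta, tb, -, -⟩
    rcases eq_or_ne s t with rfl | hst
    · simp [ind_self]
    · simp [ind, W, R, sa, sb, ta, tb, hst, u.1.adj_comm t s]
  have hm : W ∈ realisations d := by
    refine mem_of_sum_ind fun z => ?_
    have hu := sum_ind u z
    have hv := sum_ind v z
    rw [sum_four ⟨hab, hax, hay, hbx, hby, hxy⟩] at hu hv ⊢
    rcases cases_vertex a b x y z with rfl | rfl | rfl | rfl | hz
    · rw [sum_congr rfl (g := fun t => ind v.1 z t) fun t ht =>
        (wp t (mem_filter.1 ht).2).1]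
      simp only [ind_self, wab, wax, way] at hv ⊢
      omega
    · rw [sum_congr rfl (g := fun t => ind v.1 z t) fun t ht =>
        (wp t (mem_filter.1 ht).2).2]
      rw [ind_comm W z a, wab, ind_comm v.1 a z]
      simp only [ind_self, wbx, wby] at hv ⊢
      omega
    · rw [sum_congr rfl (g := fun t => ind u.1 z t) fun t ht =>
        (wq t (mem_filter.1 ht).2).1]
      rw [ind_comm W z a, ind_comm W z b, wax, wbx, wxy]
      rw [ind_comm u.1 z a, ind_comm u.1 z b] at hu
      simp only [ind_self] at hu ⊢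
      omega
    · rw [sum_congr rfl (g := fun t => ind u.1 z t) fun t ht =>
        (wq t (mem_filter.1 ht).2).2]
      rw [ind_comm W z a, ind_comm W z b, ind_comm W z x, way, wby, wxy]
      rw [ind_comm u.1 z a, ind_comm u.1 z b, ind_comm u.1 z x] at hu
      simp only [ind_self] at hu ⊢
      omega
    · rw [sum_congr rfl (g := fun t => ind u.1 z t) fun t ht => wO z t hz (mem_filter.1 ht).2]
      rw [ind_comm W z a, ind_comm W z b, ind_comm W z x, ind_comm W z y, (wp z hz).1,
        (wp z hz).2, (wq z hz).1, (wq z hz).2]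
      rw [ind_comm u.1 z a, ind_comm u.1 z b, ind_comm u.1 z x, ind_comm u.1 z y] at hu
      have := cp z hz
      omega
  have wU : ∀ s t, s ≠ a → s ≠ b → t ≠ a → t ≠ b → ind W s t = ind u.1 s t := by
    intro s t sa sb ta tb
    rcases eq_or_ne s t with rfl | hst
    · simp [ind_self]
    · simp [ind, W, R, sa, sb, ta, tb, hst, u.1.adj_comm t s]
  have wV : ∀ s t, s ≠ x → s ≠ y → t ≠ x → t ≠ y → ind W s t = ind v.1 s t := by
    intro s t sx sy tx ty
    rcases cases_vertex a b x y s with e | e | e | e | hs'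
    iterate 2
      rcases cases_vertex a b x y t with e' | e' | e' | e' | ht'
      iterate 2 (subst e e'; first
        | simp only [ind_self]
        | exact wab
        | rw [ind_comm W, wab, ind_comm v.1])
      iterate 2 exact absurd e' (by assumption)
      subst e
      first
        | exact (wp t ht').1
        | exact (wp t ht').2
    iterate 2 exact absurd e (by assumption)
    rcases cases_vertex a b x y t with e' | e' | e' | e' | ht'
    · subst e'; rw [ind_comm W, (wp s hs').1, ind_comm v.1]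
    · subst e'; rw [ind_comm W, (wp s hs').2, ind_comm v.1]
    · exact absurd e' tx
    · exact absurd e' ty
    · rw [wO s t hs' ht', cO s t hs' ht']
  refine ⟨⟨W, hm⟩, key_eq_iff.2 ⟨fun s t hst => ?_, fun z => ?_⟩,
    key_eq_iff.2 ⟨fun s t hst => ?_, fun z => ?_⟩, ?_⟩
  · simp only [mem_insert, mem_singleton] at hst
    by_cases hs' : s = a ∨ s = b
    · rcases hs' with rfl | rfl <;> rcases hst.1 (by simp) with rfl | rfl
      · simp only [ind_self]
      · exact wab.trans cab.symm
      · exact (ind_comm W _ _).trans (wab.trans (cab.symm.trans (ind_comm u.1 _ _)))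
      · simp only [ind_self]
    · have ht' : ¬(t = a ∨ t = b) := fun c => hs' (hst.2 c)
      simp only [not_or] at hs' ht'
      exact wU s t hs'.1 hs'.2 ht'.1 ht'.2
  · rw [cnt_pair hab, cnt_pair hab]
    rcases cases_vertex a b x y z with rfl | rfl | rfl | rfl | hz
    · simp only [ind_self]; rw [ind_comm W, wab, ind_comm u.1, cab]
    · simp only [ind_self, wab, cab]
    · rw [wax, wbx]; exact hs.1
    · rw [way, wby]; exact hs.2
    · rw [(wp z hz).1, (wp z hz).2]; exact (cp z hz).symm
  · simp only [mem_insert, mem_singleton] at hst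
    by_cases hs' : s = x ∨ s = y
    · rcases hs' with rfl | rfl <;> rcases hst.1 (by simp) with rfl | rfl
      · simp only [ind_self]
      · exact wxy.trans cxy
      · exact (ind_comm W _ _).trans (wxy.trans (cxy.trans (ind_comm v.1 _ _)))
      · simp only [ind_self]
    · have ht' : ¬(t = x ∨ t = y) := fun c => hs' (hst.2 c)
      simp only [not_or] at hs' ht'
      exact wV s t hs'.1 hs'.2 ht'.1 ht'.2
  · rw [cnt_pair hxy, cnt_pair hxy]
    rcases cases_vertex a b x y z with rfl | rfl | rfl | rfl | hz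
    · rw [ind_comm W, wax, ind_comm W y, way, hr.1, ind_comm v.1 x, ind_comm v.1 y]
    · rw [ind_comm W, wbx, ind_comm W y, wby, hr.2, ind_comm v.1 x, ind_comm v.1 y]
    · simp only [ind_self]; rw [ind_comm W, wxy, ind_comm v.1, cxy]
    · simp only [ind_self, wxy, cxy]
    · rw [(wq z hz).1, (wq z hz).2]; exact cq z hz
  · simp only [blk, wax, way, wbx, wby]

end Vale.Agent.P335
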