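import Vale.Agent.P335.DisjointFacts

/-!
# P335: the keys used for two disjoint pairs

Off the contexts with two edges in the block, the resamplings of the two pairs are rectangular.
With two edges in the block, the block is kept as part of the finer keys; the only states at which
it is not determined by its margins are the two diagonal ones, exchanged by `swapQ`.
-/

open Finset
open scoped Classical

namespace Vale.Agent.P335

variable {n : ℕ} {d : Fin n → ℕ} {a b x y : Fin n}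

/-- The block, kept only when it has two edges. -/
noncomputable def blk2 (a b x y : Fin n) (G : Rz d) : ℕ × ℕ × ℕ × ℕ :=
  if blkT a b x y G = 2 then blk a b x y G else (0, 0, 0, 0)

/-- Resampling `{a, b}` with the block fixed. -/
noncomputable def keyA (a b x y : Fin n) (G : Rz d) :
    ((Fin n → Fin n → Bool) × (Fin n → ℕ)) × (ℕ × ℕ × ℕ × ℕ) :=
  (key {a, b} G, blk2 a b x y G)

/-- Resampling `{x, y}` with the block fixed. -/
noncomputable def keyX (a b x y : Fin n) (G : Rz d) :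
    ((Fin n → Fin n → Bool) × (Fin n → ℕ)) × (ℕ × ℕ × ℕ × ℕ) :=
  (key {x, y} G, blk2 a b x y G)

/-- The row sums, kept only when the block has two edges. -/
noncomputable def rowS2 (a b x y : Fin n) (G : Rz d) : ℕ × ℕ :=
  if blkT a b x y G = 2 then rowS a b x y G else (0, 0)

/-- The column sums, kept only when the block has two edges. -/
noncomputable def colS2 (a b x y : Fin n) (G : Rz d) : ℕ × ℕ :=
  if blkT a b x y G = 2 then colS a b x y G else (0, 0)

theorem blkT_eq {G H : Rz d} (h : ctx a b x y G = ctx a b x y H) :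
    blkT a b x y G = blkT a b x y H := (ctx_eq_iff.1 h).2.2.2.2.2

theorem blk_bounds (a b x y : Fin n) (G : Rz d) :
    ind G.1 a x ≤ 1 ∧ ind G.1 a y ≤ 1 ∧ ind G.1 b x ≤ 1 ∧ ind G.1 b y ≤ 1 :=
  ⟨ind_le _ _ _, ind_le _ _ _, ind_le _ _ _, ind_le _ _ _⟩

theorem isD_iff_sums (h : Four a b x y) (G : Rz d) :
    IsD {a, b} {x, y} G ↔ colS a b x y G = (1, 1) ∧ rowS a b x y G = (1, 1) := by
  simp only [IsD, forall_mem_insert, mem_singleton, forall_eq, cnt_pair h.ab, cnt_pair h.xy,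
    colS, rowS, Prod.mk.injEq]
  simp only [ind_comm G.1 x, ind_comm G.1 y]

theorem blkT_of_isD (h : Four a b x y) {G : Rz d} (hD : IsD {a, b} {x, y} G) :
    blkT a b x y G = 2 := by
  obtain ⟨h1, -⟩ := (isD_iff_sums h G).1 hD
  simp only [colS, Prod.mk.injEq] at h1
  simp only [blkT]
  omega

theorem blk2_of_blkT {G H : Rz d} (hT : blkT a b x y G = blkT a b x y H)
    (hb : blkT a b x y H = 2 → blk a b x y G = blk a b x y H) :
    blk2 a b x y G = blk2 a b x y H := by
  unfold blk2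
  rw [hT]
  split_ifs with c
  · exact hb c
  · rfl

theorem blk_of_blk2 {G H : Rz d} (hT : blkT a b x y G = blkT a b x y H)
    (h2 : blkT a b x y H = 2) (hb : blk2 a b x y G = blk2 a b x y H) :
    blk a b x y G = blk a b x y H := by
  simpa [blk2, hT, h2] using hb

/-- A state is determined by one key and the other one with the block. -/
theorem ext_keys2 (h : Four a b x y) {u v : Rz d} (e1 : key {a, b} u = key {a, b} v)
    (e2 : key {x, y} u = key {x, y} v) (e3 : blk2 a b x y u = blk2 a b x y v) : u = v := by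
  obtain ⟨c, hs, -⟩ := key_ab h e1
  obtain ⟨-, hr, -⟩ := key_xy h e2
  have hT := blkT_eq c
  refine ext_keys h e1 e2 ?_
  by_cases h2 : blkT a b x y v = 2
  · exact blk_of_blk2 hT h2 e3
  · obtain ⟨u1, u2, u3, u4⟩ := blk_bounds a b x y u
    obtain ⟨v1, v2, v3, v4⟩ := blk_bounds a b x y v
    simp only [colS, rowS, blk, blkT, Prod.mk.injEq] at *
    omega

/-- A block with given margins, when it does not have exactly two edges. -/
theorem exists_block (a b x y : Fin n) {u v : Rz d} (hc : ctx a b x y u = ctx a b x y v)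
    (h2 : blkT a b x y u ≠ 2) :
    ∃ β₁ β₂ β₃ β₄ : ℕ, β₁ ≤ 1 ∧ β₂ ≤ 1 ∧ β₃ ≤ 1 ∧ β₄ ≤ 1 ∧
      (β₁ + β₃, β₂ + β₄) = colS a b x y u ∧ (β₁ + β₂, β₃ + β₄) = rowS a b x y v := by
  obtain ⟨u1, u2, u3, u4⟩ := blk_bounds a b x y u
  obtain ⟨v1, v2, v3, v4⟩ := blk_bounds a b x y v
  have hT := blkT_eq hc
  simp only [colS, rowS, blkT, Prod.mk.injEq] at *
  set s := ind u.1 a x + ind u.1 b x
  set r := ind v.1 a x + ind v.1 a y
  set β := if ind u.1 a x + ind u.1 a y + ind u.1 b x + ind u.1 b y ≤ 1 then min s r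
    else max s r - 1 with hβ
  refine ⟨β, r - β, s - β, (ind u.1 a y + ind u.1 b y) - (r - β), ?_, ?_, ?_, ?_, ?_, ?_⟩ <;>
    simp only [s, r] at * <;> split_ifs at hβ <;> omega

theorem exists_keyA_keyX (h : Four a b x y) (u v : Rz d)
    (hc : (ctx a b x y u, blk2 a b x y u) = (ctx a b x y v, blk2 a b x y v)) :
    ∃ w : Rz d, keyA a b x y w = keyA a b x y u ∧ keyX a b x y w = keyX a b x y v := by
  obtain ⟨hc, hb⟩ := Prod.mk.injEq .. ▸ hc
  obtain ⟨u1, u2, u3, u4⟩ := blk_bounds a b x y u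
  by_cases h2 : blkT a b x y v = 2
  · have e := blk_of_blk2 (blkT_eq hc) h2 hb
    obtain ⟨w, w1, w2, w3⟩ := exists_merge h u v hc _ _ _ _ u1 u2 u3 u4 rfl (by
      simp only [blk, rowS, Prod.mk.injEq] at e ⊢; omega)
    have hTw := blkT_eq (key_ab h w1).1
    exact ⟨w, Prod.ext w1 (blk2_of_blkT hTw fun _ => w3),
      Prod.ext w2 ((blk2_of_blkT hTw fun _ => w3).trans hb)⟩
  · obtain ⟨β₁, β₂, β₃, β₄, l1, l2, l3, l4, hs, hr⟩ :=
      exists_block a b x y hc (blkT_eq hc ▸ h2)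
    obtain ⟨w, w1, w2, -⟩ := exists_merge h u v hc _ _ _ _ l1 l2 l3 l4 hs hr
    have hTw := blkT_eq (key_ab h w1).1
    have hbw : blk2 a b x y w = blk2 a b x y u :=
      blk2_of_blkT hTw fun c => absurd ((blkT_eq hc).symm.trans c) h2
    exact ⟨w, Prod.ext w1 hbw, Prod.ext w2 (hbw.trans hb)⟩

theorem exists_keyA_key (h : Four a b x y) (u v : Rz d)
    (hc : (ctx a b x y u, rowS2 a b x y u) = (ctx a b x y v, rowS2 a b x y v)) :
    ∃ w : Rz d, keyA a b x y w = keyA a b x y u ∧ key {x, y} w = key {x, y} v := by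
  obtain ⟨hc, hb⟩ := Prod.mk.injEq .. ▸ hc
  obtain ⟨u1, u2, u3, u4⟩ := blk_bounds a b x y u
  have hT := blkT_eq hc
  by_cases h2 : blkT a b x y v = 2
  · simp only [rowS2, hT, h2, if_true] at hb
    obtain ⟨w, w1, w2, w3⟩ := exists_merge h u v hc _ _ _ _ u1 u2 u3 u4 rfl hb
    exact ⟨w, Prod.ext w1 (blk2_of_blkT (blkT_eq (key_ab h w1).1) fun _ => w3), w2⟩
  · obtain ⟨β₁, β₂, β₃, β₄, l1, l2, l3, l4, hs, hr⟩ := exists_block a b x y hc (hT ▸ h2)
    obtain ⟨w, w1, w2, -⟩ := exists_merge h u v hc _ _ _ _ l1 l2 l3 l4 hs hr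
    exact ⟨w, Prod.ext w1 (blk2_of_blkT (blkT_eq (key_ab h w1).1)
      fun c => absurd (hT.symm.trans c) h2), w2⟩

theorem exists_key_keyX (h : Four a b x y) (u v : Rz d)
    (hc : (ctx a b x y u, colS2 a b x y u) = (ctx a b x y v, colS2 a b x y v)) :
    ∃ w : Rz d, key {a, b} w = key {a, b} u ∧ keyX a b x y w = keyX a b x y v := by
  obtain ⟨hc, hb⟩ := Prod.mk.injEq .. ▸ hc
  obtain ⟨v1, v2, v3, v4⟩ := blk_bounds a b x y v
  have hT := blkT_eq hc
  by_cases h2 : blkT a b x y v = 2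
  · simp only [colS2, hT, h2, if_true] at hb
    obtain ⟨w, w1, w2, w3⟩ := exists_merge h u v hc _ _ _ _ v1 v2 v3 v4 hb.symm rfl
    exact ⟨w, w1, Prod.ext w2 (blk2_of_blkT (blkT_eq (key_xy h w2).1) fun _ => w3)⟩
  · obtain ⟨β₁, β₂, β₃, β₄, l1, l2, l3, l4, hs, hr⟩ := exists_block a b x y hc (hT ▸ h2)
    obtain ⟨w, w1, w2, -⟩ := exists_merge h u v hc _ _ _ _ l1 l2 l3 l4 hs hr
    exact ⟨w, w1, Prod.ext w2 (blk2_of_blkT (blkT_eq (key_xy h w2).1) fun c => absurd c h2)⟩

/-- What the swap does at a diagonal state. -/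
theorem swapQ_spec (h : Four a b x y) {G : Rz d} (hD : IsD {a, b} {x, y} G) :
    key {a, b} (swapQ {a, b} {x, y} G) = key {a, b} G ∧
    key {x, y} (swapQ {a, b} {x, y} G) = key {x, y} G ∧
    blk a b x y (swapQ {a, b} {x, y} G) =
      (1 - ind G.1 a x, 1 - ind G.1 a y, 1 - ind G.1 b x, 1 - ind G.1 b y) := by
  obtain ⟨hs, hr⟩ := (isD_iff_sums h G).1 hD
  obtain ⟨g1, g2, g3, g4⟩ := blk_bounds a b x y G
  obtain ⟨w, w1, w2, w3⟩ := exists_merge h G G rfl (1 - ind G.1 a x) (1 - ind G.1 a y)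
    (1 - ind G.1 b x) (1 - ind G.1 b y) (Nat.sub_le _ _) (Nat.sub_le _ _) (Nat.sub_le _ _)
    (Nat.sub_le _ _) (by simp only [colS, Prod.mk.injEq] at hs ⊢; omega)
    (by simp only [rowS, Prod.mk.injEq] at hr ⊢; omega)
  simp only [blk, Prod.mk.injEq] at w3
  have hcomp : ∀ s t, ind w.1 s t = 1 - ind G.1 s t → (w.1.Adj s t ↔ ¬G.1.Adj s t) := by
    intro s t e
    unfold ind at e
    by_cases c1 : w.1.Adj s t <;> by_cases c2 : G.1.Adj s t <;> simp [c1, c2] at e ⊢
  have e : flipGraph {a, b} {x, y} G.1 = w.1 := by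
    obtain ⟨hab, hax, hay, hbx, hby, hxy⟩ := h
    ext s t
    rw [flipGraph_adj]
    by_cases hst : s = t
    · subst hst; simp
    by_cases hcr : (s ∈ ({a, b} : Finset (Fin n)) ∧ t ∈ ({x, y} : Finset (Fin n))) ∨
        (t ∈ ({a, b} : Finset (Fin n)) ∧ s ∈ ({x, y} : Finset (Fin n)))
    · simp only [hcr, iff_true, ne_eq, hst, not_false_eq_true, true_and]
      refine (hcomp s t ?_).symm
      simp only [mem_insert, mem_singleton] at hcr
      rcases hcr with ⟨rfl | rfl, rfl | rfl⟩ | ⟨rfl | rfl, rfl | rfl⟩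
      · exact w3.1
      · exact w3.2.1
      · exact w3.2.2.1
      · exact w3.2.2.2
      · rw [ind_comm w.1, ind_comm G.1]; exact w3.1
      · rw [ind_comm w.1, ind_comm G.1]; exact w3.2.1
      · rw [ind_comm w.1, ind_comm G.1]; exact w3.2.2.1
      · rw [ind_comm w.1, ind_comm G.1]; exact w3.2.2.2
    · have hne : ind w.1 s t = ind G.1 s t := by
        simp only [not_or, not_and, mem_insert, mem_singleton] at hcr
        by_cases hp : (s = a ∨ s = b) ↔ (t = a ∨ t = b)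
        · exact (key_eq_iff.1 w1).1 s t (by simpa only [mem_insert, mem_singleton] using hp)
        · refine (key_eq_iff.1 w2).1 s t ?_
          simp only [mem_insert, mem_singleton]
          grind
      simp only [hcr, iff_false, not_not, ne_eq, hst, not_false_eq_true, true_and]
      exact (ind_eq_iff.1 hne).symm
  have hsw : swapQ {a, b} {x, y} G = w := by
    unfold swapQ
    rw [dif_pos ⟨hD, e ▸ w.2⟩]
    exact Subtype.ext e
  rw [hsw]
  exact ⟨w1, w2, by simp only [blk, w3.1, w3.2.1, w3.2.2.1, w3.2.2.2]⟩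

theorem key_swapQ (h : Four a b x y) (G : Rz d) :
    key {a, b} (swapQ {a, b} {x, y} G) = key {a, b} G ∧
    key {x, y} (swapQ {a, b} {x, y} G) = key {x, y} G := by
  by_cases hD : IsD {a, b} {x, y} G
  · exact ⟨(swapQ_spec h hD).1, (swapQ_spec h hD).2.1⟩
  · rw [swapQ_of_not hD]; exact ⟨rfl, rfl⟩

theorem isD_swapQ (h : Four a b x y) (G : Rz d) :
    IsD {a, b} {x, y} (swapQ {a, b} {x, y} G) ↔ IsD {a, b} {x, y} G := by
  obtain ⟨e1, e2⟩ := key_swapQ h G
  rw [isD_iff_sums h, isD_iff_sums h, (key_ab h e1).2.1, (key_xy h e2).2.1]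

theorem swapQ_invol (h : Four a b x y) (G : Rz d) :
    swapQ {a, b} {x, y} (swapQ {a, b} {x, y} G) = G := by
  by_cases hD : IsD {a, b} {x, y} G
  · obtain ⟨e1, e2, e3⟩ := swapQ_spec h hD
    obtain ⟨f1, f2, f3⟩ := swapQ_spec h ((isD_swapQ h G).2 hD)
    refine ext_keys h (f1.trans e1) (f2.trans e2) ?_
    obtain ⟨g1, g2, g3, g4⟩ := blk_bounds a b x y G
    simp only [blk, Prod.mk.injEq] at e3 f3 ⊢
    omega
  · rw [swapQ_of_not hD, swapQ_of_not hD]

theorem isD_of_blk2 (h : Four a b x y) {G H : Rz d} (hT : blkT a b x y G = blkT a b x y H)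
    (hb : blk2 a b x y G = blk2 a b x y H) (hD : IsD {a, b} {x, y} H) :
    IsD {a, b} {x, y} G := by
  have e := blk_of_blk2 hT (blkT_of_isD h hD) hb
  rw [isD_iff_sums h] at hD ⊢
  simp only [blk, colS, rowS, Prod.mk.injEq] at *
  omega

theorem blk2_swapQ (h : Four a b x y) {u v : Rz d} (hT : blkT a b x y u = blkT a b x y v)
    (hb : blk2 a b x y u = blk2 a b x y v) :
    blk2 a b x y (swapQ {a, b} {x, y} u) = blk2 a b x y (swapQ {a, b} {x, y} v) := by
  by_cases hD : IsD {a, b} {x, y} v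
  · have hDu := isD_of_blk2 h hT hb hD
    have e := blk_of_blk2 hT (blkT_of_isD h hD) hb
    obtain ⟨-, -, eu⟩ := swapQ_spec h hDu
    obtain ⟨-, -, ev⟩ := swapQ_spec h hD
    have Tu := blkT_of_isD h ((isD_swapQ h u).2 hDu)
    have Tv := blkT_of_isD h ((isD_swapQ h v).2 hD)
    simp only [blk, Prod.mk.injEq] at e
    refine blk2_of_blkT (Tu.trans Tv.symm) fun _ => ?_
    rw [eu, ev, e.1, e.2.1, e.2.2.1, e.2.2.2]
  · rw [swapQ_of_not hD, swapQ_of_not fun c => hD (isD_of_blk2 h hT.symm hb.symm c), hb]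

/-- Off the diagonal states one of the two resamplings keeps the block. -/
theorem block_determined (h : Four a b x y) (w : Rz d) (hw : ¬IsD {a, b} {x, y} w) :
    (∀ u : Rz d, keyX a b x y u = keyX a b x y w →
      ∀ v : Rz d, key {a, b} v = key {a, b} u → keyA a b x y v = keyA a b x y u) ∨
    (∀ u : Rz d, keyA a b x y u = keyA a b x y w →
      ∀ v : Rz d, key {x, y} v = key {x, y} u → keyX a b x y v = keyX a b x y u) := by
  by_cases h2 : blkT a b x y w = 2
  · obtain ⟨w1, w2, w3, w4⟩ := blk_bounds a b x y w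
    rw [isD_iff_sums h] at hw
    rcases not_and_or.1 hw with hs | hr
    · refine Or.inl fun u hu v hv => Prod.ext hv ?_
      obtain ⟨hu1, hu2⟩ := Prod.ext_iff.1 hu
      obtain ⟨hc, hs', -⟩ := key_ab h hv
      have hTu := blkT_eq (key_xy h hu1).1
      have e := blk_of_blk2 hTu h2 hu2
      refine blk2_of_blkT (blkT_eq hc) fun _ => ?_
      obtain ⟨v1, v2, v3, v4⟩ := blk_bounds a b x y v
      have hTv := (blkT_eq hc).trans (hTu.trans h2)
      simp only [blk, blkT, colS, Prod.mk.injEq] at *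
      omega
    · refine Or.inr fun u hu v hv => Prod.ext hv ?_
      obtain ⟨hu1, hu2⟩ := Prod.ext_iff.1 hu
      obtain ⟨hc, hs', -⟩ := key_xy h hv
      have hTu := blkT_eq (key_ab h hu1).1
      have e := blk_of_blk2 hTu h2 hu2
      refine blk2_of_blkT (blkT_eq hc) fun _ => ?_
      obtain ⟨v1, v2, v3, v4⟩ := blk_bounds a b x y v
      have hTv := (blkT_eq hc).trans (hTu.trans h2)
      simp only [blk, blkT, rowS, Prod.mk.injEq] at *
      omega
  · refine Or.inl fun u hu v hv => Prod.ext hv (blk2_of_blkT (blkT_eq (key_ab h hv).1) fun c => ?_)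
    exact absurd ((blkT_eq (key_xy h (Prod.ext_iff.1 hu).1).1).symm.trans c) h2

/-- The diagonal states of a fibre are two fibres of the finer key. -/
theorem diag_fibre_ab (h : Four a b x y) (w : Rz d) (hw : IsD {a, b} {x, y} w) (v : Rz d) :
    (key {a, b} v = key {a, b} w ∧ IsD {a, b} {x, y} v) ↔
      (keyA a b x y v = keyA a b x y w ∨
        keyA a b x y v = keyA a b x y (swapQ {a, b} {x, y} w)) := by
  obtain ⟨e1, -, e3⟩ := swapQ_spec h hw
  have hw' := (isD_swapQ h w).2 hw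
  constructor
  · rintro ⟨hk, hD⟩
    have hT := blkT_eq (key_ab h hk).1
    have hT' := blkT_eq (key_ab h (hk.trans e1.symm)).1
    obtain ⟨w1, w2, w3, w4⟩ := blk_bounds a b x y w
    obtain ⟨v1, v2, v3, v4⟩ := blk_bounds a b x y v
    obtain ⟨p1, p2⟩ := (isD_iff_sums h w).1 hw
    obtain ⟨q1, q2⟩ := (isD_iff_sums h v).1 hD
    simp only [colS, rowS, Prod.mk.injEq] at p1 p2 q1 q2
    by_cases hax : ind v.1 a x = ind w.1 a x
    · refine Or.inl (Prod.ext hk (blk2_of_blkT hT fun _ => ?_))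
      simp only [blk, Prod.mk.injEq]
      omega
    · refine Or.inr (Prod.ext (hk.trans e1.symm) (blk2_of_blkT hT' fun _ => ?_))
      rw [e3]
      simp only [blk, Prod.mk.injEq]
      omega
  · rintro (e | e) <;> obtain ⟨k1, k2⟩ := Prod.ext_iff.1 e
    · exact ⟨k1, isD_of_blk2 h (blkT_eq (key_ab h k1).1) k2 hw⟩
    · exact ⟨k1.trans e1, isD_of_blk2 h (blkT_eq (key_ab h k1).1) k2 hw'⟩

theorem diag_fibre_xy (h : Four a b x y) (w : Rz d) (hw : IsD {a, b} {x, y} w) (v : Rz d) :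
    (key {x, y} v = key {x, y} w ∧ IsD {a, b} {x, y} v) ↔
      (keyX a b x y v = keyX a b x y w ∨
        keyX a b x y v = keyX a b x y (swapQ {a, b} {x, y} w)) := by
  obtain ⟨-, e1, e3⟩ := swapQ_spec h hw
  have hw' := (isD_swapQ h w).2 hw
  constructor
  · rintro ⟨hk, hD⟩
    have hT := blkT_eq (key_xy h hk).1
    have hT' := blkT_eq (key_xy h (hk.trans e1.symm)).1
    obtain ⟨w1, w2, w3, w4⟩ := blk_bounds a b x y w
    obtain ⟨v1, v2, v3, v4⟩ := blk_bounds a b x y v
    obtain ⟨p1, p2⟩ := (isD_iff_sums h w).1 hw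
    obtain ⟨q1, q2⟩ := (isD_iff_sums h v).1 hD
    simp only [colS, rowS, Prod.mk.injEq] at p1 p2 q1 q2
    by_cases hax : ind v.1 a x = ind w.1 a x
    · refine Or.inl (Prod.ext hk (blk2_of_blkT hT fun _ => ?_))
      simp only [blk, Prod.mk.injEq]
      omega
    · refine Or.inr (Prod.ext (hk.trans e1.symm) (blk2_of_blkT hT' fun _ => ?_))
      rw [e3]
      simp only [blk, Prod.mk.injEq]
      omega
  · rintro (e | e) <;> obtain ⟨k1, k2⟩ := Prod.ext_iff.1 e
    · exact ⟨k1, isD_of_blk2 h (blkT_eq (key_xy h k1).1) k2 hw⟩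
    · exact ⟨k1.trans e1, isD_of_blk2 h (blkT_eq (key_xy h k1).1) k2 hw'⟩

end Vale.Agent.P335
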