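import Vale.Agent.P335.Chain

/-!
# P335: deleting a vertex, and switch connectivity of the realisations of a degree vector
-/

open Finset
open scoped Classical

namespace Vale.Agent.P335

variable {n m : ℕ}

/-- `H` is reached from `G` by switches. -/
def Switches (G H : SimpleGraph (Fin n)) : Prop :=
  Relation.ReflTransGen (fun A B => ∃ τ : Fin 4 ↪ Fin n, switchMap τ A = B) G H

lemma Switches.mem {d : Fin n → ℕ} {G H : SimpleGraph (Fin n)} (h : Switches G H)
    (hG : G ∈ realisations d) : H ∈ realisations d := by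
  induction h with
  | refl => exact hG
  | tail _ hs ih => obtain ⟨τ, rfl⟩ := hs; exact switchMap_mem τ ih

lemma Switches.symm {G H : SimpleGraph (Fin n)} (h : Switches G H) : Switches H G := by
  induction h with
  | refl => exact Relation.ReflTransGen.refl
  | @tail b c _ hs ih =>
    obtain ⟨τ, rfl⟩ := hs
    by_cases e : switchMap τ b = b
    · rw [e]; exact ih
    · exact Relation.ReflTransGen.head ⟨invTuple τ, switchMap_invTuple e⟩ ih

lemma degree_of_mem {d : Fin n → ℕ} {G : SimpleGraph (Fin n)} (hG : G ∈ realisations d)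
    (v : Fin n) : #(univ.filter fun w => G.Adj v w) = d v := by
  simp only [realisations, mem_filter, mem_univ, true_and] at hG
  rw [← hG v, ← Set.ncard_coe_finset]
  congr 1
  ext w
  simp

lemma mem_of_degree {d : Fin n → ℕ} {G : SimpleGraph (Fin n)}
    (h : ∀ v, #(univ.filter fun w => G.Adj v w) = d v) : G ∈ realisations d := by
  simp only [realisations, mem_filter, mem_univ, true_and]
  intro v
  rw [← h v, ← Set.ncard_coe_finset]
  congr 1
  ext w
  simp

/-- Delete the vertex `u`. -/
def delVertex (u : Fin (m + 1)) (G : SimpleGraph (Fin (m + 1))) : SimpleGraph (Fin m) :=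
  G.comap u.succAbove

@[simp] lemma delVertex_adj (u : Fin (m + 1)) (G : SimpleGraph (Fin (m + 1))) (x y : Fin m) :
    (delVertex u G).Adj x y ↔ G.Adj (u.succAbove x) (u.succAbove y) := Iff.rfl

/-- A graph is determined by the star of `u` and the rest. -/
lemma eq_of_star_eq {u : Fin (m + 1)} {G H : SimpleGraph (Fin (m + 1))}
    (hN : G.neighborSet u = H.neighborSet u) (hd : delVertex u G = delVertex u H) : G = H := by
  ext a b
  rcases Fin.eq_self_or_eq_succAbove u a with rfl | ⟨x, rfl⟩
  · exact Set.ext_iff.1 hN b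
  rcases Fin.eq_self_or_eq_succAbove u b with rfl | ⟨y, rfl⟩
  · rw [G.adj_comm, H.adj_comm]; exact Set.ext_iff.1 hN _
  · exact Iff.of_eq (congrFun (congrFun (congrArg SimpleGraph.Adj hd) x) y)

/-- The degrees left after deleting `u` with the star `S`. -/
noncomputable def delDeg (d : Fin (m + 1) → ℕ) (u : Fin (m + 1)) (S : Set (Fin (m + 1))) :
    Fin m → ℕ :=
  fun x => d (u.succAbove x) - if u.succAbove x ∈ S then 1 else 0

lemma degree_succAbove (u : Fin (m + 1)) (G : SimpleGraph (Fin (m + 1))) (x : Fin m) :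
    #(univ.filter fun w => G.Adj (u.succAbove x) w) =
      (if u.succAbove x ∈ G.neighborSet u then 1 else 0) +
        #(univ.filter fun y => (delVertex u G).Adj x y) := by
  simp only [card_filter, SimpleGraph.mem_neighborSet, delVertex_adj]
  rw [Fin.sum_univ_succAbove _ u, G.adj_comm]

lemma delVertex_mem {d : Fin (m + 1) → ℕ} {u : Fin (m + 1)} {G : SimpleGraph (Fin (m + 1))}
    (hG : G ∈ realisations d) : delVertex u G ∈ realisations (delDeg d u (G.neighborSet u)) := by
  refine mem_of_degree fun x => ?_
  have h := degree_succAbove u G x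
  rw [degree_of_mem hG] at h
  simp only [delDeg]
  split_ifs at h ⊢ <;> omega

/-- A switch away from `u` is a switch of the graph without `u`. -/
lemma delVertex_switchMap (u : Fin (m + 1)) (τ : Fin 4 ↪ Fin m)
    (G : SimpleGraph (Fin (m + 1))) :
    delVertex u (switchMap (τ.trans u.succAboveEmb) G) = switchMap τ (delVertex u G) := by
  have hiff : CanSwitch (τ.trans u.succAboveEmb) G ↔ CanSwitch τ (delVertex u G) := Iff.rfl
  by_cases h : CanSwitch τ (delVertex u G)
  swap
  · rw [switchMap_of_not h, switchMap_of_not (hiff.not.2 h)]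
  ext x y
  rw [delVertex_adj, switchMap_adj (hiff.2 h), switchMap_adj h, delVertex_adj]
  simp

lemma star_switchMap (u : Fin (m + 1)) (τ : Fin 4 ↪ Fin m) (G : SimpleGraph (Fin (m + 1))) :
    (switchMap (τ.trans u.succAboveEmb) G).neighborSet u = G.neighborSet u := by
  by_cases h : CanSwitch (τ.trans u.succAboveEmb) G
  swap
  · rw [switchMap_of_not h]
  ext y
  simp [switchMap_adj h, (Fin.succAbove_ne u _).symm]

/-- A switch moves the star of `u` towards a vertex of larger degree. -/
lemma exists_switch_star {d : Fin n → ℕ} {G : SimpleGraph (Fin n)} (hG : G ∈ realisations d)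
    {u x y : Fin n} (hy : G.Adj u y) (hx : ¬G.Adj u x) (hux : u ≠ x) (hd : d y ≤ d x) :
    ∃ τ : Fin 4 ↪ Fin n, ∀ w, (switchMap τ G).Adj u w ↔ (G.Adj u w ∧ w ≠ y) ∨ w = x := by
  have hxy : x ≠ y := fun e => hx (e ▸ hy)
  have huy : u ≠ y := hy.ne
  set A : Fin n → Finset (Fin n) := fun v => univ.filter fun w => G.Adj v w with hA
  obtain ⟨z, hz1, hz2⟩ : ∃ z ∈ (A x).erase y, z ∉ ((A y).erase x).erase u := by
    refine exists_mem_notMem_of_card_lt_card ?_
    have hu : u ∈ (A y).erase x := by simp [hA, hux, hy.symm]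
    have e1 : #(A x) = d x := degree_of_mem hG x
    have e2 : #(A y) = d y := degree_of_mem hG y
    have e3 : y ∈ A x ↔ x ∈ A y := by simp [hA, G.adj_comm]
    rw [card_erase_of_mem hu]
    have hpos : 0 < #((A y).erase x) := card_pos.2 ⟨u, hu⟩
    rw [card_erase_eq_ite] at hpos ⊢
    rw [card_erase_eq_ite]
    by_cases h : x ∈ A y
    · rw [if_pos h] at hpos ⊢; rw [if_pos (e3.2 h)]; omega
    · rw [if_neg h] at hpos ⊢; rw [if_neg (e3.not.2 h)]; omega
  simp only [hA, mem_erase, mem_filter, mem_univ, true_and, not_and] at hz1 hz2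
  obtain ⟨hzy, hxz⟩ := hz1
  have hzu : z ≠ u := fun e => hx (e ▸ hxz.symm)
  have hzx : z ≠ x := hxz.ne'
  have hyz : ¬G.Adj y z := hz2 hzu hzx
  have hinj : Function.Injective ![u, y, x, z] := by
    intro i j h
    fin_cases i <;> fin_cases j <;>
      simp_all [hux.symm, huy.symm, hxy.symm, hzy.symm, hzu.symm, hzx.symm]
  refine ⟨⟨_, hinj⟩, fun w => ?_⟩
  have hc : CanSwitch ⟨_, hinj⟩ G := ⟨hy, hxz, hx, hyz⟩
  rw [switchMap_adj hc]
  simp [hux, huy, hzu.symm]

/-- Two realisations can be switched to equal stars at `u`. -/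
lemma exists_star_eq {d : Fin n → ℕ} (u : Fin n) : ∀ (k : ℕ) (G H : SimpleGraph (Fin n)),
    G ∈ realisations d → H ∈ realisations d →
    #((univ.filter fun w => H.Adj u w) \ univ.filter fun w => G.Adj u w) = k →
    ∃ G' H', Switches G G' ∧ Switches H H' ∧ G'.neighborSet u = H'.neighborSet u := by
  intro k
  induction k with
  | zero =>
    intro G H hG hH h
    refine ⟨G, H, Relation.ReflTransGen.refl, Relation.ReflTransGen.refl, ?_⟩
    have e := eq_of_subset_of_card_le (sdiff_eq_empty_iff_subset.1 (card_eq_zero.1 h))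
      (by rw [degree_of_mem hG, degree_of_mem hH])
    ext w
    simpa using (Finset.ext_iff.1 e w).symm
  | succ k ih =>
    intro G H hG hH h
    obtain ⟨x, hx⟩ := card_pos.1 (show 0 <
      #((univ.filter fun w => H.Adj u w) \ univ.filter fun w => G.Adj u w) by omega)
    obtain ⟨y, hy⟩ := card_pos.1 (show 0 <
      #((univ.filter fun w => G.Adj u w) \ univ.filter fun w => H.Adj u w) by
        have := card_sdiff_comm ((degree_of_mem hH u).trans (degree_of_mem hG u).symm)
        omega)
    simp only [mem_sdiff, mem_filter, mem_univ, true_and] at hx hy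
    rcases le_total (d y) (d x) with hd | hd
    · obtain ⟨τ, hτ⟩ := exists_switch_star hG hy.1 hx.2 hx.1.ne hd
      obtain ⟨G', H', h1, h2, h3⟩ := ih (switchMap τ G) H (switchMap_mem τ hG) hH (by
        have e : ((univ.filter fun w => H.Adj u w) \ univ.filter fun w => (switchMap τ G).Adj u w)
            = ((univ.filter fun w => H.Adj u w) \ univ.filter fun w => G.Adj u w).erase x := by
          ext w
          simp only [mem_sdiff, mem_erase, mem_filter, mem_univ, true_and, hτ]
          constructor
          · rintro ⟨a, b⟩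
            refine ⟨fun e => b (Or.inr e), a, fun c => b (Or.inl ⟨c, fun e => hy.2 (e ▸ a)⟩)⟩
          · rintro ⟨a, b, c⟩
            exact ⟨b, fun e => e.elim (fun e => c e.1) a⟩
        rw [e, card_erase_of_mem (by simp [hx]), h]; rfl)
      exact ⟨G', H', Relation.ReflTransGen.head ⟨τ, rfl⟩ h1, h2, h3⟩
    · obtain ⟨τ, hτ⟩ := exists_switch_star hH hx.1 hy.2 hy.1.ne hd
      obtain ⟨G', H', h1, h2, h3⟩ := ih G (switchMap τ H) hG (switchMap_mem τ hH) (by
        have e : ((univ.filter fun w => (switchMap τ H).Adj u w) \ univ.filter fun w => G.Adj u w)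
            = ((univ.filter fun w => H.Adj u w) \ univ.filter fun w => G.Adj u w).erase x := by
          ext w
          simp only [mem_sdiff, mem_erase, mem_filter, mem_univ, true_and, hτ]
          constructor
          · rintro ⟨a | a, b⟩
            · exact ⟨a.2, a.1, b⟩
            · exact absurd (a ▸ hy.1) b
          · rintro ⟨a, b, c⟩
            exact ⟨Or.inl ⟨b, a⟩, c⟩
        rw [e, card_erase_of_mem (by simp [hx]), h]; rfl)
      exact ⟨G', H', h1, Relation.ReflTransGen.head ⟨τ, rfl⟩ h2, h3⟩

/-- Switches connect all realisations of a degree vector. -/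
theorem switches_of_mem : ∀ {n : ℕ} {d : Fin n → ℕ} {G H : SimpleGraph (Fin n)},
    G ∈ realisations d → H ∈ realisations d → Switches G H := by
  intro n
  induction n with
  | zero =>
    intro d G H _ _
    have : G = H := by ext a; exact a.elim0
    subst this; exact Relation.ReflTransGen.refl
  | succ m ih =>
    intro d G H hG hH
    obtain ⟨G', H', h1, h2, hN⟩ := exists_star_eq (0 : Fin (m + 1)) _ G H hG hH rfl
    have hG' := h1.mem hG
    have hH' := h2.mem hH
    have hs := ih (delVertex_mem (u := 0) hG') (hN ▸ delVertex_mem (u := 0) hH')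
    obtain ⟨G'', hs1, hs2, hs3⟩ : ∃ G'', Switches G' G'' ∧ delVertex 0 G'' = delVertex 0 H' ∧
        G''.neighborSet 0 = G'.neighborSet 0 := by
      generalize delVertex 0 H' = A at hs ⊢
      induction hs with
      | refl => exact ⟨G', Relation.ReflTransGen.refl, rfl, rfl⟩
      | tail _ hstep ih' =>
        obtain ⟨τ, rfl⟩ := hstep
        obtain ⟨K, k1, k2, k3⟩ := ih'
        exact ⟨switchMap (τ.trans (Fin.succAboveEmb 0)) K, k1.tail ⟨_, rfl⟩,
          by rw [delVertex_switchMap, k2], (star_switchMap 0 τ K).trans k3⟩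
    have e : G'' = H' := eq_of_star_eq (hs3.trans hN) hs2
    subst e
    exact (h1.trans hs1).trans h2.symm

end Vale.Agent.P335
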