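import Vale.Agent.P335.Cond
import Vale.Agent.P335.StarConnect

/-!
# P335: resampling the edges of two vertices, on the realisations of a degree vector

For a set `p` of vertices the key `key p` keeps every edge not leaving `p` together with, for each
vertex, the number of its neighbours in `p`. For `p = {a, b}` the fibre of the key is a step of the
Curveball chain: the edges from `a`, `b` to third vertices are resampled with fixed sums.
-/

open Finset
open scoped Classical

namespace Vale.Agent.P335

variable {n : ℕ} {d : Fin n → ℕ}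

/-- The realisations of `d`, as a type. -/
abbrev Rz (d : Fin n → ℕ) := {G : SimpleGraph (Fin n) // G ∈ realisations d}

/-- The number of neighbours of `z` in `p`. -/
noncomputable def cnt (p : Finset (Fin n)) (G : SimpleGraph (Fin n)) (z : Fin n) : ℕ :=
  #(p.filter fun a => G.Adj a z)

/-- The data fixed when the edges leaving `p` are resampled. -/
noncomputable def key (p : Finset (Fin n)) (G : Rz d) :
    (Fin n → Fin n → Bool) × (Fin n → ℕ) :=
  (fun u v => decide (G.1.Adj u v ∧ (u ∈ p ↔ v ∈ p)), fun z => cnt p G.1 z)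

/-- The indicator of an edge. -/
noncomputable def ind (G : SimpleGraph (Fin n)) (u v : Fin n) : ℕ := if G.Adj u v then 1 else 0

theorem ind_le (G : SimpleGraph (Fin n)) (u v : Fin n) : ind G u v ≤ 1 := by
  unfold ind; split_ifs <;> simp

theorem ind_comm (G : SimpleGraph (Fin n)) (u v : Fin n) : ind G u v = ind G v u := by
  simp [ind, G.adj_comm]

theorem ind_self (G : SimpleGraph (Fin n)) (u : Fin n) : ind G u u = 0 := by simp [ind]

theorem ind_eq_iff {G H : SimpleGraph (Fin n)} {u v : Fin n} :
    ind G u v = ind H u v ↔ (G.Adj u v ↔ H.Adj u v) := by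
  unfold ind; split_ifs <;> simp_all

theorem key_eq_iff {p : Finset (Fin n)} {G H : Rz d} : key p G = key p H ↔
    (∀ u v, (u ∈ p ↔ v ∈ p) → ind G.1 u v = ind H.1 u v) ∧
      ∀ z, cnt p G.1 z = cnt p H.1 z := by
  simp only [key, Prod.mk.injEq, funext_iff, decide_eq_decide, ind_eq_iff]
  exact and_congr_left' ⟨fun h u v huv => by simpa [huv] using h u v,
    fun h u v => and_congr_left fun huv => h u v huv⟩

theorem cnt_pair {a b : Fin n} (hab : a ≠ b) (G : SimpleGraph (Fin n)) (z : Fin n) :
    cnt {a, b} G z = ind G a z + ind G b z := by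
  rw [cnt, card_filter, sum_pair hab]; rfl

theorem sum_ind (G : Rz d) (v : Fin n) : ∑ w, ind G.1 v w = d v := by
  rw [← degree_of_mem G.2 v, card_filter]; rfl

theorem mem_of_sum_ind {G : SimpleGraph (Fin n)} (h : ∀ v, ∑ w, ind G v w = d v) :
    G ∈ realisations d :=
  mem_of_degree fun v => by rw [← h v, card_filter]; rfl

theorem rz_ext {G H : Rz d} (h : ∀ u v, ind G.1 u v = ind H.1 u v) : G = H :=
  Subtype.ext (SimpleGraph.ext (funext fun u => funext fun v => propext (ind_eq_iff.1 (h u v))))

/-- The diagonal states of two disjoint pairs: one edge at each of the four vertices. -/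
def IsD (p q : Finset (Fin n)) (G : Rz d) : Prop :=
  (∀ z ∈ q, cnt p G.1 z = 1) ∧ ∀ a ∈ p, cnt q G.1 a = 1

theorem isD_symm (p q : Finset (Fin n)) (G : Rz d) : IsD q p G ↔ IsD p q G := and_comm

/-- Complement the edges between `p` and `q`. -/
def flipGraph (p q : Finset (Fin n)) (G : SimpleGraph (Fin n)) : SimpleGraph (Fin n) :=
  SimpleGraph.fromRel fun u v => ¬(G.Adj u v ↔ (u ∈ p ∧ v ∈ q) ∨ (v ∈ p ∧ u ∈ q))

theorem flipGraph_symm (p q : Finset (Fin n)) (G : SimpleGraph (Fin n)) :
    flipGraph q p G = flipGraph p q G := by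
  unfold flipGraph
  congr 1
  funext u v
  exact propext (not_congr (iff_congr Iff.rfl (by tauto)))

theorem flipGraph_adj (p q : Finset (Fin n)) (G : SimpleGraph (Fin n)) (u v : Fin n) :
    (flipGraph p q G).Adj u v ↔
      u ≠ v ∧ ¬(G.Adj u v ↔ (u ∈ p ∧ v ∈ q) ∨ (v ∈ p ∧ u ∈ q)) := by
  simp only [flipGraph, SimpleGraph.fromRel_adj, G.adj_comm v u]
  tauto

/-- Exchange the two diagonal states. -/
noncomputable def swapQ (p q : Finset (Fin n)) (G : Rz d) : Rz d :=
  if h : IsD p q G ∧ flipGraph p q G.1 ∈ realisations d then ⟨_, h.2⟩ else G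

theorem swapQ_symm (p q : Finset (Fin n)) (G : Rz d) : swapQ q p G = swapQ p q G := by
  unfold swapQ
  simp only [flipGraph_symm p q, isD_symm p q]

theorem swapQ_of_not {p q : Finset (Fin n)} {G : Rz d} (h : ¬IsD p q G) : swapQ p q G = G :=
  dif_neg fun c => h c.1

end Vale.Agent.P335
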