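import Vale.Agent.P335.StarConnect

/-!
# P335: the star inequality implies polynomial mixing for every degree vector

For a vertex `u` let `φ_u(G)` be the mean of `f` over the realisations with the same star at `u`.
If `∑ u, Var φ_u ≤ C · Var f` for all degree vectors, then the fibres being realisations of degree
vectors on one vertex fewer, induction gives a Poincaré inequality with a polynomial constant.
-/

open Finset
open scoped Classical

namespace Vale.Agent.P335

variable {n m : ℕ}

/-- The average of `f` over a finite set of graphs. -/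
noncomputable def avgOn (s : Finset (SimpleGraph (Fin n))) (f : SimpleGraph (Fin n) → ℝ) : ℝ :=
  (∑ G ∈ s, f G) / #s

/-- The sum of the squared deviations from the average. -/
noncomputable def devOn (s : Finset (SimpleGraph (Fin n))) (f : SimpleGraph (Fin n) → ℝ) : ℝ :=
  ∑ G ∈ s, (f G - avgOn s f) ^ 2

/-- The Dirichlet sum over the switches. -/
noncomputable def switchDir (d : Fin n → ℕ) (f : SimpleGraph (Fin n) → ℝ) : ℝ :=
  ∑ τ : Fin 4 ↪ Fin n, ∑ G ∈ realisations d, (f (switchMap τ G) - f G) ^ 2

/-- The realisations with the same star at `u` as `G`. -/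
noncomputable def starFibre (d : Fin n → ℕ) (u : Fin n) (G : SimpleGraph (Fin n)) :
    Finset (SimpleGraph (Fin n)) :=
  (realisations d).filter fun H => H.neighborSet u = G.neighborSet u

/-- The star inequality: the variances of the projections on the stars of the vertices sum to at
most `C` times the variance. -/
def StarBound (C : ℝ) : Prop :=
  ∀ (n : ℕ) (d : Fin n → ℕ) (f : SimpleGraph (Fin n) → ℝ),
    ∑ u : Fin n, ∑ G ∈ realisations d,
        (avgOn (starFibre d u G) f - avgOn (realisations d) f) ^ 2 ≤
      C * devOn (realisations d) f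

lemma devOn_nonneg (s : Finset (SimpleGraph (Fin n))) (f : SimpleGraph (Fin n) → ℝ) :
    0 ≤ devOn s f := sum_nonneg fun _ _ => sq_nonneg _

lemma switchDir_nonneg (d : Fin n → ℕ) (f : SimpleGraph (Fin n) → ℝ) : 0 ≤ switchDir d f :=
  sum_nonneg fun _ _ => sum_nonneg fun _ _ => sq_nonneg _

/-- The deviations around any centre. -/
lemma sum_sub_sq (s : Finset (SimpleGraph (Fin n))) (f : SimpleGraph (Fin n) → ℝ) (c : ℝ) :
    ∑ G ∈ s, (f G - c) ^ 2 = devOn s f + #s * (avgOn s f - c) ^ 2 := by
  rcases s.eq_empty_or_nonempty with rfl | hs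
  · simp [devOn]
  have h : ∑ G ∈ s, (f G - avgOn s f) = 0 := by
    rw [sum_sub_distrib, sum_const, nsmul_eq_mul, avgOn]
    have : (0 : ℝ) < #s := by exact_mod_cast hs.card_pos
    field_simp
    ring
  have e : ∀ G ∈ s, (f G - c) ^ 2 = (f G - avgOn s f) ^ 2 +
      2 * (avgOn s f - c) * (f G - avgOn s f) + (avgOn s f - c) ^ 2 := fun G _ => by ring
  rw [sum_congr rfl e, sum_add_distrib, sum_add_distrib, ← mul_sum, h, devOn, sum_const,
    nsmul_eq_mul]
  ring

lemma starFibre_eq {d : Fin n → ℕ} {u : Fin n} {G : SimpleGraph (Fin n)} {S : Set (Fin n)}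
    (h : G.neighborSet u = S) :
    starFibre d u G = (realisations d).filter fun H => H.neighborSet u = S := by
  rw [starFibre, h]

/-- The law of total variance for the star of `u`. -/
lemma dev_split (d : Fin n → ℕ) (u : Fin n) (f : SimpleGraph (Fin n) → ℝ) :
    devOn (realisations d) f =
      ∑ G ∈ realisations d, (avgOn (starFibre d u G) f - avgOn (realisations d) f) ^ 2 +
        ∑ S ∈ (realisations d).image (fun G => G.neighborSet u),
          devOn ((realisations d).filter fun H => H.neighborSet u = S) f := by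
  have hmap : ∀ G ∈ realisations d, G.neighborSet u ∈
      (realisations d).image (fun G => G.neighborSet u) := fun G hG => mem_image_of_mem _ hG
  rw [devOn, ← sum_fiberwise_of_maps_to hmap, ← sum_fiberwise_of_maps_to hmap, ← sum_add_distrib]
  refine sum_congr rfl fun S _ => ?_
  rw [sum_sub_sq, add_comm]
  congr 1
  rw [sum_congr rfl fun G hG => by rw [starFibre_eq (mem_filter.1 hG).2], sum_const, nsmul_eq_mul]

/-- A fibre is the set of realisations of a degree vector on one vertex fewer. -/
lemma devOn_fibre_le {d : Fin (m + 1) → ℕ} {u : Fin (m + 1)} {K : ℝ}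
    (hK : ∀ (d : Fin m → ℕ) (f : SimpleGraph (Fin m) → ℝ),
      devOn (realisations d) f ≤ K * switchDir d f)
    (f : SimpleGraph (Fin (m + 1)) → ℝ) {S : Set (Fin (m + 1))}
    (hS : S ∈ (realisations d).image (fun G => G.neighborSet u)) :
    devOn ((realisations d).filter fun H => H.neighborSet u = S) f ≤
      K * ∑ τ : Fin 4 ↪ Fin m,
        ∑ G ∈ (realisations d).filter (fun H => H.neighborSet u = S),
          (f (switchMap (τ.trans u.succAboveEmb) G) - f G) ^ 2 := by
  obtain ⟨G₀, hG₀, hS⟩ := mem_image.1 hS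
  set Fb := (realisations d).filter fun H => H.neighborSet u = S with hFb
  have hinj : Set.InjOn (delVertex u) (↑Fb : Set (SimpleGraph (Fin (m + 1)))) :=
    fun G hG H hH e => eq_of_star_eq ((mem_filter.1 hG).2.trans (mem_filter.1 hH).2.symm) e
  set d' := delDeg d u S with hd'
  have himg : Fb.image (delVertex u) = realisations d' := by
    ext A
    simp only [mem_image]
    constructor
    · rintro ⟨G, hG, rfl⟩
      obtain ⟨hG, hGS⟩ := mem_filter.1 hG
      rw [hd', ← hGS]
      exact delVertex_mem hG
    · intro hA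
      have hu : u ∉ S := by rw [← hS]; exact G₀.loopless.irrefl u
      let G : SimpleGraph (Fin (m + 1)) :=
        { Adj := fun a b => (∃ x y, a = u.succAbove x ∧ b = u.succAbove y ∧ A.Adj x y) ∨
            (a = u ∧ b ∈ S) ∨ (b = u ∧ a ∈ S)
          symm := ⟨by
            rintro a b (⟨x, y, ha, hb, h⟩ | h | h)
            · exact Or.inl ⟨y, x, hb, ha, h.symm⟩
            · exact Or.inr (Or.inr h)
            · exact Or.inr (Or.inl h)⟩
          loopless := ⟨by
            rintro a (⟨x, y, ha, hb, h⟩ | ⟨rfl, h⟩ | ⟨rfl, h⟩)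
            · exact h.ne (Fin.succAbove_right_injective (ha.symm.trans hb))
            · exact hu h
            · exact hu h⟩ }
      have hN : G.neighborSet u = S := by
        ext b
        simp [G, hu, (Fin.succAbove_ne u _).symm]
      have hdel : delVertex u G = A := by
        ext x y
        simp [G]
      refine ⟨G, mem_filter.2 ⟨mem_of_degree fun v => ?_, hN⟩, hdel⟩
      rcases Fin.eq_self_or_eq_succAbove u v with rfl | ⟨x, rfl⟩
      · rw [← degree_of_mem hG₀]
        congr 1
        ext w
        have := Set.ext_iff.1 (hN.trans hS.symm) w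
        simpa using this
      · have hA' := degree_of_mem hA x
        simp only [hd', delDeg] at hA'
        have h := degree_succAbove u G₀ x
        rw [degree_of_mem hG₀] at h
        simp only [hS] at h
        rw [degree_succAbove]
        simp only [hN, hdel]
        split_ifs at h hA' ⊢ <;> omega
  set g : SimpleGraph (Fin m) → ℝ := fun A => f (Function.invFunOn (delVertex u) ↑Fb A) with hg
  have hgd : ∀ G ∈ Fb, g (delVertex u G) = f G := fun G hG => by
    simp only [hg, hinj.leftInvOn_invFunOn (mem_coe.2 hG)]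
  have hsum : ∀ h : SimpleGraph (Fin m) → ℝ,
      ∑ A ∈ realisations d', h A = ∑ G ∈ Fb, h (delVertex u G) := fun h => by
    rw [← himg, sum_image hinj]
  have havg : avgOn (realisations d') g = avgOn Fb f := by
    rw [avgOn, avgOn, hsum, sum_congr rfl hgd, ← himg, card_image_of_injOn hinj]
  have hdev : devOn Fb f = devOn (realisations d') g := by
    simp only [devOn, hsum, havg]
    exact sum_congr rfl fun G hG => by rw [hgd G hG]
  rw [hdev]
  refine (hK d' g).trans_eq ?_
  congr 1
  refine sum_congr rfl fun τ _ => ?_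
  rw [hsum]
  refine sum_congr rfl fun G hG => ?_
  obtain ⟨hG1, hG2⟩ := mem_filter.1 hG
  rw [← delVertex_switchMap,
    hgd _ (mem_filter.2 ⟨switchMap_mem _ hG1, (star_switchMap u τ G).trans hG2⟩), hgd G hG]

/-- One step of the induction. -/
lemma poincare_step {C : ℝ} (hC : StarBound C) (hm : C < m + 1) {K : ℝ} (hK0 : 0 ≤ K)
    (hK : ∀ (d : Fin m → ℕ) (f : SimpleGraph (Fin m) → ℝ),
      devOn (realisations d) f ≤ K * switchDir d f)
    (d : Fin (m + 1) → ℕ) (f : SimpleGraph (Fin (m + 1)) → ℝ) :
    devOn (realisations d) f ≤ ((m : ℝ) + 1) / (m + 1 - C) * K * switchDir d f := by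
  have hu : ∀ u : Fin (m + 1),
      ∑ S ∈ (realisations d).image (fun G => G.neighborSet u),
          devOn ((realisations d).filter fun H => H.neighborSet u = S) f ≤
        K * switchDir d f := by
    intro u
    refine (sum_le_sum fun S hS => devOn_fibre_le hK f hS).trans ?_
    rw [← mul_sum, sum_comm, switchDir]
    refine mul_le_mul_of_nonneg_left ?_ hK0
    have hmap : ∀ G ∈ realisations d, G.neighborSet u ∈
        (realisations d).image (fun G => G.neighborSet u) := fun G hG => mem_image_of_mem _ hG
    rw [sum_congr rfl fun τ _ => sum_fiberwise_of_maps_to hmap _]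
    refine le_trans (le_of_eq (sum_map univ ⟨fun τ : Fin 4 ↪ Fin m => τ.trans u.succAboveEmb,
      fun τ τ' h => by
        ext i
        exact Fin.val_eq_of_eq (Fin.succAbove_right_injective
          (congrArg (fun e : Fin 4 ↪ Fin (m + 1) => e i) h))⟩
      (fun σ => ∑ G ∈ realisations d, (f (switchMap σ G) - f G) ^ 2)).symm) ?_
    exact sum_le_sum_of_subset_of_nonneg (subset_univ _) fun σ _ _ =>
      sum_nonneg fun _ _ => sq_nonneg _
  have hadd : ∑ _u : Fin (m + 1), devOn (realisations d) f ≤
      C * devOn (realisations d) f + ∑ _u : Fin (m + 1), K * switchDir d f := by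
    rw [sum_congr rfl fun u _ => dev_split d u f, sum_add_distrib]
    exact add_le_add (hC (m + 1) d f) (sum_le_sum fun u _ => hu u)
  simp only [sum_const, card_univ, Fintype.card_fin, nsmul_eq_mul] at hadd
  push_cast at hadd
  rw [div_mul_eq_mul_div, div_mul_eq_mul_div, le_div_iff₀ (by linarith)]
  linarith

/-- Along a path of switches the values of `f` differ by a multiple of the Dirichlet sum. -/
lemma exists_pair_bound (G H : SimpleGraph (Fin n)) :
    ∃ L : ℝ, 0 ≤ L ∧ ∀ (d : Fin n → ℕ) (f : SimpleGraph (Fin n) → ℝ),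
      G ∈ realisations d → H ∈ realisations d → (f H - f G) ^ 2 ≤ L * switchDir d f := by
  by_cases hs : Switches G H
  swap
  · exact ⟨0, le_rfl, fun d f hG hH => absurd (switches_of_mem hG hH) hs⟩
  induction hs with
  | refl => exact ⟨0, le_rfl, fun d f _ _ => by simp⟩
  | @tail b c hb hstep ih =>
    obtain ⟨τ, rfl⟩ := hstep
    obtain ⟨L, hL, hLb⟩ := ih
    refine ⟨2 * L + 2, by linarith, fun d f hG _ => ?_⟩
    have hbm : b ∈ realisations d := Switches.mem hb hG
    have h1 := hLb d f hG hbm
    have h2 : (f (switchMap τ b) - f b) ^ 2 ≤ switchDir d f :=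
      (single_le_sum (f := fun G => (f (switchMap τ G) - f G) ^ 2) (fun _ _ => sq_nonneg _)
        hbm).trans (single_le_sum
          (f := fun σ => ∑ G ∈ realisations d, (f (switchMap σ G) - f G) ^ 2)
          (fun _ _ => sum_nonneg fun _ _ => sq_nonneg _) (mem_univ τ))
    nlinarith [sq_nonneg ((f (switchMap τ b) - f b) - (f b - f G))]

/-- A Poincaré inequality for each number of vertices, from connectivity. -/
lemma exists_poincare (n : ℕ) :
    ∃ K : ℝ, 0 ≤ K ∧ ∀ (d : Fin n → ℕ) (f : SimpleGraph (Fin n) → ℝ),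
      devOn (realisations d) f ≤ K * switchDir d f := by
  choose L hL0 hL using exists_pair_bound (n := n)
  refine ⟨∑ G, ∑ H, L G H, sum_nonneg fun G _ => sum_nonneg fun H _ => hL0 G H, fun d f => ?_⟩
  rcases (realisations d).eq_empty_or_nonempty with h | ⟨G₀, hG₀⟩
  · rw [devOn, h, sum_empty]
    exact mul_nonneg (sum_nonneg fun G _ => sum_nonneg fun H _ => hL0 G H) (switchDir_nonneg d f)
  calc devOn (realisations d) f ≤ ∑ G ∈ realisations d, (f G - f G₀) ^ 2 := by
        rw [sum_sub_sq _ f (f G₀)]
        exact le_add_of_nonneg_right (by positivity)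
    _ ≤ ∑ G ∈ realisations d, L G₀ G * switchDir d f := sum_le_sum fun G hG => hL G₀ G d f hG₀ hG
    _ = (∑ G ∈ realisations d, L G₀ G) * switchDir d f := (sum_mul ..).symm
    _ ≤ _ := mul_le_mul_of_nonneg_right ((sum_le_sum_of_subset_of_nonneg (subset_univ _)
        fun H _ _ => hL0 G₀ H).trans (single_le_sum (f := fun G => ∑ H, L G H)
          (fun G _ => sum_nonneg fun H _ => hL0 G H) (mem_univ G₀))) (switchDir_nonneg d f)

/-- The star inequality gives a Poincaré inequality polynomial in the number of vertices. -/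
theorem poincare_of_starBound {C : ℝ} (hC : StarBound C) :
    ∃ (k : ℕ) (A : ℝ), 0 ≤ A ∧ ∀ (n : ℕ), 1 ≤ n → ∀ (d : Fin n → ℕ)
      (f : SimpleGraph (Fin n) → ℝ),
      devOn (realisations d) f ≤ A * (n : ℝ) ^ k * switchDir d f := by
  set c : ℕ := ⌈C⌉₊ with hc
  have hCc : C ≤ c := Nat.le_ceil C
  choose K hK0 hK using exists_poincare
  set A : ℝ := ∑ i ∈ range (c + 1), K i with hA
  have hA0 : 0 ≤ A := sum_nonneg fun i _ => hK0 i
  have hbase : ∀ n ≤ c, K n ≤ A := fun n hn =>
    single_le_sum (fun i _ => hK0 i) (mem_range.2 (by omega))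
  have hind : ∀ n, c ≤ n → ∀ (d : Fin n → ℕ) (f : SimpleGraph (Fin n) → ℝ),
      devOn (realisations d) f ≤ A * (n.choose c : ℝ) * switchDir d f := by
    intro n hn
    induction n, hn using Nat.le_induction with
    | base =>
      intro d f
      rw [Nat.choose_self, Nat.cast_one, mul_one]
      exact (hK c d f).trans (mul_le_mul_of_nonneg_right (hbase c le_rfl) (switchDir_nonneg d f))
    | succ m hcm ih =>
      intro d f
      have hcm' : (c : ℝ) ≤ m := by exact_mod_cast hcm
      have h1 := poincare_step hC (by linarith) (by positivity) ih d f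
      refine h1.trans (mul_le_mul_of_nonneg_right ?_ (switchDir_nonneg d f))
      have e : (m.choose c : ℝ) * ((m : ℝ) + 1) = ((m + 1).choose c : ℝ) * ((m : ℝ) + 1 - c) := by
        have := congrArg (fun t : ℕ => (t : ℝ)) (Nat.choose_mul_succ_eq m c)
        push_cast [Nat.cast_sub (show c ≤ m + 1 by omega)] at this
        exact this
      rw [div_mul_eq_mul_div, div_le_iff₀ (by linarith)]
      calc ((m : ℝ) + 1) * (A * (m.choose c : ℝ)) = A * (m.choose c * ((m : ℝ) + 1)) := by ring
        _ = A * ((m + 1).choose c : ℝ) * ((m : ℝ) + 1 - c) := by rw [e]; ring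
        _ ≤ A * ((m + 1).choose c : ℝ) * ((m : ℝ) + 1 - C) :=
            mul_le_mul_of_nonneg_left (by linarith) (by positivity)
  refine ⟨c, A, hA0, fun n hn d f => ?_⟩
  rcases le_or_gt c n with h | h
  · refine (hind n h d f).trans (mul_le_mul_of_nonneg_right ?_ (switchDir_nonneg d f))
    exact mul_le_mul_of_nonneg_left (by exact_mod_cast Nat.choose_le_pow n c) hA0
  · refine (hK n d f).trans (mul_le_mul_of_nonneg_right ?_ (switchDir_nonneg d f))
    exact (hbase n h.le).trans (le_mul_of_one_le_right hA0
      (one_le_pow₀ (by exact_mod_cast hn)))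

/-- The star inequality implies rapid mixing of the switch chain for all degree vectors. -/
theorem rapid_of_starBound (h : ∃ C : ℝ, StarBound C) :
    ∃ k A : ℕ, ∀ (n : ℕ), 4 ≤ n → ∀ (d : Fin n → ℕ) (t : ℕ), A * n ^ k ≤ t →
      ∀ G ∈ realisations d, tvToUniform d G t ≤ 1 / 4 := by
  obtain ⟨C, hC⟩ := h
  obtain ⟨k, A, hA0, hP⟩ := poincare_of_starBound hC
  refine ⟨k + 6, 12 * (⌈A⌉₊ + 1), fun n hn d t ht G hG => ?_⟩
  have hpos : 1 ≤ (⌈A⌉₊ + 1) * n ^ k := Nat.mul_pos (by omega) (pow_pos (by omega) k)
  refine rapid_of_poincare hn d ((⌈A⌉₊ + 1) * n ^ k) hpos (fun f => ?_) t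
    (le_trans (le_of_eq ?_) ht) G hG
  · refine (hP n (by omega) d f).trans (mul_le_mul_of_nonneg_right ?_ (switchDir_nonneg d f))
    push_cast
    exact mul_le_mul_of_nonneg_right (by linarith [Nat.le_ceil A]) (by positivity)
  · rw [pow_add]; ring

end Vale.Agent.P335
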