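import Vale.Agent.P335.Fibre
import Vale.Agent.P335.Slice

/-!
# P335: exchanges of diagonal states are switches

The exchange of two disjoint pairs `p`, `q` is the switch of a tuple with `p` and `q` as its two
diagonals, so resampling all pairs costs at most the Dirichlet form of the switch chain.
-/

open Finset
open scoped Classical

namespace Vale.Agent.P335

variable {n : ℕ} {d : Fin n → ℕ}

/-- The two diagonals of a tuple. -/
noncomputable def diags (τ : Fin 4 ↪ Fin n) : Finset (Fin n) × Finset (Fin n) :=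
  ({τ 0, τ 3}, {τ 1, τ 2})

theorem swapQ_eq_switch {a b x y : Fin n} (hab : a ≠ b) (hxy : x ≠ y) {G : Rz d}
    (hax : a ≠ x) (hay : a ≠ y) (hbx : b ≠ x) (hby : b ≠ y) (hD : IsD {a, b} {x, y} G)
    (hA : G.1.Adj a x) :
    ∃ τ : Fin 4 ↪ Fin n, diags τ = ({a, b}, {x, y}) ∧
      (swapQ {a, b} {x, y} G).1 = switchMap τ G.1 := by
  let τ : Fin 4 ↪ Fin n := ⟨![a, x, y, b], by
    intro i j h
    fin_cases i <;> fin_cases j <;> simp_all [eq_comm]⟩
  obtain ⟨h1, h2⟩ := hD
  have hcx := h1 x (by simp)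
  have hcy := h1 y (by simp)
  have hca := h2 a (by simp)
  have hxa : G.1.Adj x a := hA.symm
  rw [cnt_pair hab] at hcx hcy
  rw [cnt_pair hxy, ind_comm G.1 x a, ind_comm G.1 y a] at hca
  simp only [ind, hA, if_true] at hcx hcy hca
  have hbx' : ¬G.1.Adj b x := fun h => by simp [h] at hcx
  have hay' : ¬G.1.Adj a y := fun h => by simp [h] at hca
  have hby' : G.1.Adj b y := by
    by_contra h
    simp [h, hay'] at hcy
  have hya : ¬G.1.Adj y a := fun h => hay' h.symm
  have hxb : ¬G.1.Adj x b := fun h => hbx' h.symm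
  have hc : CanSwitch τ G.1 :=
    ⟨hA, hby'.symm, hay', fun h => hbx' (SimpleGraph.adj_symm _ h)⟩
  have hflip : flipGraph {a, b} {x, y} G.1 = switchMap τ G.1 := by
    ext u v
    rw [switchMap_adj hc, flipGraph_adj]
    show _ ↔ (G.1.Adj u v ∧ s(u, v) ≠ s(a, x) ∧ s(u, v) ≠ s(y, b)) ∨ s(u, v) = s(a, y) ∨
      s(u, v) = s(x, b)
    by_cases hmem : ((u ∈ ({a, b} : Finset (Fin n)) ∧ v ∈ ({x, y} : Finset (Fin n))) ∨
        (v ∈ ({a, b} : Finset (Fin n)) ∧ u ∈ ({x, y} : Finset (Fin n))))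
    · simp only [hmem, iff_true]
      simp only [mem_insert, mem_singleton] at hmem
      rcases hmem with ⟨rfl | rfl, rfl | rfl⟩ | ⟨rfl | rfl, rfl | rfl⟩ <;>
        simp [hA, hay', hbx', hby', hxa, hax, hay, hbx, hby, hax.symm, hay.symm, hbx.symm,
          hby.symm, hab, hab.symm, hxy, hxy.symm, hby'.symm, hya, hxb]
    · have hne : ∀ c e, c ∈ ({a, b} : Finset (Fin n)) → e ∈ ({x, y} : Finset (Fin n)) →
          s(u, v) ≠ s(c, e) := fun c e hc he h => by
        rcases Sym2.eq_iff.1 h with ⟨rfl, rfl⟩ | ⟨rfl, rfl⟩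
        exacts [hmem (Or.inl ⟨hc, he⟩), hmem (Or.inr ⟨hc, he⟩)]
      rw [Sym2.eq_swap (a := y) (b := b), Sym2.eq_swap (a := x) (b := b)]
      simp only [hmem, iff_false, not_not, hne a x (by simp) (by simp), hne b y (by simp) (by simp),
        hne a y (by simp) (by simp), hne b x (by simp) (by simp), ne_eq, not_false_eq_true,
        and_true, or_false]
      exact ⟨fun h => h.2, fun h => ⟨h.ne, h⟩⟩
  refine ⟨τ, rfl, ?_⟩
  have hm : IsD {a, b} {x, y} G ∧ flipGraph {a, b} {x, y} G.1 ∈ realisations d :=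
    ⟨⟨h1, h2⟩, hflip ▸ switchMap_mem τ G.2⟩
  rw [show swapQ {a, b} {x, y} G = ⟨_, hm.2⟩ from dif_pos hm]
  exact hflip

/-- One exchange costs at most the switches with these diagonals. -/
theorem exchange_le (f : SimpleGraph (Fin n) → ℝ) {p q : Finset (Fin n)}
    (hp : #p = 2) (hq : #q = 2) (hpq : q ⊆ pᶜ) (G : Rz d) :
    (f (swapQ p q G).1 - f G.1) ^ 2 ≤
      ∑ τ ∈ univ.filter (fun τ : Fin 4 ↪ Fin n => diags τ = (p, q)),
        (f (switchMap τ G.1) - f G.1) ^ 2 := by
  obtain ⟨a, b, hab, rfl⟩ := card_eq_two.1 hp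
  obtain ⟨x, y, hxy, rfl⟩ := card_eq_two.1 hq
  by_cases hD : IsD {a, b} {x, y} G
  swap
  · rw [swapQ_of_not hD, sub_self, zero_pow two_ne_zero]
    exact sum_nonneg fun _ _ => sq_nonneg _
  have hx := mem_compl.1 (hpq (by simp : x ∈ ({x, y} : Finset (Fin n))))
  have hy := mem_compl.1 (hpq (by simp : y ∈ ({x, y} : Finset (Fin n))))
  simp only [mem_insert, mem_singleton, not_or] at hx hy
  obtain ⟨τ, hτ, he⟩ : ∃ τ : Fin 4 ↪ Fin n, diags τ = ({a, b}, {x, y}) ∧
      (swapQ {a, b} {x, y} G).1 = switchMap τ G.1 := by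
    by_cases hA : G.1.Adj a x
    · exact swapQ_eq_switch hab hxy (Ne.symm hx.1) (Ne.symm hy.1) (Ne.symm hx.2) (Ne.symm hy.2)
        hD hA
    · have hay' : G.1.Adj a y := by
        by_contra h
        have := hD.2 a (by simp)
        rw [cnt_pair hxy, ind_comm G.1 x a, ind_comm G.1 y a] at this
        simp [ind, hA, h] at this
      rw [pair_comm x y] at hD ⊢
      exact swapQ_eq_switch hab hxy.symm (Ne.symm hy.1) (Ne.symm hx.1) (Ne.symm hy.2)
        (Ne.symm hx.2) hD hay'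
  rw [he]
  exact single_le_sum (f := fun τ => (f (switchMap τ G.1) - f G.1) ^ 2)
    (fun _ _ => sq_nonneg _) (mem_filter.2 ⟨mem_univ _, hτ⟩)

/-- The pair resamplings cost at most half of the switches. -/
theorem pairs_le_switches (f : SimpleGraph (Fin n) → ℝ) :
    ∑ p ∈ (univ : Finset (Fin n)).powersetCard 2, cvar (key p) (fun G : Rz d => f G.1) ≤
      1 / 2 * ∑ τ : Fin 4 ↪ Fin n, ∑ G ∈ realisations d, (f (switchMap τ G) - f G) ^ 2 := by
  have hQ : ∀ p ∈ (univ : Finset (Fin n)).powersetCard 2,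
      cvar (key p) (fun G : Rz d => f G.1) ≤
        1 / 2 * ∑ q ∈ pᶜ.powersetCard 2, ∑ G : Rz d, (f (swapQ p q G).1 - f G.1) ^ 2 :=
    fun p hp => pair_cvar_le (fun M j F => Slice.slice_var_le M j F)
      (mem_powersetCard.1 hp).2 _
  refine (sum_le_sum hQ).trans ?_
  rw [← mul_sum]
  refine mul_le_mul_of_nonneg_left ?_ (by norm_num)
  set g : (Fin 4 ↪ Fin n) → ℝ :=
    fun τ => ∑ G : Rz d, (f (switchMap τ G.1) - f G.1) ^ 2 with hg
  set S := ((univ : Finset (Fin n)).powersetCard 2) ×ˢ ((univ : Finset (Fin n)).powersetCard 2)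
  calc ∑ p ∈ (univ : Finset (Fin n)).powersetCard 2, ∑ q ∈ pᶜ.powersetCard 2,
        ∑ G : Rz d, (f (swapQ p q G).1 - f G.1) ^ 2
      ≤ ∑ p ∈ (univ : Finset (Fin n)).powersetCard 2, ∑ q ∈ pᶜ.powersetCard 2,
        ∑ τ ∈ univ.filter (fun τ => diags τ = (p, q)), g τ := by
        refine sum_le_sum fun p hp => sum_le_sum fun q hq => ?_
        simp only [hg]
        rw [sum_comm]
        exact sum_le_sum fun G _ => exchange_le f (mem_powersetCard.1 hp).2
          (mem_powersetCard.1 hq).2 (mem_powersetCard.1 hq).1 G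
    _ ≤ ∑ p ∈ (univ : Finset (Fin n)).powersetCard 2,
        ∑ q ∈ (univ : Finset (Fin n)).powersetCard 2,
          ∑ τ ∈ univ.filter (fun τ => diags τ = (p, q)), g τ :=
        sum_le_sum fun p _ => sum_le_sum_of_subset_of_nonneg
          (powersetCard_mono (subset_univ _))
          fun _ _ _ => sum_nonneg fun _ _ => sum_nonneg fun _ _ => sq_nonneg _
    _ = ∑ τ : Fin 4 ↪ Fin n, g τ := by
        rw [← sum_product (f := fun pq : Finset (Fin n) × Finset (Fin n) =>
          ∑ τ ∈ univ.filter (fun τ => diags τ = pq), g τ)]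
        refine sum_fiberwise_of_maps_to (fun τ _ => ?_) g
        simp [diags, mem_powersetCard, τ.injective.eq_iff]
    _ = _ := sum_congr rfl fun τ _ =>
        sum_coe_sort (realisations d) fun G => (f (switchMap τ G) - f G) ^ 2

end Vale.Agent.P335
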